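import Mathlib
import Vale.Agent.P262.H703.Wrap

set_option linter.all false

/-!
# P262, top block (helper359), on helper703's `bodies`

`Kt B l t` is the body at time `t`: `Kt B l (length l) = B`, `Kt B l t = star (Kt B l (t+1)) v_t ∩ B`.
-/

open MeasureTheory Set Filter ProbabilityTheory
open scoped ENNReal NNReal Topology RealInnerProductSpace

namespace Vale.Agent.P262.H359

open Vale.Agent.P262 Vale.Agent.P262.H703

universe u
variable {E : Type u} [NormedAddCommGroup E] [InnerProductSpace ℝ E]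

/-! ## The operation `K * v` -/

theorem star_mono {K L : Set E} (h : K ⊆ L) (v : E) : H493.star K v ⊆ H493.star L v := by
  rintro x ⟨a, b, h1, h2, h3⟩
  exact ⟨a, b, h h1, h h2, h3⟩

theorem star_empty (v : E) : H493.star (∅ : Set E) v = ∅ := by
  ext x
  simp only [mem_empty_iff_false, iff_false]
  rintro ⟨a, b, h1, -⟩
  exact h1

theorem neg_mem_star {K : Set E} (hK : ∀ x ∈ K, -x ∈ K) (v : E) :
    ∀ x ∈ H493.star K v, -x ∈ H493.star K v := by
  rintro x ⟨a, b, h1, h2, h3, h4, h5⟩
  refine ⟨-b, -a, ?_, ?_, by linarith, by linarith, by linarith⟩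
  · have := hK _ h2
    rwa [neg_add, ← neg_smul] at this
  · have := hK _ h1
    rwa [neg_add, ← neg_smul] at this

theorem star_zero (K : Set E) : H493.star K (0 : E) = K := by
  ext x
  constructor
  · rintro ⟨a, b, h1, -⟩
    simpa using h1
  · intro h
    exact ⟨-1, 1, by simpa using h, by simpa using h, by norm_num, by norm_num, by norm_num⟩

/-- interior translates stay: if both `x + v` and `x - v` are in `K` then `x ∈ K * v` -/
theorem mem_star_of {K : Set E} {v x : E} (h1 : x - v ∈ K) (h2 : x + v ∈ K) : x ∈ H493.star K v :=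
  ⟨-1, 1, by simpa [sub_eq_add_neg] using h1, by simpa using h2, by norm_num, by norm_num,
    by norm_num⟩

theorem isClosed_star {K : Set E} (hK : IsCompact K) (v : E) :
    IsClosed (H493.star K v) := by
  by_cases hv : v = 0
  · subst hv
    rw [star_zero]
    exact hK.isClosed
  obtain ⟨R, hR⟩ := hK.isBounded.exists_norm_le
  have hv0 : 0 < ‖v‖ := norm_pos_iff.mpr hv
  set M : ℝ := 1 + 2 * R / ‖v‖ with hM
  haveI : CompactSpace (Icc (-M) M) := isCompact_iff_compactSpace.mp isCompact_Icc
  set S : Set (E × (Icc (-M) M × Icc (-M) M)) :=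
    {q | q.1 + (q.2.1 : ℝ) • v ∈ K ∧ q.1 + (q.2.2 : ℝ) • v ∈ K ∧
      2 ≤ (q.2.2 : ℝ) - (q.2.1 : ℝ) ∧ (q.2.1 : ℝ) ≤ 1 ∧ -1 ≤ (q.2.2 : ℝ)} with hS
  have c1 : Continuous fun q : E × (Icc (-M) M × Icc (-M) M) => (q.2.1 : ℝ) :=
    continuous_subtype_val.comp (continuous_fst.comp continuous_snd)
  have c2 : Continuous fun q : E × (Icc (-M) M × Icc (-M) M) => (q.2.2 : ℝ) :=
    continuous_subtype_val.comp (continuous_snd.comp continuous_snd)
  have hSc : IsClosed S := by
    refine IsClosed.inter (hK.isClosed.preimage (continuous_fst.add (c1.smul continuous_const))) ?_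
    refine IsClosed.inter (hK.isClosed.preimage (continuous_fst.add (c2.smul continuous_const))) ?_
    refine IsClosed.inter (isClosed_le continuous_const (c2.sub c1)) ?_
    exact IsClosed.inter (isClosed_le c1 continuous_const) (isClosed_le continuous_const c2)
  have h2 := isClosedMap_fst_of_compactSpace (X := E) (Y := Icc (-M) M × Icc (-M) M) _ hSc
  convert h2 using 1
  ext x
  constructor
  · rintro ⟨a, b, h1, h2, h3, h4, h5⟩
    have e1 := hR _ h1
    have e2 := hR _ h2
    have e3 : ‖(b - a) • v‖ ≤ 2 * R := by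
      have : (b - a) • v = (x + b • v) - (x + a • v) := by rw [sub_smul]; abel
      rw [this]
      exact (norm_sub_le _ _).trans (by linarith)
    rw [norm_smul, Real.norm_eq_abs, abs_of_nonneg (by linarith)] at e3
    have e4 : b - a ≤ 2 * R / ‖v‖ := by
      rw [le_div_iff₀ hv0]
      exact e3
    refine ⟨(x, (⟨a, ?_⟩, ⟨b, ?_⟩)), ⟨h1, h2, h3, h4, h5⟩, rfl⟩
    · constructor <;> simp only [hM] <;> linarith
    · constructor <;> simp only [hM] <;> linarith
  · rintro ⟨⟨x', ⟨⟨a, ha⟩, ⟨b, hb⟩⟩⟩, ⟨h1, h2, h3, h4, h5⟩, rfl⟩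
    exact ⟨a, b, h1, h2, h3, h4, h5⟩

theorem zero_mem_of_nonempty {K : Set E} (hK : Convex ℝ K) (hs : ∀ x ∈ K, -x ∈ K)
    (hne : K.Nonempty) : (0 : E) ∈ K := by
  obtain ⟨x, hx⟩ := hne
  have := hK hx (hs x hx) (by norm_num : (0 : ℝ) ≤ 1 / 2) (by norm_num : (0 : ℝ) ≤ 1 / 2)
    (by norm_num)
  simpa using this

/-! ## The bodies -/

theorem neg_mem_bodies {B : Set E} (hB : ∀ x ∈ B, -x ∈ B) (l : List E) :
    ∀ x ∈ bodies B l, -x ∈ bodies B l := by
  induction l with
  | nil => exact hB
  | cons v l ih => exact fun x hx => ⟨neg_mem_star ih _ x hx.1, hB x hx.2⟩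

theorem isCompact_bodies {B : Set E} (hB : IsCompact B) (l : List E) : IsCompact (bodies B l) := by
  induction l with
  | nil => exact hB
  | cons v l ih => exact hB.inter_left (isClosed_star ih _)

theorem measurableSet_bodies [MeasurableSpace E] [BorelSpace E] {B : Set E} (hB : IsCompact B)
    (l : List E) : MeasurableSet (bodies B l) :=
  (isCompact_bodies hB l).isClosed.measurableSet

/-- body at time `t` -/
def Kt (B : Set E) (l : List E) (t : ℕ) : Set E := bodies B (l.drop t)

theorem Kt_length (B : Set E) (l : List E) : Kt B l l.length = B := by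
  simp [Kt]

theorem Kt_zero (B : Set E) (l : List E) : Kt B l 0 = bodies B l := by
  simp [Kt]

theorem Kt_succ (B : Set E) (l : List E) {t : ℕ} (h : t < l.length) :
    Kt B l t = H493.star (Kt B l (t + 1)) l[t] ∩ B := by
  unfold Kt
  rw [List.drop_eq_getElem_cons h, bodies_cons]

theorem Kt_subset (B : Set E) (l : List E) (t : ℕ) : Kt B l t ⊆ B := bodies_subset _ _

theorem convex_Kt {B : Set E} (hB : Convex ℝ B) (l : List E) (t : ℕ) : Convex ℝ (Kt B l t) :=
  convex_bodies hB _

theorem neg_mem_Kt {B : Set E} (hB : ∀ x ∈ B, -x ∈ B) (l : List E) (t : ℕ) :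
    ∀ x ∈ Kt B l t, -x ∈ Kt B l t := neg_mem_bodies hB _

theorem isCompact_Kt {B : Set E} (hB : IsCompact B) (l : List E) (t : ℕ) :
    IsCompact (Kt B l t) := isCompact_bodies hB _

/-! ## Potentials -/

/-- **Potential principle, one step at a time.** -/
theorem nonempty_of_pot {B : Set E} {l : List E} (Pot : ℕ → Set E → ℝ≥0∞)
    (cost : ℕ → ℝ≥0∞)
    (h0 : Pot l.length B + ∑ t ∈ Finset.range l.length, cost t < Pot 0 ∅)
    (step : ∀ t < l.length, Pot (t + 1) (Kt B l (t + 1)) ≤
        Pot l.length B + ∑ t ∈ Finset.range l.length, cost t →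
      Pot t (Kt B l t) ≤ Pot (t + 1) (Kt B l (t + 1)) + cost t) :
    (bodies B l).Nonempty := by
  have key : ∀ t ≤ l.length, Pot t (Kt B l t) ≤
      Pot l.length B + ∑ s ∈ Finset.Ico t l.length, cost s := by
    intro t ht
    induction ht using Nat.decreasingInduction with
    | self => simp [Kt_length]
    | of_succ k hk ih =>
      have h1 : ∑ s ∈ Finset.Ico (k + 1) l.length, cost s ≤
          ∑ s ∈ Finset.range l.length, cost s := by
        apply Finset.sum_le_sum_of_subset
        intro s hs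
        rw [Finset.mem_Ico] at hs
        rw [Finset.mem_range]
        exact hs.2
      have h2 := step k hk (ih.trans (by gcongr))
      calc Pot k (Kt B l k) ≤ Pot (k + 1) (Kt B l (k + 1)) + cost k := h2
        _ ≤ Pot l.length B + ∑ s ∈ Finset.Ico (k + 1) l.length, cost s + cost k := by gcongr
        _ = Pot l.length B + ∑ s ∈ Finset.Ico k l.length, cost s := by
          rw [Finset.sum_eq_sum_Ico_succ_bot hk]
          ring
  rw [nonempty_iff_ne_empty]
  intro he
  have := key 0 (Nat.zero_le _)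
  rw [Kt_zero, he] at this
  rw [← Finset.range_eq_Ico] at this
  exact absurd h0 (not_lt.mpr this)

/-- **Potential principle, global form**: health at all later times gives the estimate at time
`T`. Here `p` is the health threshold and `Pot T` any functional with `Pot 0 ∅ > p`. -/
theorem nonempty_of_health {B : Set E} {l : List E} (Pot : ℕ → Set E → ℝ≥0∞) {p : ℝ≥0∞}
    (hp : p < Pot 0 ∅)
    (glob : ∀ T ≤ l.length, (∀ t, T < t → t ≤ l.length → Pot t (Kt B l t) ≤ p) →
      Pot T (Kt B l T) ≤ p) :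
    (bodies B l).Nonempty := by
  have key : ∀ n ≤ l.length, Pot (l.length - n) (Kt B l (l.length - n)) ≤ p := by
    intro n
    induction n using Nat.strong_induction_on with
    | _ n ih =>
      intro hn
      refine glob _ (Nat.sub_le _ _) fun t ht ht' => ?_
      have := ih (l.length - t) (by omega) (Nat.sub_le _ _)
      rwa [show l.length - (l.length - t) = t by omega] at this
  have h := key l.length le_rfl
  rw [Nat.sub_self, Kt_zero] at h
  rw [nonempty_iff_ne_empty]
  intro he
  rw [he] at h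
  exact absurd hp (not_lt.mpr h)

/-! ## The theorem for `σ(d)` from the main statement -/

/-- The main statement of the proof: nonempty bodies for the ball of radius `R0 √n` and vectors of
norm exactly `δ`, in every Euclidean space of dimension `n ≥ 1`. -/
def MainAt (R0 δ : ℝ) : Prop :=
  ∀ (E : Type) [NormedAddCommGroup E] [InnerProductSpace ℝ E] [FiniteDimensional ℝ E]
    [MeasurableSpace E] [BorelSpace E],
    1 ≤ Module.finrank ℝ E → ∀ l : List E, (∀ v ∈ l, ‖v‖ = δ) →
      (bodies (Metric.closedBall (0 : E) (R0 * Real.sqrt (Module.finrank ℝ E))) l).Nonempty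

theorem signedConst_of_main {R0 δ : ℝ} (hR : 0 < R0) (hδ : 0 < δ) (h : MainAt R0 δ) (d : ℕ)
    (hd : 1 ≤ d) : signedConst d ≤ ENNReal.ofReal ((4 * R0 / δ) * Real.sqrt d) := by
  have hfr : Module.finrank ℝ (WithLp 2 (EuclideanSpace ℝ (Fin d) × ℝ)) = d + 1 := by
    have e : Module.finrank ℝ (WithLp 2 (EuclideanSpace ℝ (Fin d) × ℝ)) =
        Module.finrank ℝ (EuclideanSpace ℝ (Fin d) × ℝ) :=
      (WithLp.linearEquiv 2 ℝ (EuclideanSpace ℝ (Fin d) × ℝ)).finrank_eq
    rw [e, Module.finrank_prod]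
    simp
  have key := signedConst_le_of_bodies_eq (d := d) (R := R0 * Real.sqrt ((d : ℝ) + 1)) hδ (by
    intro l hl
    borelize (WithLp 2 (EuclideanSpace ℝ (Fin d) × ℝ))
    have := h (WithLp 2 (EuclideanSpace ℝ (Fin d) × ℝ)) (by rw [hfr]; omega) l hl
    rw [hfr] at this
    push_cast at this
    exact this)
  refine key.trans (ENNReal.ofReal_le_ofReal ?_)
  have h1 : (1 : ℝ) ≤ d := by exact_mod_cast hd
  have h2 : Real.sqrt ((d : ℝ) + 1) ≤ 2 * Real.sqrt d := by
    rw [show (2 : ℝ) * Real.sqrt d = Real.sqrt (4 * d) by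
      rw [Real.sqrt_mul (by norm_num)]
      congr 1
      rw [show (4 : ℝ) = 2 ^ 2 by norm_num, Real.sqrt_sq (by norm_num)]]
    exact Real.sqrt_le_sqrt (by linarith)
  rw [div_mul_eq_mul_div, div_le_div_iff_of_pos_right hδ]
  have h3 : 0 ≤ Real.sqrt (d : ℝ) := Real.sqrt_nonneg _
  nlinarith

/-- the missing half of P262 from the main statement -/
theorem sigma_of_main {R0 δ : ℝ} (hR : 0 < R0) (hδ : 0 < δ) (h : MainAt R0 δ) :
    ∃ C : ℝ, 0 < C ∧ ∀ d : ℕ, 1 ≤ d → signedConst d ≤ ENNReal.ofReal (C * Real.sqrt d) :=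
  ⟨4 * R0 / δ, by positivity, fun d hd => signedConst_of_main hR hδ h d hd⟩

end Vale.Agent.P262.H359
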