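import Vale.Agent.P262.M2.Nodes
import Vale.Agent.P262.M2.Blocks
import Vale.Agent.P262.H148.PtS

/-!
# P262, milestone 2: the accounting at one point, extended form

Translation of the sums of `H148.Pt` (real numbers, indicators of inner moves, ends, first states)
into sums of the integrands of `Rt`, `It`, `Et`, `Bt`, `Ut`.
-/

set_option linter.all false

open MeasureTheory ProbabilityTheory Set
open scoped ENNReal RealInnerProductSpace
open Vale.Agent.P262.H118 (Iv st en iv_st K2 El2 paths)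

namespace Vale.Agent.P262.M2.Sys

variable {E : Type*} [NormedAddCommGroup E] [InnerProductSpace ℝ E] [FiniteDimensional ℝ E]
  [MeasurableSpace E] [BorelSpace E] {S : Sys E}

/-! ### slopes, potentials, distances -/

lemma A_toReal_pos_a (p : List ℕ) (m : ℕ) (x : E) : 0 < (S.A p m x).toReal :=
  ENNReal.toReal_pos (S.A_pos p m x).ne' (S.A_ne_top p m x)

/-- extended slope -/
lemma slp_eq_a (p : List ℕ) (m : ℕ) (x : E) {s : ℝ≥0∞} (hs : s ≠ ⊤) :
    S.slp p m x s = ENNReal.ofReal (H148.slope S.th (S.A p m x).toReal s.toReal) := by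
  have hA := A_toReal_pos_a (S := S) p m x
  have hAt := S.A_ne_top p m x
  have h8 : (1 : ℝ≥0∞) / 8 = ENNReal.ofReal (1 / 8) := by
    rw [ENNReal.ofReal_div_of_pos (by norm_num)]; simp
  have h1 : max (S.A p m x) (min s (1 / 8)) =
      ENNReal.ofReal (max (S.A p m x).toReal (min s.toReal (1 / 8))) := by
    rw [ENNReal.ofReal_max, ENNReal.ofReal_min, ENNReal.ofReal_toReal hAt,
      ENNReal.ofReal_toReal hs, h8]
  unfold slp H148.slope
  rw [h1, ← ENNReal.ofReal_rpow_of_nonneg (div_nonneg hA.le (H148.max_pos hA _).le) S.hth.le,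
    ENNReal.ofReal_div_of_pos (H148.max_pos hA _), ENNReal.ofReal_toReal hAt]

lemma slp_pos_a (p : List ℕ) (m : ℕ) (x : E) {s : ℝ≥0∞} (hs : s ≠ ⊤) : 0 < S.slp p m x s := by
  rw [slp_eq_a p m x hs, ENNReal.ofReal_pos]
  exact H148.slope_pos (A_toReal_pos_a p m x) _

lemma PsiE_eq_a (p : List ℕ) (m : ℕ) (x : E) (s : ℝ≥0∞) :
    S.PsiE p m x s = ENNReal.ofReal (H148.Psi S.th (S.A p m x).toReal s.toReal) := rfl

lemma F_ne_top_a (p : List ℕ) (m : ℕ) (x : E) : S.F p m x ≠ ⊤ :=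
  ne_top_of_le_ne_top ENNReal.one_ne_top (F_le_one p m x)

lemma De_ne_top_a (p : List ℕ) (m : ℕ) (x : E) : S.De p m x ≠ ⊤ :=
  ne_top_of_le_ne_top ENNReal.one_ne_top (S.De_le_one p m x)

lemma hf_eq_a (p : List ℕ) (m : ℕ) (x : E) :
    S.hf p m x = ENNReal.ofReal |(S.F p m x).toReal - (S.De p m x).toReal| := by
  have hF := F_ne_top_a (S := S) p m x
  have hD := De_ne_top_a (S := S) p m x
  unfold hf
  rcases le_total (S.F p m x) (S.De p m x) with h | h
  · rw [tsub_eq_zero_of_le h, zero_add, abs_of_nonpos (by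
      have := ENNReal.toReal_mono hD h; linarith), neg_sub,
      ENNReal.ofReal_sub _ ENNReal.toReal_nonneg, ENNReal.ofReal_toReal hD, ENNReal.ofReal_toReal hF]
  · rw [tsub_eq_zero_of_le h, add_zero, abs_of_nonneg (by
      have := ENNReal.toReal_mono hF h; linarith),
      ENNReal.ofReal_sub _ ENNReal.toReal_nonneg, ENNReal.ofReal_toReal hD, ENNReal.ofReal_toReal hF]

variable (S) in
/-- weight of a move, real -/
noncomputable def wtR (p : List ℕ) (m : ℕ) (x : E) : ℝ :=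
  H148.slope S.th (S.A p m x).toReal (max (S.F p m x).toReal (S.F p (m + 1) x).toReal)

/-- slope at the larger mass -/
lemma sw_eq_a (p : List ℕ) (m : ℕ) (x : E) : S.sw p m x = ENNReal.ofReal (S.wtR p m x) := by
  have hF := F_ne_top_a (S := S) p m x
  have hF' := F_ne_top_a (S := S) p (m + 1) x
  unfold sw wtR
  rw [slp_eq_a p m x (by simp [hF, hF']), ENNReal.toReal_max hF hF']

lemma wtR_pos_a (p : List ℕ) (m : ℕ) (x : E) : 0 < S.wtR p m x :=
  H148.slope_pos (A_toReal_pos_a p m x) _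

lemma sw_pos_a (p : List ℕ) (m : ℕ) (x : E) : 0 < S.sw p m x := by
  rw [sw_eq_a, ENNReal.ofReal_pos]
  exact wtR_pos_a p m x

/-- variation of the potential -/
lemma Psi_var_a (hth1 : S.th ≤ 1 / 2) {p : List ℕ} {m : ℕ} {x : E}
    (hA8 : (S.A p m x).toReal ≤ 1 / 8) :
    |H148.Psi S.th (S.A p m x).toReal (S.F p (m + 1) x).toReal -
      H148.Psi S.th (S.A p m x).toReal (S.F p m x).toReal| ≤
      2 * (S.wtR p m x * |(S.F p (m + 1) x).toReal - (S.F p m x).toReal|) := by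
  have h := H148.abs_Psi_le_max (th := S.th) (A := (S.A p m x).toReal)
    (x := (S.F p m x).toReal) (y := (S.F p (m + 1) x).toReal) S.hth.le hth1
    (A_toReal_pos_a (S := S) p m x) hA8 ENNReal.toReal_nonneg ENNReal.toReal_nonneg
  exact h

/-! ### inner moves, ends, first states -/

variable {j m : ℕ} {x : E}

lemma mem_omj_a : x ∈ S.omj j m ↔ S.actP j x m ∧ S.omP j x m := by
  unfold omj actP omP
  simp only [mem_inter_iff, mem_setOf_eq]
  constructor
  · rintro ⟨⟨h1, h2⟩, h3⟩; exact ⟨⟨h1, h2, h3.1⟩, h3⟩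
  · rintro ⟨⟨h1, h2, -⟩, h3⟩; exact ⟨⟨h1, h2⟩, h3⟩

lemma be_le_a (hm : m ≤ S.mT) (p : List ℕ) (x : E) : S.be p m x ≤ S.mT := by
  have := S.mv.eS_lt (B := S.BB p m x) (tm_lt_p hm)
  unfold be mT; omega

lemma bs_lt_be_a (hm : m ≤ S.mT) (p : List ℕ) (x : E) : S.bs p m x < S.be p m x := by
  have h1 := (iv_st (zero_mem_BB (S := S) p m x) (tm_lt_p hm)).1.2.1
  have h2 := S.mv.n_succ (st (S.BB p m x) (S.mv.tm m))
  have h3 := S.mv.n_mono (Nat.succ_le_of_lt h1)
  rw [Nat.succ_eq_add_one] at h3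
  unfold bs be El2.sS El2.eS
  omega

lemma inn_iff_a (hm : m ≤ S.mT) :
    x ∈ S.inn j m ↔ m + 1 ∉ S.BP j x ∧ m + 1 < S.mT + 1 := by
  have ht := tm_lt_p hm
  constructor
  · intro h
    have h : m < S.be (S.nd m x j) m x := h
    have h1 := be_le_a hm (S.nd m x j) x
    have h2 : S.Same (S.BB (S.nd m x j) m x) m (m + 1) := same_succ ht h
    refine ⟨fun h3 => ?_, by omega⟩
    have h3 : S.bs (S.nd (m + 1) x j) (m + 1) x = m + 1 := h3
    rw [nd_same_block h2 ht j (by omega), bs_same h2 ht] at h3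
    have := bs_le (S := S) (S.nd m x j) m x
    omega
  · rintro ⟨h1, h2⟩
    obtain ⟨h3, h4⟩ := same_of_not_B (S := S) (j := j) (x := x) (m := m) (by omega) h1
    have h5 := tm_lt_p (S := S) (m := m + 1) (by omega)
    show m < S.be (S.nd m x j) m x
    rw [h3, be_same h4 h5]
    have := le_be (S := S) (S.nd (m + 1) x j) x h5
    omega

/-- an inner move keeps the node -/
lemma nd_succ_a (hm : m ≤ S.mT) (h : x ∈ S.inn j m) : S.nd (m + 1) x j = S.nd m x j :=
  nd_same_block (same_succ (tm_lt_p hm) h) (tm_lt_p hm) j (by omega)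

/-- star moves are inner -/
lemma star_inn_a (h : S.mv.IsStar m) (hm : m ≤ S.mT) : x ∈ S.inn j m :=
  (S.mv.active_inside (zero_mem_BB (S := S) (S.nd m x j) m x) (Or.inl h) (tm_lt_p hm)).1

open Classical in
lemma ac_inn_a (hm : m ≤ S.mT) (f : ℕ → ℝ) :
    H148.ac (S.actP j x) (H148.inn (S.BP j x) (S.mT + 1) (S.omP j x) f) m =
      if x ∈ S.omj j m ∩ S.inn j m then f m else 0 := by
  unfold H148.ac H148.inn
  have key : x ∈ S.omj j m ∩ S.inn j m ↔ (S.actP j x m ∧ S.omP j x m) ∧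
      (m + 1 ∉ S.BP j x ∧ m + 1 < S.mT + 1) := by
    rw [mem_inter_iff, mem_omj_a, inn_iff_a hm]
  by_cases h1 : S.actP j x m
  · by_cases h2 : S.omP j x m ∧ m + 1 ∉ S.BP j x ∧ m + 1 < S.mT + 1
    · rw [if_pos h1, if_pos h2, if_pos (key.2 ⟨⟨h1, h2.1⟩, h2.2⟩)]
    · rw [if_pos h1, if_neg h2, if_neg fun h => h2 ⟨(key.1 h).1.2, (key.1 h).2⟩]
  · rw [if_neg h1, if_neg fun h => h1 (key.1 h).1.1]

open Classical in
lemma ac_ends_a (hm : m ≤ S.mT) {c : ℕ → ℝ} (hc : 0 ≤ c m) :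
    H148.ac (S.actP j x) (H148.ends (S.BP j x) (S.mT + 1) (S.omP j x) c) m ≤
      if x ∈ S.omj j m ∩ S.edg j m then c m else 0 := by
  have hb := bs_lt_be_a hm (S.nd m x j) x
  have hl : (m + 1 ∈ S.BP j x ∨ m + 1 = S.mT + 1) → S.be (S.nd m x j) m x = m := by
    intro h
    by_contra hcon
    have h1 := le_be (S := S) (S.nd m x j) x (tm_lt_p hm)
    have h2 : x ∈ S.inn j m := by
      show m < S.be (S.nd m x j) m x
      omega
    rw [inn_iff_a hm] at h2
    rcases h with h | h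
    · exact h2.1 h
    · omega
  have hR : 0 ≤ if x ∈ S.omj j m ∩ S.edg j m then c m else 0 := by
    split_ifs
    · exact hc
    · exact le_rfl
  unfold H148.ac
  by_cases h1 : S.actP j x m
  swap
  · rw [if_neg h1]; exact hR
  rw [if_pos h1]
  unfold H148.ends H148.fst H148.lst
  by_cases h2 : S.omP j x m
  swap
  · rw [if_neg fun h => h2 h.1, if_neg fun h => h2 h.1, add_zero]
    exact hR
  have h3 : x ∈ S.omj j m := mem_omj_a.2 ⟨h1, h2⟩
  by_cases h4 : m ∈ S.BP j x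
  · have h5 : S.bs (S.nd m x j) m x = m := h4
    have h6 : x ∈ S.edg j m := Or.inl h5
    rw [if_pos ⟨h2, h4⟩, if_neg, if_pos ⟨h3, h6⟩, add_zero]
    rintro ⟨-, h7⟩
    have := hl h7
    omega
  · rw [if_neg fun h => h4 h.2, zero_add]
    by_cases h5 : m + 1 ∈ S.BP j x ∨ m + 1 = S.mT + 1
    · have h6 : x ∈ S.edg j m := Or.inr (hl h5)
      rw [if_pos ⟨h2, h5⟩, if_pos ⟨h3, h6⟩]
    · rw [if_neg fun h => h5 h.2]
      exact hR

open Classical in
lemma ac_flf_a {f : ℕ → ℝ} (hf : 0 ≤ f m) :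
    H148.ac (S.actP j x) (H148.flf (S.lvP j x) f) m ≤
      if x ∈ S.NL j m ∩ S.OL j m ∩ {x | S.l0 (S.nd m x j) m = m} then f m else 0 := by
  have hR : 0 ≤ if x ∈ S.NL j m ∩ S.OL j m ∩ {x | S.l0 (S.nd m x j) m = m} then f m else 0 := by
    split_ifs
    · exact hf
    · exact le_rfl
  unfold H148.ac
  by_cases h1 : S.actP j x m
  swap
  · rw [if_neg h1]; exact hR
  rw [if_pos h1]
  unfold H148.flf
  by_cases h2 : m ∈ S.lvP j x
  · rw [if_pos h2, if_pos (show x ∈ S.NL j m ∩ S.OL j m ∩ {x | S.l0 (S.nd m x j) m = m} from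
      ⟨⟨h1.1, h1.2.1⟩, h2⟩)]
  · rw [if_neg h2]; exact hR

open Classical in
lemma ac_fst_a (f : ℕ → ℝ) :
    H148.ac (S.actP j x) (H148.fst (S.BP j x) (S.omP j x) f) m =
      if x ∈ S.NL j m ∩ S.OL j m ∩ {x | x ∈ S.om (S.nd m x j) m ∧ S.bs (S.nd m x j) m x = m}
        then f m else 0 := by
  unfold H148.ac H148.fst
  by_cases h1 : S.actP j x m
  · by_cases h2 : S.omP j x m ∧ m ∈ S.BP j x
    · rw [if_pos h1, if_pos h2, if_pos ⟨⟨h1.1, h1.2.1⟩, h2⟩]
    · rw [if_pos h1, if_neg h2, if_neg fun h => h2 h.2]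
  · rw [if_neg h1, if_neg fun h => h1 ⟨h.1.1, h.1.2, h.2.1.1⟩]

/-- the last state is not the first one of a block -/
lemma not_first_mT_a (p : List ℕ) (x : E) : S.bs p S.mT x ≠ S.mT := by
  have h1 := bs_lt_be_a (S := S) le_rfl p x
  have h2 := be_le_a (S := S) le_rfl p x
  omega

lemma not_l0_mT_a (p : List ℕ) : S.l0 p S.mT ≠ S.mT := by
  intro h
  have h1 : S.mv.sS (S.K.nw p) S.mT ≤ S.bs p S.mT (0 : E) :=
    S.mv.sS_mono (nw_sub_BB p S.mT 0) (S.K.zero_mem_nw _) _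
  have h2 := bs_lt_be_a (S := S) le_rfl p (0 : E)
  have h3 := be_le_a (S := S) le_rfl p (0 : E)
  have h4 : S.mv.sS (S.K.nw p) S.mT = S.mT := h
  omega

/-! ### from real to extended sums -/

lemma iw_mul_a (s : Set E) (x : E) [Decidable (x ∈ s)] (a : ℝ≥0∞) :
    iw s x * a = if x ∈ s then a else 0 := by
  unfold iw
  by_cases h : x ∈ s
  · rw [indicator_of_mem h, if_pos h]; simp
  · rw [indicator_of_notMem h, if_neg h]; simp

lemma ofReal_ite_a (s : Set E) (x : E) [Decidable (x ∈ s)] (a : ℝ) :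
    ENNReal.ofReal (if x ∈ s then a else 0) = iw s x * ENNReal.ofReal a := by
  rw [iw_mul_a]
  split_ifs
  · rfl
  · exact ENNReal.ofReal_zero

end Vale.Agent.P262.M2.Sys
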