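import Vale.Agent.P262.H148.LinSys
import Vale.Agent.P262.H148.Life

/-!
# P262, milestone 2: the accounting, finite part

The linear system over the levels (`lin_sys`) with the constants of the integrated inequalities
(T1), (T2), and the bound of the last deficit of the root.
-/

namespace Vale.Agent.P262.H359

open Finset Vale.Agent.P262.H148

/-- star activity of one level -/
lemma fin_star {R Pa Pb B I C et : ℝ} (hC : 0 ≤ C) (hB : 0 ≤ B) (hI : 0 ≤ I)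
    (hR : 0 ≤ R) (het1 : et ≤ 1) (hCet : 4 * (C * et) ≤ 1) (h1 : R + C * Pb ≤ C * Pa)
    (h2 : Pa ≤ Pb + 20 * B + 2 * (1 + et) * I + 2 * et * R) : R ≤ 40 * C * (B + I) := by
  have h3 := mul_le_mul_of_nonneg_left h2 hC
  have h4 : C * (2 * (1 + et) * I) ≤ C * (4 * I) := by
    apply mul_le_mul_of_nonneg_left _ hC
    nlinarith
  have h5 : C * (2 * et * R) ≤ 1 / 2 * R := by nlinarith
  nlinarith [mul_nonneg hC hB, mul_nonneg hC hI]

/-- units and star activity of one level -/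
lemma fin_unit {U R B I C KL et : ℝ} (hC : 0 ≤ C) (hKL : 0 ≤ KL) (hB : 0 ≤ B) (hI : 0 ≤ I)
    (hR : 0 ≤ R) (het1 : et ≤ 1) (h1 : R ≤ 40 * C * (B + I))
    (h2 : U ≤ KL * (B + 2 * (2 + et) * (R + I))) :
    U + R ≤ (6 * KL + 40 * C * (6 * KL + 1)) * (B + I) := by
  have h3 : 2 * (2 + et) * (R + I) ≤ 6 * (R + I) := by nlinarith
  have h4 : U ≤ KL * (B + 6 * (R + I)) :=
    h2.trans (mul_le_mul_of_nonneg_left (by linarith) hKL)
  have h5 : KL * (6 * R) ≤ KL * (6 * (40 * C * (B + I))) :=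
    mul_le_mul_of_nonneg_left (by linarith) hKL
  nlinarith [mul_nonneg hKL hB, mul_nonneg hKL hI]

/-- **the levels together** -/
theorem fin_levels {n : ℕ} {U R B I : ℕ → ℝ} {C KL et kp ep b k2 lam A0 : ℝ} (hn : 0 < n)
    (hU : ∀ l, l < n → 0 ≤ U l) (hR : ∀ l, l < n → 0 ≤ R l) (hB : ∀ l, l < n → 0 ≤ B l)
    (hI : ∀ l, l < n → 0 ≤ I l) (hC : 0 ≤ C) (hKL : 0 ≤ KL) (hkp : 0 ≤ kp) (hep : 0 ≤ ep)
    (hb : 0 ≤ b) (hk2 : 0 ≤ k2) (hlam : 0 < lam) (hA0 : 0 < A0) (het0 : 0 ≤ et) (het1 : et ≤ 1)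
    (h1 : ∀ l, l < n → R l ≤ 40 * C * (B l + I l))
    (h2 : ∀ l, l < n → U l ≤ KL * (B l + 2 * (2 + et) * (R l + I l)))
    (h3 : B 0 ≤ A0)
    (h4 : ∀ l, l + 1 < n → B (l + 1) ≤ kp * U l)
    (h5 : ∀ l, l < n → I l ≤ ep * ∑ i ∈ Ico l n, b ^ (i - l) * (U i + R i + B i + I i) +
      ep * ∑ i ∈ range l, k2 ^ (l - i) * (U i + R i + B i + I i))
    (c1 : 2 * b ≤ lam) (c2 : lam * k2 ≤ 1 / 2)
    (c3 : (6 * KL + 40 * C * (6 * KL + 1) + 1) * (lam * kp + 3 * ep) ≤ 1 / 2)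
    (c4 : 640 * (C * et) ≤ 1) (c5 : 256 * ((6 * KL + 40 * C * (6 * KL + 1) + 1) * ep) ≤ 1) :
    ∑ l ∈ range n, lam ^ l * (U l + R l + B l + I l) ≤
        2 * (6 * KL + 40 * C * (6 * KL + 1) + 1) * A0 ∧
      2 * (1 + et) * I 0 + 2 * et * R 0 ≤ A0 / 2 - A0 / 8 := by
  set K := 6 * KL + 40 * C * (6 * KL + 1) with hK
  have hK0 : 0 ≤ K := by
    have : 0 ≤ C * (6 * KL + 1) := by positivity
    rw [hK]; linarith
  obtain ⟨e1, e2⟩ := lin_sys (n := n) (U := U) (R := R) (B := B) (I := I) (K := K) (kp := kp)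
    (ep := ep) (b := b) (k2 := k2) (lam := lam) (be := A0) hU hR hB hI hK0 hkp hep hb hk2 hlam
    hA0.le
    (fun l hl => fin_unit hC hKL (hB l hl) (hI l hl) (hR l hl) het1 (h1 l hl) (h2 l hl)) h3
    (fun l hl => (h4 l hl).trans (mul_le_mul_of_nonneg_left (by
      have := hR l (by omega); have := hB l (by omega); have := hI l (by omega)
      linarith) hkp)) h5 c1 c2 c3
  refine ⟨e1, ?_⟩
  have e3 : I 0 ≤ 6 * (K + 1) * ep * A0 := by
    refine le_trans ?_ e2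
    have := single_le_sum (f := fun l => lam ^ l * I l)
      (fun l hl => mul_nonneg (pow_nonneg hlam.le l) (hI l (mem_range.1 hl))) (mem_range.2 hn)
    simpa using this
  have e4 : I 0 ≤ A0 / 40 := by
    have : (K + 1) * ep ≤ 1 / 256 := by linarith
    have h6 : 6 * ((K + 1) * ep) * A0 ≤ 6 * (1 / 256) * A0 :=
      mul_le_mul_of_nonneg_right (by linarith) hA0.le
    have h7 : 6 * (K + 1) * ep * A0 = 6 * ((K + 1) * ep) * A0 := by ring
    rw [h7] at e3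
    linarith
  have hI0 := hI 0 hn
  have e5 : 2 * (1 + et) * I 0 ≤ 4 * I 0 := by nlinarith
  have e6 : 2 * et * R 0 ≤ A0 / 4 := by
    have h6 := mul_le_mul_of_nonneg_left (h1 0 hn) het0
    have h7 : et * (40 * C * (B 0 + I 0)) = (C * et) * 40 * (B 0 + I 0) := by ring
    have h8 : B 0 + I 0 ≤ 2 * A0 := by linarith
    have h9 : 0 ≤ B 0 + I 0 := add_nonneg (hB 0 hn) hI0
    have h10 : (C * et) * 40 * (B 0 + I 0) ≤ 1 / 640 * 40 * (B 0 + I 0) := by
      apply mul_le_mul_of_nonneg_right _ h9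
      linarith
    nlinarith
  linarith

/-- **the deficit of the root** -/
theorem fin_root {th A0 D : ℝ} (hth : 0 ≤ th) (hth1 : th ≤ 1) (hA0 : 0 < A0)
    (h : Psi th A0 (max A0 D) ≤ Psi th A0 A0 + (A0 / 2 - A0 / 8)) : D ≤ 2 * A0 := by
  by_contra hcon
  push Not at hcon
  have h1 : Psi th A0 (2 * A0) ≤ Psi th A0 (max A0 D) :=
    Psi_mono hth hA0 (hcon.le.trans (le_max_right _ _))
  have h2 := Psi_sub_ge hth hA0 (show A0 ≤ 2 * A0 by linarith)
  have h3 := slope_ge hth hA0 (show A0 ≤ 2 * A0 by linarith)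
  have h4 : (1 : ℝ) / 2 ≤ (A0 / (2 * A0)) ^ th := by
    have e : A0 / (2 * A0) = 1 / 2 := by field_simp
    rw [e]
    calc (1 : ℝ) / 2 = (1 / 2) ^ (1 : ℝ) := by rw [Real.rpow_one]
      _ ≤ (1 / 2) ^ th := Real.rpow_le_rpow_of_exponent_ge (by norm_num) (by norm_num) hth1
  have h5 : 1 / 2 * (2 * A0 - A0) ≤ slope th A0 (2 * A0) * (2 * A0 - A0) :=
    mul_le_mul_of_nonneg_right (h4.trans h3) (by linarith)
  linarith

end Vale.Agent.P262.H359
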