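import Vale.Agent.P262.H359.Acc2Meas

/-!
# P262, milestone 2: (T1), (T2) and the root, integrated
-/

set_option linter.all false

open MeasureTheory ProbabilityTheory Set
open scoped ENNReal RealInnerProductSpace
open Vale.Agent.P262.H118 (Iv st en iv_st K2 El2 paths)

namespace Vale.Agent.P262.M2.Sys

variable {E : Type*} [NormedAddCommGroup E] [InnerProductSpace ℝ E] [FiniteDimensional ℝ E]
  [MeasurableSpace E] [BorelSpace E] {S : Sys E} {G : List ℕ → ℕ → E → ℝ≥0∞} {j : ℕ}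

omit [NormedAddCommGroup E] [InnerProductSpace ℝ E] [FiniteDimensional ℝ E] [BorelSpace E] in
lemma sum_lint_le_a (μ : Measure E) (s : Finset ℕ) (f : ℕ → E → ℝ≥0∞) :
    ∑ i ∈ s, ∫⁻ x, f i x ∂μ ≤ ∫⁻ x, ∑ i ∈ s, f i x ∂μ := by
  classical
  induction s using Finset.induction_on with
  | empty => simp
  | insert a s ha ih =>
    rw [Finset.sum_insert ha]
    simp only [Finset.sum_insert ha]
    exact (add_le_add le_rfl ih).trans (le_lintegral_add _ _)

/-! ### the totals -/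

lemma Rt_eq_a (j : ℕ) : S.Rt G j = ∑ m ∈ Finset.range S.mT, ∫⁻ x, S.eR G j m x ∂stdGaussian E := by
  classical
  unfold Rt eR
  refine Finset.sum_congr rfl fun m _ => ?_
  by_cases h : S.mv.IsStar m
  · simp only [if_pos h]
  · simp only [if_neg h, lintegral_zero]

variable (S G) in
open Classical in
/-- other moves -/
noncomputable def Mt (j : ℕ) : ℝ≥0∞ :=
  ∑ m ∈ Finset.range S.mT, if S.mv.IsStar m then 0 else S.Pt G j m

lemma Mt_eq_a (j : ℕ) : S.Mt G j = ∑ m ∈ Finset.range S.mT, ∫⁻ x, S.eI G j m x ∂stdGaussian E := by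
  classical
  unfold Mt eI Pt
  refine Finset.sum_congr rfl fun m _ => ?_
  by_cases h : S.mv.IsStar m
  · simp only [if_pos h, lintegral_zero]
  · simp only [if_neg h]

lemma It_eq_a (j : ℕ) : S.It G j = S.Mt G j + S.Et j := rfl

lemma Et_eq_a (j : ℕ) : S.Et j = ∑ m ∈ Finset.range (S.mT + 1), ∫⁻ x, S.eE j m x ∂stdGaussian E :=
  rfl

lemma Bt_eq_a (j : ℕ) : S.Bt j = ∑ m ∈ Finset.range S.mT, ∫⁻ x, S.eB j m x ∂stdGaussian E := rfl

lemma Ut_eq_a (j : ℕ) : S.Ut j = ∑ m ∈ Finset.range S.mT, ∫⁻ x, S.eU j m x ∂stdGaussian E := rfl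

variable (S) in
/-- potentials before the stars -/
noncomputable def Pa (j : ℕ) : ℝ≥0∞ := ∑ m ∈ Finset.range S.mT, ∫⁻ x, S.eP0 j m x ∂stdGaussian E

variable (S) in
/-- potentials after the stars -/
noncomputable def Pb (j : ℕ) : ℝ≥0∞ := ∑ m ∈ Finset.range S.mT, ∫⁻ x, S.eP1 j m x ∂stdGaussian E

lemma lint_sum_a {f : ℕ → E → ℝ≥0∞} (hf : ∀ m, Measurable (f m)) (n : ℕ) :
    ∫⁻ x, ∑ m ∈ Finset.range n, f m x ∂stdGaussian E =
      ∑ m ∈ Finset.range n, ∫⁻ x, f m x ∂stdGaussian E :=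
  lintegral_finset_sum _ fun m _ => hf m

lemma meas_sum_a {f : ℕ → E → ℝ≥0∞} (hf : ∀ m, Measurable (f m)) (n : ℕ) :
    Measurable fun x => ∑ m ∈ Finset.range n, f m x :=
  Finset.measurable_fun_sum _ fun m _ => hf m

/-- integral of the right side of (T1) without the entrances -/
lemma int_rhs_a (hG : ∀ p m, Measurable (G p m)) (j : ℕ) (et : ℝ) :
    ∫⁻ x, (2 * ∑ m ∈ Finset.range (S.mT + 1), S.eE j m x +
      (ENNReal.ofReal et * (2 * ∑ m ∈ Finset.range S.mT, S.eR G j m x) +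
        ENNReal.ofReal (1 + et) * (2 * ∑ m ∈ Finset.range S.mT, S.eI G j m x))) ∂stdGaussian E =
      2 * S.Et j + (ENNReal.ofReal et * (2 * S.Rt G j) +
        ENNReal.ofReal (1 + et) * (2 * S.Mt G j)) := by
  have hE := meas_sum_a (fun m => meas_eE_a (S := S) j m) (S.mT + 1)
  have hR := meas_sum_a (fun m => meas_eR_a (S := S) hG j m) S.mT
  have hI := meas_sum_a (fun m => meas_eI_a (S := S) hG j m) S.mT
  rw [lintegral_add_left (hE.const_mul _), lintegral_add_left ((hR.const_mul _).const_mul _),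
    lintegral_const_mul _ hE, lintegral_const_mul _ (hR.const_mul _), lintegral_const_mul _ hR,
    lintegral_const_mul _ (hI.const_mul _), lintegral_const_mul _ hI,
    lint_sum_a fun m => meas_eE_a (S := S) j m, lint_sum_a fun m => meas_eR_a (S := S) hG j m,
    lint_sum_a fun m => meas_eI_a (S := S) hG j m, ← Et_eq_a, ← Rt_eq_a, ← Mt_eq_a]

/-- **(T1)**, integrated -/
theorem int_T1 (hG : ∀ p m, Measurable (G p m)) (hj : j < S.nl) (hth1 : S.th ≤ 1 / 2) {et : ℝ}
    (het0 : 0 ≤ et) (hM4 : 4 ≤ S.M) (het : 1 ≤ et * ((S.M / 4) ^ (1 - S.th) - 2))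
    (hM : S.MOVE G) (hC : S.CLOSE) :
    S.Pa j ≤ S.Pb j + (ENNReal.ofReal 20 * S.Bt j + (2 * S.Et j +
      (ENNReal.ofReal et * (2 * S.Rt G j) + ENNReal.ofReal (1 + et) * (2 * S.Mt G j)))) := by
  have hP1 := meas_sum_a (fun m => meas_eP1_a (S := S) j m) S.mT
  have hB := meas_sum_a (fun m => meas_eB_a (S := S) j m) S.mT
  calc S.Pa j ≤ ∫⁻ x, ∑ m ∈ Finset.range S.mT, S.eP0 j m x ∂stdGaussian E :=
        sum_lint_le_a _ _ _
    _ ≤ ∫⁻ x, (∑ m ∈ Finset.range S.mT, S.eP1 j m x +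
      (ENNReal.ofReal 20 * ∑ m ∈ Finset.range S.mT, S.eB j m x +
      (2 * ∑ m ∈ Finset.range (S.mT + 1), S.eE j m x +
      (ENNReal.ofReal et * (2 * ∑ m ∈ Finset.range S.mT, S.eR G j m x) +
        ENNReal.ofReal (1 + et) * (2 * ∑ m ∈ Finset.range S.mT, S.eI G j m x)))))
          ∂stdGaussian E :=
        lintegral_mono fun x => t1_pt (hj.le) hth1 het0 hM4 het
          (fun m hm hx => hM j hj m hm x hx) (fun m hm hx => hC j hj m hm x hx)
    _ = _ := by
        rw [lintegral_add_left hP1, lintegral_add_left (hB.const_mul _), int_rhs_a hG,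
          lintegral_const_mul _ hB, lint_sum_a fun m => meas_eP1_a (S := S) j m,
          lint_sum_a fun m => meas_eB_a (S := S) j m]
        rfl

/-- **(T2)**, integrated -/
theorem int_T2 (hG : ∀ p m, Measurable (G p m)) (hj : j < S.nl) (hth1 : S.th ≤ 1 / 2) {et : ℝ}
    (het0 : 0 ≤ et) (hM4 : 4 ≤ S.M) (het : 1 ≤ et * ((S.M / 4) ^ (1 - S.th) - 2))
    (hM : S.MOVE G) (hC : S.CLOSE) {K : ℝ} (hK : 0 < K) (hL : S.LBL2 G K) :
    S.Ut j ≤ ENNReal.ofReal K * S.Bt j + ENNReal.ofReal K * (2 * S.Et j +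
        ENNReal.ofReal (2 + et) * (2 * S.Rt G j + 2 * S.Mt G j)) := by
  have hB := meas_sum_a (fun m => meas_eB_a (S := S) j m) S.mT
  have hE := meas_sum_a (fun m => meas_eE_a (S := S) j m) (S.mT + 1)
  have hR := meas_sum_a (fun m => meas_eR_a (S := S) hG j m) S.mT
  have hI := meas_sum_a (fun m => meas_eI_a (S := S) hG j m) S.mT
  calc S.Ut j ≤ ∫⁻ x, ∑ m ∈ Finset.range S.mT, S.eU j m x ∂stdGaussian E :=
        sum_lint_le_a _ _ _
    _ ≤ ∫⁻ x, (ENNReal.ofReal K * ∑ m ∈ Finset.range S.mT, S.eB j m x +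
      ENNReal.ofReal K * (2 * ∑ m ∈ Finset.range (S.mT + 1), S.eE j m x +
        ENNReal.ofReal (2 + et) * (2 * ∑ m ∈ Finset.range S.mT, S.eR G j m x +
          2 * ∑ m ∈ Finset.range S.mT, S.eI G j m x))) ∂stdGaussian E :=
        lintegral_mono fun x => t2_pt (hj.le) hth1 het0 hM4 het
          (fun m hm hx => hM j hj m hm x hx) (fun m hm hx => hC j hj m hm x hx) hK
          (fun m hm hx => hL j hj m hm x hx)
    _ = _ := by
        have h1 : Measurable fun x => 2 * ∑ m ∈ Finset.range S.mT, S.eR G j m x +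
          2 * ∑ m ∈ Finset.range S.mT, S.eI G j m x := (hR.const_mul _).add (hI.const_mul _)
        have h2 : Measurable fun x => 2 * ∑ m ∈ Finset.range (S.mT + 1), S.eE j m x +
          ENNReal.ofReal (2 + et) * (2 * ∑ m ∈ Finset.range S.mT, S.eR G j m x +
          2 * ∑ m ∈ Finset.range S.mT, S.eI G j m x) := (hE.const_mul _).add (h1.const_mul _)
        rw [lintegral_add_left (hB.const_mul _), lintegral_const_mul _ hB,
          lintegral_const_mul _ h2, lintegral_add_left (hE.const_mul _),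
          lintegral_const_mul _ hE, lintegral_const_mul _ h1,
          lintegral_add_left (hR.const_mul _), lintegral_const_mul _ hR,
          lintegral_const_mul _ hI, lint_sum_a fun m => meas_eB_a (S := S) j m,
          lint_sum_a fun m => meas_eE_a (S := S) j m,
          lint_sum_a fun m => meas_eR_a (S := S) hG j m,
          lint_sum_a fun m => meas_eI_a (S := S) hG j m, ← Et_eq_a, ← Rt_eq_a, ← Mt_eq_a]
        rfl

/-- the root has one label -/
lemma De_root_a (m : ℕ) (x : E) : S.De [] m x = S.De [] m 0 := by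
  have := S.De_inv [] m 0 x (by rw [S.W_nil, Submodule.bot_orthogonal_eq_top]; trivial)
  rw [zero_add] at this
  exact this

/-- **the root**, integrated -/
theorem int_root (hG : ∀ p m, Measurable (G p m)) (hth1 : S.th ≤ 1 / 2) {et : ℝ}
    (het0 : 0 ≤ et) (hM4 : 4 ≤ S.M) (het : 1 ≤ et * ((S.M / 4) ^ (1 - S.th) - 2))
    (hM : S.MOVE G) (hC : S.CLOSE) :
    S.Pa 0 + ENNReal.ofReal (H148.Psi S.th S.A0 (max S.A0 (S.De [] S.mT 0).toReal)) ≤
      S.Pb 0 + (ENNReal.ofReal (H148.Psi S.th S.A0 (max S.A0 (S.De [] 0 0).toReal)) +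
      (2 * S.Et 0 +
      (ENNReal.ofReal et * (2 * S.Rt G 0) + ENNReal.ofReal (1 + et) * (2 * S.Mt G 0)))) := by
  have hn : 0 < S.nl := by
    have := S.hd2
    unfold nl
    omega
  have hP1 := meas_sum_a (fun m => meas_eP1_a (S := S) 0 m) S.mT
  set PT := ENNReal.ofReal (H148.Psi S.th S.A0 (max S.A0 (S.De [] S.mT 0).toReal)) with hPT
  set PD := ENNReal.ofReal (H148.Psi S.th S.A0 (max S.A0 (S.De [] 0 0).toReal)) with hPD
  calc S.Pa 0 + PT ≤ ∫⁻ x, ∑ m ∈ Finset.range S.mT, S.eP0 0 m x ∂stdGaussian E +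
        ∫⁻ x : E, PT ∂stdGaussian E := by
        refine add_le_add (sum_lint_le_a _ _ _) ?_
        rw [lintegral_const, measure_univ, mul_one]
    _ ≤ ∫⁻ x, (∑ m ∈ Finset.range S.mT, S.eP0 0 m x + PT) ∂stdGaussian E :=
        le_lintegral_add _ _
    _ ≤ ∫⁻ x, (∑ m ∈ Finset.range S.mT, S.eP1 0 m x + (PD +
      (2 * ∑ m ∈ Finset.range (S.mT + 1), S.eE 0 m x +
      (ENNReal.ofReal et * (2 * ∑ m ∈ Finset.range S.mT, S.eR G 0 m x) +
        ENNReal.ofReal (1 + et) * (2 * ∑ m ∈ Finset.range S.mT, S.eI G 0 m x)))))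
          ∂stdGaussian E := by
        refine lintegral_mono fun x => ?_
        have h := root_pt (G := G) (x := x) hth1 het0 hM4 het
          (fun m hm hx => hM 0 hn m hm x hx) (fun m hm hx => hC 0 hn m hm x hx)
        rw [De_root_a S.mT x, De_root_a 0 x] at h
        exact h
    _ = _ := by
        rw [lintegral_add_left hP1, lintegral_add_left measurable_const, int_rhs_a hG,
          lint_sum_a fun m => meas_eP1_a (S := S) 0 m, lintegral_const, measure_univ, mul_one]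
        rfl

/-! ### the stars -/

/-- sum of the star inequalities -/
theorem star_sum_a {C : ℝ} (hj : j < S.nl) (hS : S.STARF G C) :
    S.Rt G j + ENNReal.ofReal C * S.Pb j ≤ ENNReal.ofReal C * S.Pa j := by
  classical
  unfold Pa Pb
  rw [Rt_eq_a, Finset.mul_sum, Finset.mul_sum, ← Finset.sum_add_distrib]
  refine Finset.sum_le_sum fun m hm => ?_
  rw [Finset.mem_range] at hm
  unfold eR eP0 eP1
  by_cases h : S.mv.IsStar m
  · simp only [if_pos h]
    exact hS j hj m hm h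
  · simp only [if_neg h, lintegral_zero, mul_zero, add_zero, le_refl]

/-- the potentials are at most `1` -/
lemma PsiE_le_one_a (p : List ℕ) (m : ℕ) (x : E) {s : ℝ≥0∞} (hs : s ≤ 1) :
    S.PsiE p m x s ≤ 1 := by
  rw [PsiE_eq_a, ← ENNReal.ofReal_one]
  apply ENNReal.ofReal_le_ofReal
  have hA := A_toReal_pos_a (S := S) p m x
  have h0 : 0 ≤ s.toReal := ENNReal.toReal_nonneg
  have h1 : s.toReal ≤ 1 := by
    have := ENNReal.toReal_mono ENNReal.one_ne_top hs
    simpa using this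
  have h2 := H148.Psi_sub_le (th := S.th) S.hth.le hA h0
  rw [H148.Psi_zero, sub_zero, sub_zero] at h2
  have h3 := H148.slope_le_one (th := S.th) S.hth.le hA 0
  have h4 := (H148.slope_pos (th := S.th) hA 0).le
  nlinarith

lemma iw_le_one_a (s : Set E) (x : E) : iw s x ≤ 1 := by
  unfold iw
  by_cases h : x ∈ s
  · rw [indicator_of_mem h]; exact le_rfl
  · rw [indicator_of_notMem h]; exact zero_le

lemma Pa_ne_top_a (j : ℕ) : S.Pa j ≠ ⊤ := by
  classical
  unfold Pa
  refine (ENNReal.sum_lt_top.2 fun m _ => ?_).ne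
  calc ∫⁻ x, S.eP0 j m x ∂stdGaussian E ≤ ∫⁻ x : E, 1 ∂stdGaussian E := by
        refine lintegral_mono fun x => ?_
        unfold eP0
        split_ifs
        · exact mul_le_one' (iw_le_one_a _ _) (PsiE_le_one_a _ _ _ (F_le_one _ _ _))
        · exact zero_le
    _ < ⊤ := by simp

lemma Pb_ne_top_a (j : ℕ) : S.Pb j ≠ ⊤ := by
  classical
  unfold Pb
  refine (ENNReal.sum_lt_top.2 fun m _ => ?_).ne
  calc ∫⁻ x, S.eP1 j m x ∂stdGaussian E ≤ ∫⁻ x : E, 1 ∂stdGaussian E := by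
        refine lintegral_mono fun x => ?_
        unfold eP1
        split_ifs
        · exact mul_le_one' (iw_le_one_a _ _) (PsiE_le_one_a _ _ _ (F_le_one _ _ _))
        · exact zero_le
    _ < ⊤ := by simp

end Vale.Agent.P262.M2.Sys
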