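import Vale.Agent.P262.H359.Acc2U

/-!
# P262, milestone 2: measurability of the integrands of the accounting
-/

set_option linter.all false

open MeasureTheory ProbabilityTheory Set
open scoped ENNReal RealInnerProductSpace
open Vale.Agent.P262.H118 (Iv st en iv_st K2 El2 paths)

namespace Vale.Agent.P262.H359

/-- scaling -/
lemma Psi_scale (th A F : ℝ) :
    H148.Psi th A F = F * ∫ t in (0 : ℝ)..1, H148.slope th A (F * t) := by
  unfold H148.Psi
  have := intervalIntegral.smul_integral_comp_mul_left (a := 0) (b := 1)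
    (f := fun s => H148.slope th A s) F
  rw [mul_zero, mul_one, smul_eq_mul] at this
  exact this.symm

/-- the potential is measurable in both variables -/
lemma measurable_Psi (th : ℝ) : Measurable fun z : ℝ × ℝ => H148.Psi th z.1 z.2 := by
  have e : (fun z : ℝ × ℝ => H148.Psi th z.1 z.2) =
      fun z => z.2 * ∫ t in Ioc (0 : ℝ) 1, H148.slope th z.1 (z.2 * t) := by
    funext z
    rw [Psi_scale, intervalIntegral.integral_of_le zero_le_one]
  rw [e]
  refine measurable_snd.mul ?_
  have h : Measurable fun p : (ℝ × ℝ) × ℝ => H148.slope th p.1.1 (p.1.2 * p.2) := by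
    unfold H148.slope
    refine Measurable.pow_const ?_ _
    exact measurable_fst.fst.div (measurable_fst.fst.max
      ((measurable_fst.snd.mul measurable_snd).min measurable_const))
  exact (h.stronglyMeasurable.integral_prod_right
    (f := fun (z : ℝ × ℝ) (t : ℝ) => H148.slope th z.1 (z.2 * t))).measurable

end Vale.Agent.P262.H359

namespace Vale.Agent.P262.M2.Sys

variable {E : Type*} [NormedAddCommGroup E] [InnerProductSpace ℝ E] [FiniteDimensional ℝ E]
  [MeasurableSpace E] [BorelSpace E] {S : Sys E} {G : List ℕ → ℕ → E → ℝ≥0∞}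

lemma meas_iw_a {s : Set E} (hs : MeasurableSet s) : Measurable (iw s) := measurable_one.indicator hs

lemma meas_omj_a (j m : ℕ) : MeasurableSet (S.omj j m) :=
  ((measurableSet_NL j m).inter (measurableSet_OL j m)).inter
    (measurableSet_nd m j (s := fun r => S.om r m) fun r => measurableSet_om r m)

lemma meas_inn_a (j m : ℕ) : MeasurableSet (S.inn j m) := by
  refine measurableSet_nd m j (s := fun r => {x | m < S.be r m x}) fun r => ?_
  have e : {x | m < S.be r m x} = S.kl r m ⁻¹' {c | m < S.mv.eS (S.K.B r c) m} := rfl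
  show MeasurableSet {x | m < S.be r m x}
  rw [e]
  exact measurable_kl r m MeasurableSet.of_discrete

lemma meas_edg_a (j m : ℕ) : MeasurableSet (S.edg j m) := by
  refine measurableSet_nd m j (s := fun r => {x | S.bs r m x = m ∨ S.be r m x = m}) fun r => ?_
  have e : {x | S.bs r m x = m ∨ S.be r m x = m} =
      S.kl r m ⁻¹' {c | S.mv.sS (S.K.B r c) m = m ∨ S.mv.eS (S.K.B r c) m = m} := rfl
  show MeasurableSet {x | S.bs r m x = m ∨ S.be r m x = m}
  rw [e]
  exact measurable_kl r m MeasurableSet.of_discrete

lemma meas_l0_a (j m : ℕ) : MeasurableSet {x | S.l0 (S.nd m x j) m = m} :=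
  measurableSet_nd m j (s := fun r => {x | S.l0 r m = m}) fun r => MeasurableSet.const _

lemma meas_slp_a (p : List ℕ) (m : ℕ) {s : E → ℝ≥0∞} (hs : Measurable s) :
    Measurable fun x => S.slp p m x (s x) := by
  unfold slp
  exact ((S.A_meas p m).div ((S.A_meas p m).max (hs.min measurable_const))).pow_const _

lemma meas_sw_a (p : List ℕ) (m : ℕ) : Measurable (S.sw p m) :=
  meas_slp_a p m ((F_meas p m).max (F_meas p (m + 1)))

lemma meas_hf_a (p : List ℕ) (m : ℕ) : Measurable (S.hf p m) :=
  ((F_meas p m).sub (S.De_meas p m)).add ((S.De_meas p m).sub (F_meas p m))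

lemma meas_ent_a (p : List ℕ) (m : ℕ) : Measurable (S.ent p m) :=
  (S.As_meas _ p m).mul ((((S.A_meas p m).max (S.De_meas p m)).pow_const _).min
    (S.q_meas p (S.l1 p m)))

lemma meas_PsiE_a (p : List ℕ) (m : ℕ) {s : E → ℝ≥0∞} (hs : Measurable s) :
    Measurable fun x => S.PsiE p m x (s x) := by
  have h := (H359.measurable_Psi S.th).comp
    ((S.A_meas p m).ennreal_toReal.prodMk hs.ennreal_toReal)
  exact h.ennreal_ofReal

lemma meas_eP1_a (j m : ℕ) : Measurable (S.eP1 j m) := by
  classical
  unfold eP1
  by_cases h : S.mv.IsStar m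
  · simp only [if_pos h]
    exact (meas_iw_a (meas_omj_a j m)).mul (measurable_nd m j
      (F := fun r x => S.PsiE r m x (S.F r (m + 1) x)) fun r => meas_PsiE_a r m (F_meas r (m + 1)))
  · simp only [if_neg h]
    exact measurable_const

lemma meas_eR_a (hG : ∀ p m, Measurable (G p m)) (j m : ℕ) : Measurable (S.eR G j m) := by
  classical
  unfold eR
  by_cases h : S.mv.IsStar m
  · simp only [if_pos h]
    exact (meas_iw_a (meas_omj_a j m)).mul (measurable_nd m j
      (F := fun r x => S.sw r m x * G r m x) fun r => (meas_sw_a r m).mul (hG r m))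
  · simp only [if_neg h]
    exact measurable_const

lemma meas_eI_a (hG : ∀ p m, Measurable (G p m)) (j m : ℕ) : Measurable (S.eI G j m) := by
  classical
  unfold eI
  by_cases h : S.mv.IsStar m
  · simp only [if_pos h]
    exact measurable_const
  · simp only [if_neg h]
    exact (meas_iw_a ((meas_omj_a j m).inter (meas_inn_a j m))).mul (measurable_nd m j
      (F := fun r x => S.sw r m x * G r m x) fun r => (meas_sw_a r m).mul (hG r m))

lemma meas_eE_a (j m : ℕ) : Measurable (S.eE j m) := by
  unfold eE
  exact (meas_iw_a ((meas_omj_a j m).inter (meas_edg_a j m))).mul (measurable_nd m j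
      (F := fun r x => S.slp r m x (S.De r m x) * S.hf r m x)
        fun r => (meas_slp_a r m (S.De_meas r m)).mul (meas_hf_a r m))

lemma meas_eB_a (j m : ℕ) : Measurable (S.eB j m) := by
  unfold eB
  exact (meas_iw_a (((measurableSet_NL j m).inter (measurableSet_OL j m)).inter
    (meas_l0_a j m))).mul (measurable_nd m j (F := fun r x => S.ent r m x)
      fun r => meas_ent_a r m)

end Vale.Agent.P262.M2.Sys
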