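import Vale.Agent.P262.H359.Acc2Cv
import Vale.Agent.P262.H148.PtS2

/-!
# P262, milestone 2: (T1) and (T2) at one point, extended form
-/

set_option linter.all false

open MeasureTheory ProbabilityTheory Set
open scoped ENNReal RealInnerProductSpace
open Vale.Agent.P262.H118 (Iv st en iv_st K2 El2 paths)

namespace Vale.Agent.P262.M2.Sys

variable {E : Type*} [NormedAddCommGroup E] [InnerProductSpace ℝ E] [FiniteDimensional ℝ E]
  [MeasurableSpace E] [BorelSpace E] {S : Sys E}

/-! ### the integrands -/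

section defs

variable (S) (G : List ℕ → ℕ → E → ℝ≥0∞) (j m : ℕ) (x : E)

open Classical in
/-- potential before a star -/
noncomputable def eP0 : ℝ≥0∞ := if S.mv.IsStar m then
  iw (S.omj j m) x * S.PsiE (S.nd m x j) m x (S.F (S.nd m x j) m x) else 0

open Classical in
/-- potential after a star -/
noncomputable def eP1 : ℝ≥0∞ := if S.mv.IsStar m then
  iw (S.omj j m) x * S.PsiE (S.nd m x j) m x (S.F (S.nd m x j) (m + 1) x) else 0

open Classical in
/-- price of a star -/
noncomputable def eR : ℝ≥0∞ := if S.mv.IsStar m then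
  iw (S.omj j m) x * (S.sw (S.nd m x j) m x * G (S.nd m x j) m x) else 0

open Classical in
/-- price of another move -/
noncomputable def eI : ℝ≥0∞ := if S.mv.IsStar m then 0 else
  iw (S.omj j m ∩ S.inn j m) x * (S.sw (S.nd m x j) m x * G (S.nd m x j) m x)

/-- price of an end -/
noncomputable def eE : ℝ≥0∞ := iw (S.omj j m ∩ S.edg j m) x *
  (S.slp (S.nd m x j) m x (S.De (S.nd m x j) m x) * S.hf (S.nd m x j) m x)

/-- entrance -/
noncomputable def eB : ℝ≥0∞ := iw (S.NL j m ∩ S.OL j m ∩ {x | S.l0 (S.nd m x j) m = m}) x *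
  S.ent (S.nd m x j) m x

/-- unit -/
noncomputable def eU : ℝ≥0∞ := iw (S.NL j m ∩ S.OL j m ∩
    {x | x ∈ S.om (S.nd m x j) m ∧ S.bs (S.nd m x j) m x = m}) x * S.un (S.nd m x j) m x

/-- real price of a move, with the factor of the potential -/
noncomputable def qR : ℝ := 2 * (S.wtR (S.nd m x j) m x * (G (S.nd m x j) m x).toReal)

end defs

variable {G : List ℕ → ℕ → E → ℝ≥0∞} {j m : ℕ} {x : E}

lemma qR_nonneg_a : 0 ≤ S.qR G j m x :=
  mul_nonneg (by norm_num) (mul_nonneg (wtR_pos_a _ _ _).le ENNReal.toReal_nonneg)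

open Classical in
/-- sums over inner moves -/
lemma sum_inn_a {f : ℕ → ℝ} (hf : ∀ m, 0 ≤ f m) :
    ENNReal.ofReal (∑ m ∈ Finset.range (S.mT + 1), if x ∈ S.omj j m ∩ S.inn j m then f m else 0) =
      ∑ m ∈ Finset.range S.mT, iw (S.omj j m ∩ S.inn j m) x * ENNReal.ofReal (f m) := by
  rw [Finset.sum_range_succ]
  have h0 : x ∉ S.omj j S.mT ∩ S.inn j S.mT := by
    rintro ⟨-, h⟩
    have h : S.mT < S.be (S.nd S.mT x j) S.mT x := h
    have := be_le_a (S := S) le_rfl (S.nd S.mT x j) x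
    omega
  rw [if_neg h0, add_zero, ENNReal.ofReal_sum_of_nonneg]
  · exact Finset.sum_congr rfl fun m _ => ofReal_ite_a _ _ _
  · intro m _
    split_ifs
    · exact hf m
    · exact le_rfl

lemma iw_star_a (h : S.mv.IsStar m) (hm : m ≤ S.mT) :
    iw (S.omj j m ∩ S.inn j m) x = iw (S.omj j m) x := by
  classical
  unfold iw
  by_cases h1 : x ∈ S.omj j m
  · rw [indicator_of_mem h1, indicator_of_mem (show x ∈ S.omj j m ∩ S.inn j m from
      ⟨h1, star_inn_a h hm⟩)]
  · rw [indicator_of_notMem h1, indicator_of_notMem fun h2 => h1 h2.1]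

open Classical in
lemma P0_a : ENNReal.ofReal (∑ m ∈ Finset.range (S.mT + 1),
      if x ∈ S.omj j m ∩ S.inn j m then (if S.mv.IsStar m then
        H148.Psi S.th (S.AP j x m) (S.FP j x m) else 0) else 0) =
      ∑ m ∈ Finset.range S.mT, S.eP0 j m x := by
  rw [sum_inn_a]
  · refine Finset.sum_congr rfl fun m hm => ?_
    rw [Finset.mem_range] at hm
    unfold eP0
    by_cases h : S.mv.IsStar m
    · rw [if_pos h, if_pos h, iw_star_a h hm.le, PsiE_eq_a]
      rfl
    · rw [if_neg h, if_neg h, ENNReal.ofReal_zero, mul_zero]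
  · intro m
    split_ifs
    · have := H148.Psi_mono (th := S.th) S.hth.le (A_toReal_pos_a (S := S) (S.nd m x j) m x)
        (show (0 : ℝ) ≤ S.FP j x m from ENNReal.toReal_nonneg)
      rwa [H148.Psi_zero] at this
    · exact le_rfl

open Classical in
lemma P1_a : ENNReal.ofReal (∑ m ∈ Finset.range (S.mT + 1),
      if x ∈ S.omj j m ∩ S.inn j m then (if S.mv.IsStar m then
        H148.Psi S.th (S.AP j x m) (S.FP j x (m + 1)) else 0) else 0) =
      ∑ m ∈ Finset.range S.mT, S.eP1 j m x := by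
  rw [sum_inn_a]
  · refine Finset.sum_congr rfl fun m hm => ?_
    rw [Finset.mem_range] at hm
    unfold eP1
    by_cases h : S.mv.IsStar m
    · rw [if_pos h, if_pos h, iw_star_a h hm.le, PsiE_eq_a]
      unfold FP
      rw [nd_succ_a hm.le (star_inn_a h hm.le)]
      rfl
    · rw [if_neg h, if_neg h, ENNReal.ofReal_zero, mul_zero]
  · intro m
    split_ifs
    · have := H148.Psi_mono (th := S.th) S.hth.le (A_toReal_pos_a (S := S) (S.nd m x j) m x)
        (show (0 : ℝ) ≤ S.FP j x (m + 1) from ENNReal.toReal_nonneg)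
      rwa [H148.Psi_zero] at this
    · exact le_rfl

lemma two_ofReal_a {a : ℝ} (ha : 0 ≤ a) : ENNReal.ofReal (2 * a) = 2 * ENNReal.ofReal a := by
  rw [ENNReal.ofReal_mul (by norm_num)]; simp

open Classical in
/-- star prices -/
lemma Qs_a (hfin : ∀ m < S.mT, x ∈ S.omj j m ∩ S.inn j m → G (S.nd m x j) m x ≠ ⊤) :
    ENNReal.ofReal (∑ m ∈ Finset.range (S.mT + 1),
      if x ∈ S.omj j m ∩ S.inn j m then (if S.mv.IsStar m then S.qR G j m x else 0) else 0) =
      2 * ∑ m ∈ Finset.range S.mT, S.eR G j m x := by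
  rw [sum_inn_a, Finset.mul_sum]
  · refine Finset.sum_congr rfl fun m hm => ?_
    rw [Finset.mem_range] at hm
    unfold eR
    by_cases h : S.mv.IsStar m
    · rw [if_pos h, if_pos h]
      by_cases h1 : x ∈ S.omj j m ∩ S.inn j m
      · unfold qR
        rw [two_ofReal_a (mul_nonneg (wtR_pos_a _ _ _).le ENNReal.toReal_nonneg),
          ENNReal.ofReal_mul (wtR_pos_a _ _ _).le, ← sw_eq_a,
          ENNReal.ofReal_toReal (hfin m hm h1), iw_star_a h hm.le]
        ring
      · have h2 : iw (S.omj j m ∩ S.inn j m) x = 0 := indicator_of_notMem h1 _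
        rw [← iw_star_a h hm.le, h2, zero_mul, zero_mul, mul_zero]
    · rw [if_neg h, if_neg h, ENNReal.ofReal_zero, mul_zero, mul_zero]
  · intro m
    split_ifs
    · exact qR_nonneg_a
    · exact le_rfl

open Classical in
/-- other prices -/
lemma Qn_a (hfin : ∀ m < S.mT, x ∈ S.omj j m ∩ S.inn j m → G (S.nd m x j) m x ≠ ⊤) :
    ENNReal.ofReal (∑ m ∈ Finset.range (S.mT + 1),
      if x ∈ S.omj j m ∩ S.inn j m then (if S.mv.IsStar m then 0 else S.qR G j m x) else 0) =
      2 * ∑ m ∈ Finset.range S.mT, S.eI G j m x := by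
  rw [sum_inn_a, Finset.mul_sum]
  · refine Finset.sum_congr rfl fun m hm => ?_
    rw [Finset.mem_range] at hm
    unfold eI
    by_cases h : S.mv.IsStar m
    · rw [if_pos h, if_pos h, ENNReal.ofReal_zero, mul_zero, mul_zero]
    · rw [if_neg h, if_neg h]
      by_cases h1 : x ∈ S.omj j m ∩ S.inn j m
      · unfold qR
        rw [two_ofReal_a (mul_nonneg (wtR_pos_a _ _ _).le ENNReal.toReal_nonneg),
          ENNReal.ofReal_mul (wtR_pos_a _ _ _).le, ← sw_eq_a,
          ENNReal.ofReal_toReal (hfin m hm h1)]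
        ring
      · have h2 : iw (S.omj j m ∩ S.inn j m) x = 0 := indicator_of_notMem h1 _
        rw [h2, zero_mul, zero_mul, mul_zero]
  · intro m
    split_ifs
    · exact le_rfl
    · exact qR_nonneg_a

/-- the price of an end, real -/
lemma cvA_eq_a : ENNReal.ofReal (H148.cvA S.th (S.AP j x) (S.DP j x)
    (fun m => |S.FP j x m - S.DP j x m|) m) =
      2 * (S.slp (S.nd m x j) m x (S.De (S.nd m x j) m x) * S.hf (S.nd m x j) m x) := by
  unfold H148.cvA
  have h0 : 0 ≤ H148.slope S.th (S.AP j x m) (S.DP j x m) :=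
    (H148.slope_pos (A_toReal_pos_a (S := S) (S.nd m x j) m x) _).le
  rw [two_ofReal_a (mul_nonneg h0 (abs_nonneg _)), ENNReal.ofReal_mul h0, hf_eq_a,
    slp_eq_a _ _ _ (De_ne_top_a _ _ _)]
  rfl

lemma cvA_nonneg_a : 0 ≤ H148.cvA S.th (S.AP j x) (S.DP j x)
    (fun m => |S.FP j x m - S.DP j x m|) m := by
  unfold H148.cvA
  exact mul_nonneg (by norm_num) (mul_nonneg
    (H148.slope_pos (A_toReal_pos_a (S := S) (S.nd m x j) m x) _).le (abs_nonneg _))

open Classical in
/-- the ends -/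
lemma E_a : ENNReal.ofReal (∑ m ∈ Finset.range (S.mT + 1), H148.ac (S.actP j x)
      (H148.ends (S.BP j x) (S.mT + 1) (S.omP j x) (H148.cvA S.th (S.AP j x) (S.DP j x)
          fun m => |S.FP j x m - S.DP j x m|)) m) ≤
      2 * ∑ m ∈ Finset.range (S.mT + 1), S.eE j m x := by
  refine (ENNReal.ofReal_le_ofReal (Finset.sum_le_sum fun m hm => ac_ends_a
    (by rw [Finset.mem_range] at hm; omega) cvA_nonneg_a)).trans ?_
  rw [ENNReal.ofReal_sum_of_nonneg, Finset.mul_sum]
  · refine Finset.sum_le_sum fun m _ => ?_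
    rw [ofReal_ite_a, cvA_eq_a]
    unfold eE
    rw [mul_left_comm]
  · intro m _
    split_ifs
    · exact cvA_nonneg_a
    · exact le_rfl

open Classical in
/-- the entrances -/
lemma B_a {K : ℝ} (hK : 0 ≤ K) : ENNReal.ofReal (∑ m ∈ Finset.range (S.mT + 1),
      H148.ac (S.actP j x) (H148.flf (S.lvP j x) fun m => K * (S.ent (S.nd m x j) m x).toReal) m) ≤
      ENNReal.ofReal K * ∑ m ∈ Finset.range S.mT, S.eB j m x := by
  have h0 : ∀ m, 0 ≤ K * (S.ent (S.nd m x j) m x).toReal := fun m =>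
    mul_nonneg hK ENNReal.toReal_nonneg
  refine (ENNReal.ofReal_le_ofReal (Finset.sum_le_sum fun m hm => ac_flf_a (h0 m))).trans ?_
  rw [Finset.sum_range_succ, if_neg (fun h => not_l0_mT_a _ h.2), add_zero,
    ENNReal.ofReal_sum_of_nonneg, Finset.mul_sum]
  · refine Finset.sum_le_sum fun m _ => ?_
    rw [ofReal_ite_a, ENNReal.ofReal_mul hK, ENNReal.ofReal_toReal (ent_ne_top_p _ _ _)]
    unfold eB
    rw [mul_left_comm]
  · intro m _
    split_ifs
    · exact h0 m
    · exact le_rfl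

end Vale.Agent.P262.M2.Sys
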