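import Vale.Agent.P262.H359.Acc2Int
import Vale.Agent.P262.H359.Acc2Fin

/-!
# P262, milestone 2: ACC2, the summation

From the block inequalities of `M2/Blocks` to the deficit of the root at the last state.
-/

set_option linter.all false

open MeasureTheory ProbabilityTheory Set
open scoped ENNReal RealInnerProductSpace
open Vale.Agent.P262.H118 (Iv st en iv_st K2 El2 paths)
open Vale.Agent.P262.H274 (Cost)

namespace Vale.Agent.P262.M2.Sys

variable {E : Type*} [NormedAddCommGroup E] [InnerProductSpace ℝ E] [FiniteDimensional ℝ E]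
  [MeasurableSpace E] [BorelSpace E] {S : Sys E} {G : List ℕ → ℕ → E → ℝ≥0∞} {j : ℕ}

/-! ### finiteness -/

/-- a bound for the costs at the state `m` -/
lemma exists_cst_le_a (m : ℕ) : ∃ C : ℝ≥0∞, C ≠ ⊤ ∧ ∀ p ∈ paths S.cm (Module.finrank ℝ E),
    ∀ x : E, S.cst p m x ≤ C := by
  classical
  let f : List ℕ → ℕ → ℝ≥0∞ := fun p c => ENNReal.ofReal (Cost (S.K.Sw p
    (st (S.K.B p c) (S.mv.tm m)) (S.N c)) S.ρ (st (S.K.B p c) (S.mv.tm m))
      (en (S.K.B p c) S.T (st (S.K.B p c) (S.mv.tm m))))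
  refine ⟨∑ p ∈ paths S.cm (Module.finrank ℝ E), ∑ c ∈ Finset.range (S.cm + 1), f p c, ?_, ?_⟩
  · exact (ENNReal.sum_lt_top.2 fun p _ => ENNReal.sum_lt_top.2 fun c _ =>
      ENNReal.ofReal_lt_top).ne
  · intro p hp x
    have h1 : S.cst p m x = f p (S.kl p m x) := rfl
    rw [h1]
    have h2 : f p (S.kl p m x) ≤ ∑ c ∈ Finset.range (S.cm + 1), f p c :=
      Finset.single_le_sum (f := fun c => f p c) (fun _ _ => zero_le)
        (Finset.mem_range.2 (Nat.lt_succ_of_le (kl_le_cm p m x)))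
    refine h2.trans ?_
    exact Finset.single_le_sum (f := fun p => ∑ c ∈ Finset.range (S.cm + 1), f p c)
      (fun _ _ => zero_le) hp

/-- units are bounded: `U_j` is finite -/
theorem Ut_ne_top_a (hj : j ≤ Module.finrank ℝ E) : S.Ut j ≠ ⊤ := by
  classical
  rw [Ut_eq_a]
  refine (ENNReal.sum_lt_top.2 fun m _ => ?_).ne
  obtain ⟨C, hC, hc⟩ := exists_cst_le_a (S := S) m
  have hfin : C * ENNReal.ofReal S.b0 ^ S.th ≠ ⊤ :=
    ENNReal.mul_ne_top hC (ENNReal.rpow_ne_top_of_nonneg S.hth.le ENNReal.ofReal_ne_top)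
  calc ∫⁻ x, S.eU j m x ∂stdGaussian E
      ≤ ∫⁻ x : E, C * ENNReal.ofReal S.b0 ^ S.th ∂stdGaussian E := by
        refine lintegral_mono fun x => ?_
        unfold eU
        rw [iw_mul_a]
        split_ifs with h
        swap
        · exact zero_le
        have hom : x ∈ S.om (S.nd m x j) m := h.2.1
        unfold un
        have h1 : S.As S.th (S.nd m x j) m x ≤ ENNReal.ofReal S.b0 ^ S.th := by
          rw [← S.A_rpow S.hth.le]
          exact ENNReal.rpow_le_rpow (S.A_le_of_not_Z hom.1) S.hth.le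
        calc S.cst (S.nd m x j) m x * S.As S.th (S.nd m x j) m x * S.psi (S.nd m x j) m x
            ≤ C * ENNReal.ofReal S.b0 ^ S.th * 1 :=
              mul_le_mul' (mul_le_mul' (hc _ (nd_mem_G m x hj) x) h1) (psi_le_one_a _ _ _)
          _ = _ := mul_one _
    _ < ⊤ := by
        rw [lintegral_const, measure_univ, mul_one]
        exact lt_of_le_of_ne le_top hfin

/-! ### the entrance of the root -/

theorem Bt_zero_a (h0 : S.De [] 0 0 ≤ ENNReal.ofReal S.A0) : S.Bt 0 ≤ ENNReal.ofReal S.A0 := by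
  classical
  rw [Bt_eq_a]
  have hz : ∀ m ∈ Finset.range S.mT, m ≠ 0 → ∫⁻ x, S.eB 0 m x ∂stdGaussian E = 0 := by
    intro m _ hm
    have : ∀ x, S.eB 0 m x = 0 := by
      intro x
      unfold eB
      rw [iw_mul_a, if_neg]
      rintro ⟨-, h⟩
      have h : S.l0 [] m = m := h
      rw [l0_root_a] at h
      exact hm h.symm
    simp only [this, lintegral_zero]
  have hA0 := S.hA0
  have hth := S.hth
  have hth1 : 0 ≤ 1 - S.th := by linarith [S.hth1]
  have h1 : ∫⁻ x, S.eB 0 0 x ∂stdGaussian E ≤ ENNReal.ofReal S.A0 := by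
    calc ∫⁻ x, S.eB 0 0 x ∂stdGaussian E ≤ ∫⁻ x : E, ENNReal.ofReal S.A0 ∂stdGaussian E := by
          refine lintegral_mono fun x => ?_
          unfold eB
          have hnd : S.nd 0 x 0 = [] := rfl
          rw [hnd]
          refine (mul_le_mul' (iw_le_one_a _ _) le_rfl).trans ?_
          rw [one_mul]
          unfold ent
          have hA : S.As S.th [] 0 x = ENNReal.ofReal S.A0 ^ S.th := by
            rw [← S.A_rpow S.hth.le, S.A_nil]
          rw [hA, S.A_nil, De_root_a 0 x, max_eq_left h0]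
          calc ENNReal.ofReal S.A0 ^ S.th * min (ENNReal.ofReal S.A0 ^ (1 - S.th)) _
              ≤ ENNReal.ofReal S.A0 ^ S.th * ENNReal.ofReal S.A0 ^ (1 - S.th) :=
                mul_le_mul' le_rfl (min_le_left _ _)
            _ = ENNReal.ofReal S.A0 := by
                rw [← ENNReal.rpow_add _ _ (ENNReal.ofReal_pos.2 hA0).ne' ENNReal.ofReal_ne_top]
                rw [add_sub_cancel, ENNReal.rpow_one]
      _ = _ := by rw [lintegral_const, measure_univ, mul_one]
  by_cases hmT : 0 ∈ Finset.range S.mT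
  · rw [Finset.sum_eq_single_of_mem 0 hmT hz]
    exact h1
  · rw [Finset.sum_eq_zero fun m hm => hz m hm fun h => hmT (h ▸ hm)]
    exact zero_le

/-! ### all levels -/

/-- **ACC2**: the blocks give the deficit of the root at the last state. -/
theorem acc2 {C KU kp ep b k2 lam et : ℝ} (hG : ∀ p m, Measurable (G p m))
    (hM : S.MOVE G) (hCl : S.CLOSE) (hS : S.STARF G C) (hL : S.LBL2 G KU) (hCo : S.CONS kp)
    (hIB : S.IB G ep b k2) (h0 : S.De [] 0 0 ≤ ENNReal.ofReal S.A0)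
    (hth1 : S.th ≤ 1 / 2) (hM4 : 4 ≤ S.M) (het0 : 0 ≤ et) (het1 : et ≤ 1)
    (het : 1 ≤ et * ((S.M / 4) ^ (1 - S.th) - 2)) (hC : 0 < C) (hKU : 0 < KU) (hkp : 0 ≤ kp)
    (hep : 0 ≤ ep) (hb : 0 ≤ b) (hk2 : 0 ≤ k2) (hlam : 0 < lam)
    (c1 : 2 * b ≤ lam) (c2 : lam * k2 ≤ 1 / 2)
    (c3 : (6 * KU + 40 * C * (6 * KU + 1) + 1) * (lam * kp + 3 * ep) ≤ 1 / 2)
    (c4 : 640 * (C * et) ≤ 1) (c5 : 256 * ((6 * KU + 40 * C * (6 * KU + 1) + 1) * ep) ≤ 1) :
    S.De [] S.mT 0 ≤ ENNReal.ofReal (2 * S.A0) := by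
  classical
  have hn : 0 < S.nl := by
    have := S.hd2
    unfold nl
    omega
  have hA0 := S.hA0
  -- finiteness
  have fU : ∀ l, l < S.nl → S.Ut l ≠ ⊤ := fun l hl => Ut_ne_top_a hl.le
  have fB : ∀ l, l < S.nl → S.Bt l ≠ ⊤ := by
    intro l hl
    rcases Nat.eq_zero_or_pos l with h | h
    · subst h
      exact ne_top_of_le_ne_top ENNReal.ofReal_ne_top (Bt_zero_a h0)
    · obtain ⟨l', rfl⟩ : ∃ l', l = l' + 1 := ⟨l - 1, by omega⟩
      exact ne_top_of_le_ne_top (ENNReal.mul_ne_top ENNReal.ofReal_ne_top (fU l' (by omega)))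
        (hCo l' hl)
  have fI : ∀ l, l < S.nl → S.It G l ≠ ⊤ := by
    intro l hl
    refine ne_top_of_le_ne_top ?_ (hIB l hl)
    refine ENNReal.add_ne_top.2 ⟨ENNReal.mul_ne_top ENNReal.ofReal_ne_top ?_,
      ENNReal.mul_ne_top ENNReal.ofReal_ne_top ?_⟩
    · refine (ENNReal.sum_lt_top.2 fun i hi => ?_).ne
      rw [Finset.mem_Ico] at hi
      exact lt_of_le_of_ne le_top (ENNReal.mul_ne_top ENNReal.ofReal_ne_top (fU i hi.2))
    · refine (ENNReal.sum_lt_top.2 fun i hi => ?_).ne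
      rw [Finset.mem_range] at hi
      exact lt_of_le_of_ne le_top (ENNReal.mul_ne_top ENNReal.ofReal_ne_top
        (fU i (by omega)))
  have fM : ∀ l, l < S.nl → S.Mt G l ≠ ⊤ := fun l hl =>
    ne_top_of_le_ne_top (fI l hl) (by rw [It_eq_a]; exact le_self_add)
  have fE : ∀ l, l < S.nl → S.Et l ≠ ⊤ := fun l hl =>
    ne_top_of_le_ne_top (fI l hl) (by rw [It_eq_a]; exact le_add_self)
  have fR : ∀ l, l < S.nl → S.Rt G l ≠ ⊤ := fun l hl =>
    ne_top_of_le_ne_top (ENNReal.mul_ne_top ENNReal.ofReal_ne_top (Pa_ne_top_a l))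
      (le_self_add.trans (star_sum_a hl hS))
  -- real numbers
  let U : ℕ → ℝ := fun l => (S.Ut l).toReal
  let R : ℕ → ℝ := fun l => (S.Rt G l).toReal
  let B : ℕ → ℝ := fun l => (S.Bt l).toReal
  let I : ℕ → ℝ := fun l => (S.It G l).toReal
  let Mr : ℕ → ℝ := fun l => (S.Mt G l).toReal
  let Er : ℕ → ℝ := fun l => (S.Et l).toReal
  let Ar : ℕ → ℝ := fun l => (S.Pa l).toReal
  let Br : ℕ → ℝ := fun l => (S.Pb l).toReal
  have hIr : ∀ l, l < S.nl → I l = Mr l + Er l := by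
    intro l hl
    show (S.It G l).toReal = (S.Mt G l).toReal + (S.Et l).toReal
    rw [It_eq_a, ENNReal.toReal_add (fM l hl) (fE l hl)]
  have hM0 : ∀ l, 0 ≤ Mr l := fun l => ENNReal.toReal_nonneg
  have hE0 : ∀ l, 0 ≤ Er l := fun l => ENNReal.toReal_nonneg
  have hR0 : ∀ l, 0 ≤ R l := fun l => ENNReal.toReal_nonneg
  have hB0 : ∀ l, 0 ≤ B l := fun l => ENNReal.toReal_nonneg
  have hI0 : ∀ l, 0 ≤ I l := fun l => ENNReal.toReal_nonneg
  have hU0 : ∀ l, 0 ≤ U l := fun l => ENNReal.toReal_nonneg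
  -- the tail of the right sides
  have tail : ∀ l, l < S.nl → (2 * S.Et l + (ENNReal.ofReal et * (2 * S.Rt G l) +
      ENNReal.ofReal (1 + et) * (2 * S.Mt G l))) =
      ENNReal.ofReal (2 * Er l + (et * (2 * R l) + (1 + et) * (2 * Mr l))) := by
    intro l hl
    have hr := hR0 l
    have hm := hM0 l
    have he := hE0 l
    symm
    rw [ENNReal.ofReal_add (by positivity) (by positivity),
      ENNReal.ofReal_add (by positivity) (by positivity),
      ENNReal.ofReal_mul het0, ENNReal.ofReal_mul (show (0 : ℝ) ≤ 1 + et by linarith),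
      two_ofReal_a he, two_ofReal_a hr, two_ofReal_a hm, ENNReal.ofReal_toReal (fE l hl),
      ENNReal.ofReal_toReal (fR l hl), ENNReal.ofReal_toReal (fM l hl)]
  -- stars
  have hstar : ∀ l, l < S.nl → R l + C * Br l ≤ C * Ar l := by
    intro l hl
    have h := star_sum_a hl hS
    have h1 := ENNReal.toReal_mono
      (ENNReal.mul_ne_top ENNReal.ofReal_ne_top (Pa_ne_top_a l)) h
    rw [ENNReal.toReal_add (fR l hl) (ENNReal.mul_ne_top ENNReal.ofReal_ne_top (Pb_ne_top_a l)),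
      ENNReal.toReal_mul, ENNReal.toReal_mul, ENNReal.toReal_ofReal hC.le] at h1
    exact h1
  have hT1 : ∀ l, l < S.nl → Ar l ≤ Br l + 20 * B l + 2 * (1 + et) * I l + 2 * et * R l := by
    intro l hl
    have h := int_T1 hG hl hth1 het0 hM4 het hM hCl
    rw [tail l hl] at h
    have hb0 := hB0 l
    have hr := hR0 l
    have hm := hM0 l
    have he := hE0 l
    have hq : 0 ≤ 2 * Er l + (et * (2 * R l) + (1 + et) * (2 * Mr l)) := by positivity
    have h1 : S.Pb l + (ENNReal.ofReal 20 * S.Bt l +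
        ENNReal.ofReal (2 * Er l + (et * (2 * R l) + (1 + et) * (2 * Mr l)))) =
        ENNReal.ofReal (Br l + (20 * B l +
          (2 * Er l + (et * (2 * R l) + (1 + et) * (2 * Mr l))))) := by
      rw [ENNReal.ofReal_add ENNReal.toReal_nonneg (by positivity),
        ENNReal.ofReal_add (by positivity) hq,
        ENNReal.ofReal_mul (show (0 : ℝ) ≤ 20 by norm_num),
        ENNReal.ofReal_toReal (fB l hl), ENNReal.ofReal_toReal (Pb_ne_top_a l)]
    rw [h1] at h
    have hbr : 0 ≤ Br l := ENNReal.toReal_nonneg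
    have h2 := ENNReal.toReal_le_of_le_ofReal (by positivity) h
    have h3 : Ar l ≤ Br l + (20 * B l +
          (2 * Er l + (et * (2 * R l) + (1 + et) * (2 * Mr l)))) := h2
    rw [hIr l hl]
    nlinarith
  have hR : ∀ l, l < S.nl → R l ≤ 40 * C * (B l + I l) := fun l hl =>
    H359.fin_star hC.le (hB0 l) (hI0 l) (hR0 l) het1 (by linarith) (hstar l hl) (hT1 l hl)
  -- units
  have hU : ∀ l, l < S.nl → U l ≤ KU * (B l + 2 * (2 + et) * (R l + I l)) := by
    intro l hl
    have h := int_T2 hG hl hth1 het0 hM4 het hM hCl hKU hL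
    have hb0 := hB0 l
    have hr := hR0 l
    have hm := hM0 l
    have he := hE0 l
    have h1 : ENNReal.ofReal KU * S.Bt l + ENNReal.ofReal KU * (2 * S.Et l +
        ENNReal.ofReal (2 + et) * (2 * S.Rt G l + 2 * S.Mt G l)) =
        ENNReal.ofReal (KU * B l + KU * (2 * Er l + (2 + et) * (2 * R l + 2 * Mr l))) := by
      have a1 : ENNReal.ofReal (2 * R l + 2 * Mr l) = 2 * S.Rt G l + 2 * S.Mt G l := by
        rw [ENNReal.ofReal_add (by positivity) (by positivity), two_ofReal_a hr, two_ofReal_a hm,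
          ENNReal.ofReal_toReal (fR l hl), ENNReal.ofReal_toReal (fM l hl)]
      have a2 : ENNReal.ofReal ((2 + et) * (2 * R l + 2 * Mr l)) =
          ENNReal.ofReal (2 + et) * (2 * S.Rt G l + 2 * S.Mt G l) := by
        rw [ENNReal.ofReal_mul (by linarith), a1]
      have a3 : ENNReal.ofReal (2 * Er l + (2 + et) * (2 * R l + 2 * Mr l)) =
          2 * S.Et l + ENNReal.ofReal (2 + et) * (2 * S.Rt G l + 2 * S.Mt G l) := by
        rw [ENNReal.ofReal_add (by positivity) (by positivity), a2, two_ofReal_a he,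
          ENNReal.ofReal_toReal (fE l hl)]
      symm
      rw [ENNReal.ofReal_add (by positivity) (by positivity), ENNReal.ofReal_mul hKU.le,
        ENNReal.ofReal_mul hKU.le, a3, ENNReal.ofReal_toReal (fB l hl)]
    rw [h1] at h
    have h2 := ENNReal.toReal_le_of_le_ofReal (by positivity) h
    have h3 : U l ≤ KU * B l + KU * (2 * Er l + (2 + et) * (2 * R l + 2 * Mr l)) := h2
    refine h3.trans ?_
    rw [← mul_add, hIr l hl]
    apply mul_le_mul_of_nonneg_left _ hKU.le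
    nlinarith
  have hBz : B 0 ≤ S.A0 := ENNReal.toReal_le_of_le_ofReal hA0.le (Bt_zero_a h0)
  have hBs : ∀ l, l + 1 < S.nl → B (l + 1) ≤ kp * U l := by
    intro l hl
    have h := ENNReal.toReal_mono (ENNReal.mul_ne_top ENNReal.ofReal_ne_top
      (fU l (by omega))) (hCo l hl)
    rw [ENNReal.toReal_mul, ENNReal.toReal_ofReal hkp] at h
    exact h
  have hI : ∀ l, l < S.nl → I l ≤
      ep * ∑ i ∈ Finset.Ico l S.nl, b ^ (i - l) * (U i + R i + B i + I i) +
      ep * ∑ i ∈ Finset.range l, k2 ^ (l - i) * (U i + R i + B i + I i) := by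
    intro l hl
    have h := hIB l hl
    have e1 : ∑ i ∈ Finset.Ico l S.nl, ENNReal.ofReal (b ^ (i - l)) * S.Ut i =
        ENNReal.ofReal (∑ i ∈ Finset.Ico l S.nl, b ^ (i - l) * U i) := by
      rw [ENNReal.ofReal_sum_of_nonneg fun i _ => mul_nonneg (pow_nonneg hb _) (hU0 i)]
      refine Finset.sum_congr rfl fun i hi => ?_
      rw [Finset.mem_Ico] at hi
      rw [ENNReal.ofReal_mul (pow_nonneg hb _), ENNReal.ofReal_toReal (fU i hi.2)]
    have e2 : ∑ i ∈ Finset.range l, ENNReal.ofReal (k2 ^ (l - i)) * S.Ut i =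
        ENNReal.ofReal (∑ i ∈ Finset.range l, k2 ^ (l - i) * U i) := by
      rw [ENNReal.ofReal_sum_of_nonneg fun i _ => mul_nonneg (pow_nonneg hk2 _) (hU0 i)]
      refine Finset.sum_congr rfl fun i hi => ?_
      rw [Finset.mem_range] at hi
      rw [ENNReal.ofReal_mul (pow_nonneg hk2 _), ENNReal.ofReal_toReal (fU i (by omega))]
    have s1 : 0 ≤ ∑ i ∈ Finset.Ico l S.nl, b ^ (i - l) * U i :=
      Finset.sum_nonneg fun i _ => mul_nonneg (pow_nonneg hb _) (hU0 i)
    have s2 : 0 ≤ ∑ i ∈ Finset.range l, k2 ^ (l - i) * U i :=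
      Finset.sum_nonneg fun i _ => mul_nonneg (pow_nonneg hk2 _) (hU0 i)
    rw [e1, e2, ← ENNReal.ofReal_mul hep, ← ENNReal.ofReal_mul hep,
      ← ENNReal.ofReal_add (mul_nonneg hep s1) (mul_nonneg hep s2)] at h
    have h2 := ENNReal.toReal_le_of_le_ofReal
      (add_nonneg (mul_nonneg hep s1) (mul_nonneg hep s2)) h
    have h3 : I l ≤ ep * ∑ i ∈ Finset.Ico l S.nl, b ^ (i - l) * U i +
        ep * ∑ i ∈ Finset.range l, k2 ^ (l - i) * U i := h2
    refine h3.trans (add_le_add (mul_le_mul_of_nonneg_left ?_ hep)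
      (mul_le_mul_of_nonneg_left ?_ hep))
    · refine Finset.sum_le_sum fun i _ => mul_le_mul_of_nonneg_left ?_ (pow_nonneg hb _)
      have := hR0 i; have := hB0 i; have := hI0 i
      linarith
    · refine Finset.sum_le_sum fun i _ => mul_le_mul_of_nonneg_left ?_ (pow_nonneg hk2 _)
      have := hR0 i; have := hB0 i; have := hI0 i
      linarith
  obtain ⟨-, hfin⟩ := H359.fin_levels (n := S.nl) (U := U) (R := R) (B := B) (I := I) hn
    (fun l _ => hU0 l) (fun l _ => hR0 l) (fun l _ => hB0 l) (fun l _ => hI0 l) hC.le hKU.le hkp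
    hep hb hk2 hlam hA0 het0 het1 hR hU hBz hBs hI c1 c2 c3 c4 c5
  -- the root
  have hroot := int_root hG hth1 het0 hM4 het hM hCl
  rw [tail 0 hn] at hroot
  have hPsi : ∀ y, 0 ≤ H148.Psi S.th S.A0 (max S.A0 y) := by
    intro y
    have := H148.Psi_mono (th := S.th) S.hth.le S.hA0
      (show (0 : ℝ) ≤ max S.A0 y from S.hA0.le.trans (le_max_left _ _))
    rwa [H148.Psi_zero] at this
  have hq : 0 ≤ 2 * Er 0 + (et * (2 * R 0) + (1 + et) * (2 * Mr 0)) := by
    have := hE0 0; have := hR0 0; have := hM0 0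
    positivity
  set DT := (S.De [] S.mT 0).toReal with hDT
  set D0 := (S.De [] 0 0).toReal with hD0
  have hA : S.Pa 0 = ENNReal.ofReal (Ar 0) := (ENNReal.ofReal_toReal (Pa_ne_top_a 0)).symm
  have hBb : S.Pb 0 = ENNReal.ofReal (Br 0) := (ENNReal.ofReal_toReal (Pb_ne_top_a 0)).symm
  rw [hA, hBb, ← ENNReal.ofReal_add ENNReal.toReal_nonneg (hPsi _),
    ← ENNReal.ofReal_add (hPsi _) hq,
    ← ENNReal.ofReal_add ENNReal.toReal_nonneg (add_nonneg (hPsi _) hq)] at hroot
  have hbr : 0 ≤ Br 0 := ENNReal.toReal_nonneg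
  have h5 := (ENNReal.ofReal_le_ofReal_iff (add_nonneg hbr (add_nonneg (hPsi _) hq))).1 hroot
  have h6 := hstar 0 hn
  have h7 : Br 0 ≤ Ar 0 := by
    have h8 : C * Br 0 ≤ C * Ar 0 := by
      have := hR0 0
      linarith
    exact le_of_mul_le_mul_left h8 hC
  have hD0A : max S.A0 D0 = S.A0 := max_eq_left (ENNReal.toReal_le_of_le_ofReal hA0.le h0)
  rw [hD0A] at h5
  have h9 := hIr 0 hn
  have h10 : 2 * Er 0 + (et * (2 * R 0) + (1 + et) * (2 * Mr 0)) ≤
      2 * (1 + et) * I 0 + 2 * et * R 0 := by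
    rw [h9]
    have := hE0 0
    nlinarith
  have h11 : H148.Psi S.th S.A0 (max S.A0 DT) ≤
      H148.Psi S.th S.A0 S.A0 + (S.A0 / 2 - S.A0 / 8) := by linarith
  have h12 := H359.fin_root S.hth.le (by linarith) hA0 h11
  rw [← ENNReal.ofReal_toReal (De_ne_top_a (S := S) [] S.mT 0)]
  exact ENNReal.ofReal_le_ofReal h12

end Vale.Agent.P262.M2.Sys
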