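import Vale.Agent.P262.H359.Acc2Pt

/-!
# P262, milestone 2: (T1) and (T2) at one point of the system, extended form
-/

set_option linter.all false

open MeasureTheory ProbabilityTheory Set
open scoped ENNReal RealInnerProductSpace
open Vale.Agent.P262.H118 (Iv st en iv_st K2 El2 paths)

namespace Vale.Agent.P262.M2.Sys

variable {E : Type*} [NormedAddCommGroup E] [InnerProductSpace ℝ E] [FiniteDimensional ℝ E]
  [MeasurableSpace E] [BorelSpace E] {S : Sys E} {G : List ℕ → ℕ → E → ℝ≥0∞} {j : ℕ} {x : E}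

lemma AP_le_a {m : ℕ} (h : S.actP j x m) : S.AP j x m ≤ 1 / 8 := by
  have hb0 : 0 ≤ S.b0 := S.hA0.le.trans S.hAb
  have h1 : S.AP j x m ≤ S.b0 := ENNReal.toReal_le_of_le_ofReal hb0 (S.A_le_of_not_Z h.2.2)
  have h2 := S.hMb
  have h3 := S.hM
  nlinarith

/-- closeness, real -/
lemma close_a (hC : ∀ m ≤ S.mT, x ∉ S.Z (S.nd m x j) m →
      S.hf (S.nd m x j) m x ≤ S.A (S.nd m x j) m x / 4) :
    ∀ m, m ≤ S.mT → S.actP j x m → |S.FP j x m - S.DP j x m| ≤ S.AP j x m / 4 := by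
  intro m hm h
  have h1 := hC m hm h.2.2
  rw [hf_eq_a] at h1
  have h2 : S.A (S.nd m x j) m x / 4 = ENNReal.ofReal (S.AP j x m / 4) := by
    rw [ENNReal.ofReal_div_of_pos (by norm_num)]
    unfold AP
    rw [ENNReal.ofReal_toReal (S.A_ne_top _ _ _)]
    simp
  rw [h2] at h1
  have h3 : 0 ≤ S.AP j x m / 4 := by
    have : 0 ≤ S.AP j x m := ENNReal.toReal_nonneg
    linarith
  exact (ENNReal.ofReal_le_ofReal_iff h3).1 h1

/-- variation of the potential at inner moves -/
lemma var_a (hth1 : S.th ≤ 1 / 2)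
    (hM : ∀ m < S.mT, x ∈ S.omj j m ∩ S.inn j m →
      S.F (S.nd m x j) m x ≤ S.F (S.nd m x j) (m + 1) x + G (S.nd m x j) m x ∧
      S.F (S.nd m x j) (m + 1) x ≤ S.F (S.nd m x j) m x + G (S.nd m x j) m x)
    (hfin : ∀ m < S.mT, x ∈ S.omj j m ∩ S.inn j m → G (S.nd m x j) m x ≠ ⊤) :
    ∀ m, m < S.mT → S.actP j x m → S.omP j x m → m < S.be (S.nd m x j) m x →
      |H148.Psi S.th (S.AP j x m) (S.FP j x (m + 1)) -
        H148.Psi S.th (S.AP j x m) (S.FP j x m)| ≤ S.qR G j m x := by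
  intro m hm h1 h2 h3
  have hin : x ∈ S.omj j m ∩ S.inn j m := ⟨mem_omj_a.2 ⟨h1, h2⟩, h3⟩
  obtain ⟨e1, e2⟩ := hM m hm hin
  have hG := hfin m hm hin
  have hF := F_ne_top_a (S := S) (S.nd m x j) m x
  have hF' := F_ne_top_a (S := S) (S.nd m x j) (m + 1) x
  have hnd : S.nd (m + 1) x j = S.nd m x j := nd_succ_a hm.le hin.2
  have h4 := Psi_var_a (S := S) hth1 (p := S.nd m x j) (m := m) (x := x) (AP_le_a h1)
  have h5 : S.FP j x (m + 1) = (S.F (S.nd m x j) (m + 1) x).toReal := by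
    unfold FP; rw [hnd]
  rw [h5]
  refine le_trans h4 ?_
  unfold qR
  have h6 : |(S.F (S.nd m x j) (m + 1) x).toReal - (S.F (S.nd m x j) m x).toReal| ≤
      (G (S.nd m x j) m x).toReal := by
    have a1 := ENNReal.toReal_mono (ENNReal.add_ne_top.2 ⟨hF', hG⟩) e1
    have a2 := ENNReal.toReal_mono (ENNReal.add_ne_top.2 ⟨hF, hG⟩) e2
    rw [ENNReal.toReal_add hF' hG] at a1
    rw [ENNReal.toReal_add hF hG] at a2
    rw [abs_le]
    constructor <;> linarith
  exact mul_le_mul_of_nonneg_left (mul_le_mul_of_nonneg_left h6 (wtR_pos_a _ _ _).le) (by norm_num)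

open Classical in
/-- **(T1)**, real, any bracket -/
theorem t1_real (hj : j ≤ Module.finrank ℝ E) (hth1 : S.th ≤ 1 / 2) {et : ℝ} (het0 : 0 ≤ et)
    (hM4 : 4 ≤ S.M) (het : 1 ≤ et * ((S.M / 4) ^ (1 - S.th) - 2))
    (hM : ∀ m < S.mT, x ∈ S.omj j m ∩ S.inn j m →
      S.F (S.nd m x j) m x ≤ S.F (S.nd m x j) (m + 1) x + G (S.nd m x j) m x ∧
      S.F (S.nd m x j) (m + 1) x ≤ S.F (S.nd m x j) m x + G (S.nd m x j) m x)
    (hC : ∀ m ≤ S.mT, x ∉ S.Z (S.nd m x j) m →
      S.hf (S.nd m x j) m x ≤ S.A (S.nd m x j) m x / 4)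
    (hfin : ∀ m < S.mT, x ∈ S.omj j m ∩ S.inn j m → G (S.nd m x j) m x ≠ ⊤)
    {br : ℕ → ℝ} (hbr : ∀ s e, Iv (S.lvP j x) (S.mT + 1) s e → S.actP j x s →
      H148.Psi S.th (S.AP j x s) (max (S.AP j x s) (S.DP j x s)) -
        H148.Psi S.th (S.AP j x s) (max (S.AP j x s) (S.DP j x (e - 1))) ≤ br s) :
    (∑ m ∈ Finset.range (S.mT + 1), if x ∈ S.omj j m ∩ S.inn j m then (if S.mv.IsStar m then
        H148.Psi S.th (S.AP j x m) (S.FP j x m) else 0) else 0) ≤
      (∑ m ∈ Finset.range (S.mT + 1), if x ∈ S.omj j m ∩ S.inn j m then (if S.mv.IsStar m then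
        H148.Psi S.th (S.AP j x m) (S.FP j x (m + 1)) else 0) else 0) +
      ∑ m ∈ Finset.range (S.mT + 1), H148.ac (S.actP j x) (H148.flf (S.lvP j x) br) m +
      ∑ m ∈ Finset.range (S.mT + 1), H148.ac (S.actP j x) (H148.ends (S.BP j x) (S.mT + 1)
        (S.omP j x) (H148.cvA S.th (S.AP j x) (S.DP j x) fun m => |S.FP j x m - S.DP j x m|)) m +
      (et * (∑ m ∈ Finset.range (S.mT + 1), if x ∈ S.omj j m ∩ S.inn j m then
          (if S.mv.IsStar m then S.qR G j m x else 0) else 0) +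
        (1 + et) * ∑ m ∈ Finset.range (S.mT + 1), if x ∈ S.omj j m ∩ S.inn j m then
          (if S.mv.IsStar m then 0 else S.qR G j m x) else 0) := by
  have h4 : S.M / 2 / 2 = S.M / 4 := by ring
  have key := (ptH' (Q := fun m => S.qR G j m x) hj (close_a hC) (var_a hth1 hM hfin)).star_sum
    (star := S.mv.IsStar) S.hth.le hth1 (by linarith) het0 (by rw [h4]; exact het) hbr
  have e1 : ∑ m ∈ Finset.range (S.mT + 1), H148.ac (S.actP j x) (H148.inn (S.BP j x) (S.mT + 1)
        (S.omP j x) fun m => if S.mv.IsStar m then H148.dPsi S.th (S.AP j x) (S.FP j x) m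
          else - S.qR G j m x) m =
      (∑ m ∈ Finset.range (S.mT + 1), if x ∈ S.omj j m ∩ S.inn j m then (if S.mv.IsStar m then
        H148.Psi S.th (S.AP j x m) (S.FP j x m) else 0) else 0) -
      (∑ m ∈ Finset.range (S.mT + 1), if x ∈ S.omj j m ∩ S.inn j m then (if S.mv.IsStar m then
        H148.Psi S.th (S.AP j x m) (S.FP j x (m + 1)) else 0) else 0) -
      ∑ m ∈ Finset.range (S.mT + 1), if x ∈ S.omj j m ∩ S.inn j m then
          (if S.mv.IsStar m then 0 else S.qR G j m x) else 0 := by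
    rw [← Finset.sum_sub_distrib, ← Finset.sum_sub_distrib]
    refine Finset.sum_congr rfl fun m hm => ?_
    rw [Finset.mem_range] at hm
    rw [ac_inn_a (by omega)]
    by_cases h1 : x ∈ S.omj j m ∩ S.inn j m
    · simp only [if_pos h1]
      by_cases h2 : S.mv.IsStar m
      · simp only [if_pos h2, H148.dPsi]
        ring
      · simp only [if_neg h2]
        ring
    · simp only [if_neg h1]
      ring
  have e2 : ∑ m ∈ Finset.range (S.mT + 1), H148.ac (S.actP j x)
          (H148.inn (S.BP j x) (S.mT + 1) (S.omP j x) fun m => S.qR G j m x) m =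
      (∑ m ∈ Finset.range (S.mT + 1), if x ∈ S.omj j m ∩ S.inn j m then
          (if S.mv.IsStar m then S.qR G j m x else 0) else 0) +
      ∑ m ∈ Finset.range (S.mT + 1), if x ∈ S.omj j m ∩ S.inn j m then
          (if S.mv.IsStar m then 0 else S.qR G j m x) else 0 := by
    rw [← Finset.sum_add_distrib]
    refine Finset.sum_congr rfl fun m hm => ?_
    rw [Finset.mem_range] at hm
    rw [ac_inn_a (by omega)]
    by_cases h1 : x ∈ S.omj j m ∩ S.inn j m
    · simp only [if_pos h1]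
      by_cases h2 : S.mv.IsStar m
      · simp only [if_pos h2]
        ring
      · simp only [if_neg h2]
        ring
    · simp only [if_neg h1]
      ring
  rw [e1, e2] at key
  linarith

lemma et_pos_a {et t : ℝ} (het0 : 0 ≤ et) (het : 1 ≤ et * t) : 0 < et := by
  rcases het0.eq_or_lt with h | h
  · rw [← h] at het; linarith
  · exact h

/-- an infinite price at an inner move of a counted block -/
lemma top_a (hn : ¬ ∀ m < S.mT, x ∈ S.omj j m ∩ S.inn j m → G (S.nd m x j) m x ≠ ⊤) :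
    (∑ m ∈ Finset.range S.mT, S.eI G j m x) = ⊤ ∨ (∑ m ∈ Finset.range S.mT, S.eR G j m x) = ⊤ := by
  classical
  push Not at hn
  obtain ⟨m, hm, h1, h2⟩ := hn
  have hw : iw (S.omj j m ∩ S.inn j m) x = 1 := by
    unfold iw; rw [indicator_of_mem h1]; rfl
  have hsw := (sw_pos_a (S := S) (S.nd m x j) m x).ne'
  by_cases hs : S.mv.IsStar m
  · right
    rw [ENNReal.sum_eq_top]
    refine ⟨m, Finset.mem_range.2 hm, ?_⟩
    unfold eR
    rw [if_pos hs, ← iw_star_a hs hm.le, hw, h2, one_mul, ENNReal.mul_top hsw]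
  · left
    rw [ENNReal.sum_eq_top]
    refine ⟨m, Finset.mem_range.2 hm, ?_⟩
    unfold eI
    rw [if_neg hs, hw, h2, one_mul, ENNReal.mul_top hsw]

/-- **(T1)** at one point, extended -/
theorem t1_pt (hj : j ≤ Module.finrank ℝ E) (hth1 : S.th ≤ 1 / 2) {et : ℝ} (het0 : 0 ≤ et)
    (hM4 : 4 ≤ S.M) (het : 1 ≤ et * ((S.M / 4) ^ (1 - S.th) - 2))
    (hM : ∀ m < S.mT, x ∈ S.omj j m ∩ S.inn j m →
      S.F (S.nd m x j) m x ≤ S.F (S.nd m x j) (m + 1) x + G (S.nd m x j) m x ∧
      S.F (S.nd m x j) (m + 1) x ≤ S.F (S.nd m x j) m x + G (S.nd m x j) m x)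
    (hC : ∀ m ≤ S.mT, x ∉ S.Z (S.nd m x j) m →
      S.hf (S.nd m x j) m x ≤ S.A (S.nd m x j) m x / 4) :
    ∑ m ∈ Finset.range S.mT, S.eP0 j m x ≤
      ∑ m ∈ Finset.range S.mT, S.eP1 j m x +
      (ENNReal.ofReal 20 * ∑ m ∈ Finset.range S.mT, S.eB j m x +
      (2 * ∑ m ∈ Finset.range (S.mT + 1), S.eE j m x +
      (ENNReal.ofReal et * (2 * ∑ m ∈ Finset.range S.mT, S.eR G j m x) +
        ENNReal.ofReal (1 + et) * (2 * ∑ m ∈ Finset.range S.mT, S.eI G j m x)))) := by
  classical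
  by_cases hfin : ∀ m < S.mT, x ∈ S.omj j m ∩ S.inn j m → G (S.nd m x j) m x ≠ ⊤
  · have key := t1_real (G := G) (br := fun s => 20 * (S.ent (S.nd s x j) s x).toReal) hj hth1
      het0 hM4 het hM hC hfin fun s e hiv ha => bracket_p hth1 hiv ha
    have key2 := ENNReal.ofReal_le_ofReal key
    refine (P0_a.symm.le.trans key2).trans ?_
    have hq1 : 0 ≤ ∑ m ∈ Finset.range (S.mT + 1), (if x ∈ S.omj j m ∩ S.inn j m then
          (if S.mv.IsStar m then S.qR G j m x else 0) else 0) :=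
      Finset.sum_nonneg fun m _ => by
        split_ifs
        · exact qR_nonneg_a
        · exact le_rfl
        · exact le_rfl
    have hq2 : 0 ≤ ∑ m ∈ Finset.range (S.mT + 1), (if x ∈ S.omj j m ∩ S.inn j m then
          (if S.mv.IsStar m then 0 else S.qR G j m x) else 0) :=
      Finset.sum_nonneg fun m _ => by
        split_ifs
        · exact le_rfl
        · exact qR_nonneg_a
        · exact le_rfl
    refine (ENNReal.ofReal_add_le).trans ?_
    refine (add_le_add (ENNReal.ofReal_add_le.trans (add_le_add ENNReal.ofReal_add_le le_rfl))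
      ENNReal.ofReal_add_le).trans ?_
    rw [P1_a, ENNReal.ofReal_mul het0, ENNReal.ofReal_mul (by linarith), Qs_a hfin, Qn_a hfin]
    have hB := B_a (S := S) (j := j) (x := x) (K := 20) (by norm_num)
    have hE := E_a (S := S) (j := j) (x := x)
    calc _ ≤ ∑ m ∈ Finset.range S.mT, S.eP1 j m x +
          ENNReal.ofReal 20 * ∑ m ∈ Finset.range S.mT, S.eB j m x +
          2 * ∑ m ∈ Finset.range (S.mT + 1), S.eE j m x +
          (ENNReal.ofReal et * (2 * ∑ m ∈ Finset.range S.mT, S.eR G j m x) +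
            ENNReal.ofReal (1 + et) * (2 * ∑ m ∈ Finset.range S.mT, S.eI G j m x)) := by
          gcongr
      _ = _ := by rw [add_assoc, add_assoc]
  · have het' := et_pos_a het0 het
    have h1 : ENNReal.ofReal et ≠ 0 := (ENNReal.ofReal_pos.2 het').ne'
    have h2 : ENNReal.ofReal (1 + et) ≠ 0 := (ENNReal.ofReal_pos.2 (by linarith)).ne'
    rcases top_a hfin with h | h
    · rw [h, ENNReal.mul_top (by norm_num), ENNReal.mul_top h2]
      simp
    · rw [h, ENNReal.mul_top (by norm_num), ENNReal.mul_top h1]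
      simp

end Vale.Agent.P262.M2.Sys
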