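import Vale.Agent.P262.H359.Acc2T

/-!
# P262, milestone 2: (T2) at one point and (T1) for the root, extended form
-/

set_option linter.all false

open MeasureTheory ProbabilityTheory Set
open scoped ENNReal RealInnerProductSpace
open Vale.Agent.P262.H118 (Iv st en iv_st K2 El2 paths)

namespace Vale.Agent.P262.M2.Sys

variable {E : Type*} [NormedAddCommGroup E] [InnerProductSpace ℝ E] [FiniteDimensional ℝ E]
  [MeasurableSpace E] [BorelSpace E] {S : Sys E} {G : List ℕ → ℕ → E → ℝ≥0∞} {j : ℕ} {x : E}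

/-! ### units -/

lemma psi_le_one_a (p : List ℕ) (m : ℕ) (x : E) : S.psi p m x ≤ 1 := by
  classical
  have h0 : 0 ≤ 1 - S.th := by linarith [S.hth1]
  unfold psi
  split_ifs
  · exact le_rfl
  · exact zero_le_one
  · exact ENNReal.rpow_le_one (Dw_le_one _ _ _ _) h0

lemma un_ne_top_a (p : List ℕ) (m : ℕ) (x : E) : S.un p m x ≠ ⊤ := by
  unfold un
  refine ENNReal.mul_ne_top (ENNReal.mul_ne_top ENNReal.ofReal_ne_top (S.As_ne_top _ _ _ _)) ?_
  exact ne_top_of_le_ne_top ENNReal.one_ne_top (psi_le_one_a p m x)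

open Classical in
lemma U_a : ENNReal.ofReal (∑ m ∈ Finset.range (S.mT + 1), H148.ac (S.actP j x)
      (H148.fst (S.BP j x) (S.omP j x) fun m => (S.un (S.nd m x j) m x).toReal) m) =
      ∑ m ∈ Finset.range S.mT, S.eU j m x := by
  rw [Finset.sum_range_succ, ac_fst_a, if_neg (fun h => not_first_mT_a _ _ h.2.2), add_zero,
    ENNReal.ofReal_sum_of_nonneg]
  · refine Finset.sum_congr rfl fun m _ => ?_
    rw [ac_fst_a, ofReal_ite_a, ENNReal.ofReal_toReal (un_ne_top_a _ _ _)]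
    rfl
  · intro m _
    rw [ac_fst_a]
    split_ifs
    · exact ENNReal.toReal_nonneg
    · exact le_rfl

lemma mem_omj_iff_a {m : ℕ} : x ∈ S.omj j m ↔
    x ∈ S.NL j m ∧ x ∈ S.OL j m ∧ x ∈ S.om (S.nd m x j) m := by
  unfold omj
  rw [mem_inter_iff, mem_inter_iff, mem_setOf_eq, and_assoc]

lemma mem_inn_iff_a {m : ℕ} : x ∈ S.inn j m ↔ m < S.be (S.nd m x j) m x := by
  unfold inn
  rw [mem_setOf_eq]

/-- the states of a counted block -/
lemma block_a {a k : ℕ} (ha : a ≤ S.mT) (h : x ∈ S.omj j a)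
    (hk : a ≤ k) (hk' : k < S.be (S.nd a x j) a x) :
    k < S.mT ∧ S.nd k x j = S.nd a x j ∧ x ∈ S.omj j k ∩ S.inn j k := by
  rw [mem_inter_iff, mem_inn_iff_a, mem_omj_iff_a]
  rw [mem_omj_iff_a] at h
  obtain ⟨h1, h2, h3⟩ := h
  have hta := tm_lt_p ha
  have hb := be_le_a ha (S.nd a x j) x
  have hs : S.Same (S.BB (S.nd a x j) a x) a k :=
    ⟨(bs_le (S := S) (S.nd a x j) a x).trans hk, hk'.le⟩
  have hnd : S.nd k x j = S.nd a x j := nd_same_block hs hta j (Nat.le_succ j)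
  have hl : S.Same (S.K.nw (S.nd a x j)) a k := hs.mono (nw_sub_BB _ _ _) (S.K.zero_mem_nw _) hta
  rw [hnd, be_same hs hta, om_same hs hta, NL_same hl hta, OL_same hl hta]
  exact ⟨lt_of_lt_of_le hk' hb, rfl, ⟨h1, h2, h3⟩, hk'⟩

lemma blkG_le_a {a : ℕ} (ha : a ≤ S.mT) (h : x ∈ S.omj j a) (hb : S.bs (S.nd a x j) a x = a)
    (hfin : ∀ m < S.mT, x ∈ S.omj j m ∩ S.inn j m → G (S.nd m x j) m x ≠ ⊤) :
    S.blkG G (S.nd a x j) a x ≤
      ENNReal.ofReal (∑ m ∈ Finset.Ico a (S.be (S.nd a x j) a x), S.qR G j m x) := by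
  unfold blkG
  rw [hb, ENNReal.ofReal_sum_of_nonneg fun m _ => qR_nonneg_a]
  refine Finset.sum_le_sum fun k hk => ?_
  rw [Finset.mem_Ico] at hk
  obtain ⟨h1, h2, h3⟩ := block_a ha h hk.1 hk.2
  have hG := hfin k h1 h3
  rw [h2] at hG
  have hnn : 0 ≤ S.wtR (S.nd a x j) k x * (G (S.nd a x j) k x).toReal :=
    mul_nonneg (wtR_pos_a _ _ _).le ENNReal.toReal_nonneg
  unfold qR
  rw [h2, sw_eq_a, ← ENNReal.ofReal_toReal hG, ← ENNReal.ofReal_mul (wtR_pos_a _ _ _).le,
    ENNReal.toReal_ofReal ENNReal.toReal_nonneg]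
  apply ENNReal.ofReal_le_ofReal
  linarith

/-- **(T2)** at one point, extended -/
theorem t2_pt (hj : j ≤ Module.finrank ℝ E) (hth1 : S.th ≤ 1 / 2) {et : ℝ} (het0 : 0 ≤ et)
    (hM4 : 4 ≤ S.M) (het : 1 ≤ et * ((S.M / 4) ^ (1 - S.th) - 2))
    (hM : ∀ m < S.mT, x ∈ S.omj j m ∩ S.inn j m →
      S.F (S.nd m x j) m x ≤ S.F (S.nd m x j) (m + 1) x + G (S.nd m x j) m x ∧
      S.F (S.nd m x j) (m + 1) x ≤ S.F (S.nd m x j) m x + G (S.nd m x j) m x)
    (hC : ∀ m ≤ S.mT, x ∉ S.Z (S.nd m x j) m →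
      S.hf (S.nd m x j) m x ≤ S.A (S.nd m x j) m x / 4)
    {K : ℝ} (hK : 0 < K) (hL : ∀ m < S.mT, x ∈ S.omj j m →
      S.un (S.nd m x j) m x ≤ ENNReal.ofReal K * S.blkG G (S.nd m x j) m x ∨
      (S.be (S.nd m x j) m x = S.l1 (S.nd m x j) m ∧
        S.un (S.nd m x j) m x ≤ ENNReal.ofReal K * (S.As S.th (S.nd m x j) m x *
          min (max (S.A (S.nd m x j) m x)
            (S.De (S.nd m x j) (S.bs (S.nd m x j) m x) x) ^ (1 - S.th))
            (S.q (S.nd m x j) (S.l1 (S.nd m x j) m) x)) +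
          ENNReal.ofReal K * S.blkG G (S.nd m x j) m x)) :
    ∑ m ∈ Finset.range S.mT, S.eU j m x ≤
      ENNReal.ofReal K * ∑ m ∈ Finset.range S.mT, S.eB j m x +
      ENNReal.ofReal K * (2 * ∑ m ∈ Finset.range (S.mT + 1), S.eE j m x +
        ENNReal.ofReal (2 + et) * (2 * ∑ m ∈ Finset.range S.mT, S.eR G j m x +
          2 * ∑ m ∈ Finset.range S.mT, S.eI G j m x)) := by
  classical
  by_cases hfin : ∀ m < S.mT, x ∈ S.omj j m ∩ S.inn j m → G (S.nd m x j) m x ≠ ⊤
  · have key := units_pt' (Q := fun m => S.qR G j m x)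
      (u := fun m => (S.un (S.nd m x j) m x).toReal) hj hth1 het0 hM4 het (close_a hC)
      (var_a hth1 hM hfin) hK.le ?_
    swap
    · intro a ha h1 h2 h3
      have ho : x ∈ S.omj j a := mem_omj_a.2 ⟨h1, h2⟩
      have haT : a < S.mT := by
        rcases ha.eq_or_lt with h | h
        · exfalso
          rw [h] at h3
          exact not_first_mT_a _ _ h3
        · exact h
      have hb := blkG_le_a ha ho h3 hfin
      set B := ∑ m ∈ Finset.Ico a (S.be (S.nd a x j) a x), S.qR G j m x with hB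
      have hB0 : 0 ≤ B := Finset.sum_nonneg fun m _ => qR_nonneg_a
      have hKb : ENNReal.ofReal K * S.blkG G (S.nd a x j) a x ≤ ENNReal.ofReal (K * B) := by
        rw [ENNReal.ofReal_mul hK.le]
        gcongr
      rcases hL a haT ho with h4 | ⟨h4, h5⟩
      · left
        exact ENNReal.toReal_le_of_le_ofReal (mul_nonneg hK.le hB0) (h4.trans hKb)
      · right
        refine ⟨h4, ?_⟩
        rw [h3] at h5
        have h6 : S.As S.th (S.nd a x j) a x * min (max (S.A (S.nd a x j) a x)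
            (S.De (S.nd a x j) a x) ^ (1 - S.th)) (S.q (S.nd a x j) (S.l1 (S.nd a x j) a) x) =
            S.ent (S.nd a x j) a x := rfl
        rw [h6] at h5
        have h7 := ent_toReal_p (S := S) (S.nd a x j) a x
        have h8 : S.AP j x a ^ S.th * min ((max (S.AP j x a) (S.DP j x a)) ^ (1 - S.th))
          (S.q (S.nd a x j) (S.l1 (S.nd a x j) a) x).toReal = (S.ent (S.nd a x j) a x).toReal := by
          rw [h7]; rfl
        rw [h8]
        have h9 : S.un (S.nd a x j) a x ≤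
            ENNReal.ofReal (K * (S.ent (S.nd a x j) a x).toReal + K * B) := by
          rw [ENNReal.ofReal_add (mul_nonneg hK.le ENNReal.toReal_nonneg)
            (mul_nonneg hK.le hB0), ENNReal.ofReal_mul hK.le,
            ENNReal.ofReal_toReal (ent_ne_top_p _ _ _)]
          exact h5.trans (add_le_add le_rfl hKb)
        exact ENNReal.toReal_le_of_le_ofReal (add_nonneg
          (mul_nonneg hK.le ENNReal.toReal_nonneg) (mul_nonneg hK.le hB0)) h9
    have key2 := ENNReal.ofReal_le_ofReal key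
    refine (U_a.symm.le.trans key2).trans ?_
    have e2 : ∑ m ∈ Finset.range (S.mT + 1), H148.ac (S.actP j x)
          (H148.inn (S.BP j x) (S.mT + 1) (S.omP j x) fun m => S.qR G j m x) m =
      (∑ m ∈ Finset.range (S.mT + 1), if x ∈ S.omj j m ∩ S.inn j m then
          (if S.mv.IsStar m then S.qR G j m x else 0) else 0) +
      ∑ m ∈ Finset.range (S.mT + 1), if x ∈ S.omj j m ∩ S.inn j m then
          (if S.mv.IsStar m then 0 else S.qR G j m x) else 0 := by
      rw [← Finset.sum_add_distrib]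
      refine Finset.sum_congr rfl fun m hm => ?_
      rw [Finset.mem_range] at hm
      rw [ac_inn_a (by omega)]
      by_cases h1 : x ∈ S.omj j m ∩ S.inn j m
      · simp only [if_pos h1]
        by_cases h2 : S.mv.IsStar m
        · simp only [if_pos h2]
          ring
        · simp only [if_neg h2]
          ring
      · simp only [if_neg h1]
        ring
    rw [e2]
    refine ENNReal.ofReal_add_le.trans ?_
    rw [ENNReal.ofReal_mul hK.le, ENNReal.ofReal_mul hK.le]
    have hB := B_a (S := S) (j := j) (x := x) (K := 1) (by norm_num)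
    simp only [one_mul, ENNReal.ofReal_one] at hB
    have hE := E_a (S := S) (j := j) (x := x)
    refine add_le_add (mul_le_mul' le_rfl hB) (mul_le_mul' le_rfl ?_)
    refine ENNReal.ofReal_add_le.trans (add_le_add hE ?_)
    rw [ENNReal.ofReal_mul (by linarith)]
    refine mul_le_mul' le_rfl (ENNReal.ofReal_add_le.trans ?_)
    rw [Qs_a hfin, Qn_a hfin]
  · have h2 : ENNReal.ofReal (2 + et) ≠ 0 := (ENNReal.ofReal_pos.2 (by linarith)).ne'
    have h3 : ENNReal.ofReal K ≠ 0 := (ENNReal.ofReal_pos.2 hK).ne'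
    rcases top_a hfin with h | h
    · rw [h, ENNReal.mul_top (by norm_num), add_top, ENNReal.mul_top h2, add_top,
        ENNReal.mul_top h3, add_top]
      exact le_top
    · rw [h, ENNReal.mul_top (by norm_num), top_add, ENNReal.mul_top h2, add_top,
        ENNReal.mul_top h3, add_top]
      exact le_top

/-! ### the root -/

lemma root_not_leaf_a (m : ℕ) : ¬ S.Leaf [] m := by
  unfold Leaf
  rw [S.W_nil, Submodule.bot_orthogonal_eq_top, finrank_top]
  have := S.hd2
  omega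

lemma l0_root_a (m : ℕ) : S.l0 [] m = 0 := by
  unfold l0 El2.sS
  rw [S.K.nw_nil]
  have : st ({0} : Set ℕ) (S.mv.tm m) = 0 := by
    have h := H118.st_mem (B := ({0} : Set ℕ)) (by simp) (S.mv.tm m)
    simpa using h
  rw [this, S.mv.n_zero]

lemma root_life_a {s e : ℕ} (h : Iv (S.lvP 0 x) (S.mT + 1) s e) : s = 0 ∧ e = S.mT + 1 := by
  obtain ⟨h1, h2, h3, h4, h5⟩ := h
  have hs : S.l0 [] s = s := h1
  rw [l0_root_a] at hs
  refine ⟨hs.symm, ?_⟩
  rcases h4 with h4 | h4
  · have he : S.l0 [] e = e := h4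
    rw [l0_root_a] at he
    omega
  · exact h4

lemma root_AP_a (m : ℕ) : S.AP 0 x m = S.A0 := by
  unfold AP
  have : S.nd m x 0 = [] := rfl
  rw [this, S.A_nil, ENNReal.toReal_ofReal S.hA0.le]

/-- the bracket of the root -/
theorem root_pt (hth1 : S.th ≤ 1 / 2) {et : ℝ} (het0 : 0 ≤ et)
    (hM4 : 4 ≤ S.M) (het : 1 ≤ et * ((S.M / 4) ^ (1 - S.th) - 2))
    (hM : ∀ m < S.mT, x ∈ S.omj 0 m ∩ S.inn 0 m →
      S.F (S.nd m x 0) m x ≤ S.F (S.nd m x 0) (m + 1) x + G (S.nd m x 0) m x ∧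
      S.F (S.nd m x 0) (m + 1) x ≤ S.F (S.nd m x 0) m x + G (S.nd m x 0) m x)
    (hC : ∀ m ≤ S.mT, x ∉ S.Z (S.nd m x 0) m →
      S.hf (S.nd m x 0) m x ≤ S.A (S.nd m x 0) m x / 4) :
    ∑ m ∈ Finset.range S.mT, S.eP0 0 m x +
        ENNReal.ofReal (H148.Psi S.th S.A0 (max S.A0 (S.De [] S.mT x).toReal)) ≤
      ∑ m ∈ Finset.range S.mT, S.eP1 0 m x +
      (ENNReal.ofReal (H148.Psi S.th S.A0 (max S.A0 (S.De [] 0 x).toReal)) +
      (2 * ∑ m ∈ Finset.range (S.mT + 1), S.eE 0 m x +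
      (ENNReal.ofReal et * (2 * ∑ m ∈ Finset.range S.mT, S.eR G 0 m x) +
        ENNReal.ofReal (1 + et) * (2 * ∑ m ∈ Finset.range S.mT, S.eI G 0 m x)))) := by
  classical
  have hPsi : ∀ y, 0 ≤ H148.Psi S.th S.A0 (max S.A0 y) := by
    intro y
    have := H148.Psi_mono (th := S.th) S.hth.le S.hA0
      (show (0 : ℝ) ≤ max S.A0 y from S.hA0.le.trans (le_max_left _ _))
    rwa [H148.Psi_zero] at this
  by_cases hfin : ∀ m < S.mT, x ∈ S.omj 0 m ∩ S.inn 0 m → G (S.nd m x 0) m x ≠ ⊤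
  · set PD := H148.Psi S.th S.A0 (max S.A0 (S.De [] 0 x).toReal) with hPD
    set PT := H148.Psi S.th S.A0 (max S.A0 (S.De [] S.mT x).toReal) with hPT
    have key := t1_real (G := G) (x := x) (j := 0) (br := fun s => PD - PT) (Nat.zero_le _) hth1
      het0 hM4 het hM hC hfin ?_
    swap
    · intro s e hiv ha
      obtain ⟨rfl, rfl⟩ := root_life_a hiv
      rw [root_AP_a, Nat.add_sub_cancel]
      exact le_rfl
    have e0 : ∑ m ∈ Finset.range (S.mT + 1), H148.ac (S.actP 0 x)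
        (H148.flf (S.lvP 0 x) fun s => PD - PT) m = PD - PT := by
      rw [Finset.sum_eq_single_of_mem 0 (Finset.mem_range.2 (by omega))]
      · unfold H148.ac H148.flf
        have hact : S.actP 0 x 0 := by
          refine ⟨root_not_leaf_a 0, fun i hi => absurd hi (by omega), ?_⟩
          have : S.nd 0 x 0 = [] := rfl
          rw [this, S.Z_nil]
          simp
        rw [if_pos hact, if_pos (show (0 : ℕ) ∈ S.lvP 0 x from l0_root_a (S := S) 0)]
      · intro m _ hm0
        unfold H148.ac H148.flf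
        have : m ∉ S.lvP 0 x := by
          intro h
          have h : S.l0 [] m = m := h
          rw [l0_root_a] at h
          exact hm0 h.symm
        rw [if_neg this]
        split_ifs <;> rfl
    rw [e0] at key
    have key' : (∑ m ∈ Finset.range (S.mT + 1), if x ∈ S.omj 0 m ∩ S.inn 0 m then
        (if S.mv.IsStar m then H148.Psi S.th (S.AP 0 x m) (S.FP 0 x m) else 0) else 0) + PT ≤
      (∑ m ∈ Finset.range (S.mT + 1), if x ∈ S.omj 0 m ∩ S.inn 0 m then (if S.mv.IsStar m then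
        H148.Psi S.th (S.AP 0 x m) (S.FP 0 x (m + 1)) else 0) else 0) +
      (PD + (∑ m ∈ Finset.range (S.mT + 1), H148.ac (S.actP 0 x)
        (H148.ends (S.BP 0 x) (S.mT + 1)
        (S.omP 0 x) (H148.cvA S.th (S.AP 0 x) (S.DP 0 x) fun m => |S.FP 0 x m - S.DP 0 x m|)) m +
      (et * (∑ m ∈ Finset.range (S.mT + 1), if x ∈ S.omj 0 m ∩ S.inn 0 m then
          (if S.mv.IsStar m then S.qR G 0 m x else 0) else 0) +
        (1 + et) * ∑ m ∈ Finset.range (S.mT + 1), if x ∈ S.omj 0 m ∩ S.inn 0 m then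
          (if S.mv.IsStar m then 0 else S.qR G 0 m x) else 0))) := by linarith
    have key2 := ENNReal.ofReal_le_ofReal key'
    have hP0 : 0 ≤ ∑ m ∈ Finset.range (S.mT + 1), (if x ∈ S.omj 0 m ∩ S.inn 0 m then
        (if S.mv.IsStar m then H148.Psi S.th (S.AP 0 x m) (S.FP 0 x m) else 0) else 0) := by
      refine Finset.sum_nonneg fun m _ => ?_
      split_ifs
      · have := H148.Psi_mono (th := S.th) S.hth.le (A_toReal_pos_a (S := S) (S.nd m x 0) m x)
          (show (0 : ℝ) ≤ S.FP 0 x m from ENNReal.toReal_nonneg)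
        rwa [H148.Psi_zero] at this
      · exact le_rfl
      · exact le_rfl
    rw [ENNReal.ofReal_add hP0 (hPsi _), P0_a] at key2
    refine key2.trans ?_
    refine ENNReal.ofReal_add_le.trans ?_
    rw [P1_a]
    refine add_le_add le_rfl (ENNReal.ofReal_add_le.trans (add_le_add le_rfl
      (ENNReal.ofReal_add_le.trans (add_le_add E_a (ENNReal.ofReal_add_le.trans ?_)))))
    rw [ENNReal.ofReal_mul het0, ENNReal.ofReal_mul (by linarith), Qs_a hfin, Qn_a hfin]
  · have het' := et_pos_a het0 het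
    have h1 : ENNReal.ofReal et ≠ 0 := (ENNReal.ofReal_pos.2 het').ne'
    have h2 : ENNReal.ofReal (1 + et) ≠ 0 := (ENNReal.ofReal_pos.2 (by linarith)).ne'
    rcases top_a hfin with h | h
    · rw [h, ENNReal.mul_top (by norm_num), ENNReal.mul_top h2]
      simp
    · rw [h, ENNReal.mul_top (by norm_num), ENNReal.mul_top h1]
      simp

end Vale.Agent.P262.M2.Sys
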