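import Vale.Agent.P262.H118.Elem2

/-!
# P262, milestone 1, block SUM, part A: sums over blocks, lives, moves
-/

set_option linter.all false

namespace Vale.Agent.P262.H359

open Vale.Agent.P262.H118 Finset

open Classical in
/-- starting times in `[0, T)`. -/
noncomputable def SB (B : Set ℕ) (T : ℕ) : Finset ℕ := (range T).filter (· ∈ B)

lemma mem_SB {B : Set ℕ} {T s : ℕ} : s ∈ SB B T ↔ s < T ∧ s ∈ B := by
  classical
  unfold SB
  rw [mem_filter, mem_range]

lemma st_mem_SB {B : Set ℕ} (h0 : 0 ∈ B) {T t : ℕ} (h : t < T) : st B t ∈ SB B T :=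
  mem_SB.2 ⟨(st_le t).trans_lt h, st_mem h0 t⟩

lemma iv_of_SB {B : Set ℕ} {T s : ℕ} (h : s ∈ SB B T) : Iv B T s (en B T s) :=
  iv_en (mem_SB.1 h).2 (mem_SB.1 h).1

open Classical in
lemma filter_st {B : Set ℕ} (h0 : 0 ∈ B) {T s : ℕ} (hs : s ∈ SB B T) :
    (range T).filter (fun t => st B t = s) = Ico s (en B T s) := by
  have hiv := iv_of_SB hs
  ext t
  rw [mem_filter, mem_range, mem_Ico]
  constructor
  · rintro ⟨h1, h2⟩
    have h3 := iv_st (B := B) h0 h1
    rw [h2] at h3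
    exact ⟨h3.2.1, h3.2.2⟩
  · rintro ⟨h1, h2⟩
    exact ⟨lt_of_lt_of_le h2 (en_le _ _ _), (hiv.st_eq h0 h1 h2).1⟩

/-- a sum over the time axis is the sum over the blocks of the sums over the blocks. -/
lemma sum_blocks {B : Set ℕ} (h0 : 0 ∈ B) (T : ℕ) (F : ℕ → ℝ) :
    ∑ s ∈ SB B T, ∑ t ∈ Ico s (en B T s), F t = ∑ t ∈ range T, F t := by
  classical
  rw [← sum_fiberwise_of_maps_to (s := range T) (t := SB B T) (g := st B)
    (fun t ht => st_mem_SB h0 (mem_range.1 ht))]
  refine sum_congr rfl fun s hs => ?_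
  rw [filter_st h0 hs]

/-- weights depending on the block only. -/
lemma sum_blocks_mul {B : Set ℕ} (h0 : 0 ∈ B) (T : ℕ) (F a : ℕ → ℝ) :
    ∑ t ∈ range T, F (st B t) * a t = ∑ s ∈ SB B T, F s * ∑ t ∈ Ico s (en B T s), a t := by
  rw [← sum_blocks h0 T]
  refine sum_congr rfl fun s hs => ?_
  rw [mul_sum]
  refine sum_congr rfl fun t ht => ?_
  rw [mem_Ico] at ht
  rw [((iv_of_SB hs).st_eq h0 ht.1 ht.2).1]

/-- at most two points in every block. -/
lemma sum_two {B : Set ℕ} (h0 : 0 ∈ B) {T : ℕ} {X : Finset ℕ} (hX : X ⊆ range T) (p q : ℕ → ℕ)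
    (h : ∀ a ∈ X, a = p (st B a) ∨ a = q (st B a)) {F : ℕ → ℝ} (hF : ∀ s, 0 ≤ F s) :
    ∑ a ∈ X, F (st B a) ≤ 2 * ∑ s ∈ SB B T, F s := by
  classical
  rw [← sum_fiberwise_of_maps_to (s := X) (t := SB B T) (g := st B)
    (fun t ht => st_mem_SB h0 (mem_range.1 (hX ht))), mul_sum]
  refine sum_le_sum fun s hs => ?_
  have e : ∑ a ∈ X with st B a = s, F (st B a) = ∑ a ∈ X with st B a = s, F s :=
    sum_congr rfl fun a ha => by rw [(mem_filter.1 ha).2]
  rw [e, sum_const, nsmul_eq_mul]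
  have hc : (X.filter fun a => st B a = s).card ≤ 2 := by
    refine (card_le_card (t := {p s, q s}) ?_).trans card_le_two
    intro a ha
    rw [mem_filter] at ha
    rw [mem_insert, mem_singleton]
    have := h a ha.1
    rwa [ha.2] at this
  have hc' : ((X.filter fun a => st B a = s).card : ℝ) ≤ 2 := by exact_mod_cast hc
  exact mul_le_mul_of_nonneg_right hc' (hF s)

variable {E : Type*} [NormedAddCommGroup E] [InnerProductSpace ℝ E] [FiniteDimensional ℝ E]
  {v : ℕ → E} {T : ℕ} {N δ : ℝ} {f : ℕ → E} {d : ℕ}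

section K1

variable (K : K1 v T N δ f d)

/-- the life starting times in a block. -/
lemma life_two {i a : ℕ} (ha : a ∈ SB (K.nw (i + 1)) T) :
    a = st (K.nb i) a ∨ a = en (K.nb i) T (st (K.nb i) a) - 1 := by
  obtain ⟨haT, ham⟩ := mem_SB.1 ha
  obtain ⟨h1, h2, h3⟩ := iv_st (K.zero_mem_nb i) haT
  rcases K.lives h1 h2 h3 ham with h | h
  · exact Or.inl h
  · right; omega

/-- the blocks of level `i` are closed by lives of level `i + 1`: end of a life inside a block. -/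
lemma end_life {i s e r : ℕ} (h : Iv (K.nb i) T s e) (h1 : s < r) (h2 : r ≤ e)
    (hr : r ∈ K.nw (i + 1) ∨ r = T) : r = e - 1 ∨ r = e := by
  rcases h2.eq_or_lt with h3 | h3
  · exact Or.inr h3
  · rcases hr with hr | hr
    · rcases K.lives h h1.le h3 hr with h4 | h4
      · omega
      · left; omega
    · have := h.2.2.1; omega

/-- sum of the angles over a block. -/
lemma angle_block {i : ℕ} {Θ : ℝ} {a : ℕ → ℝ} (ha : ∀ t, 0 ≤ a t)
    (hlife : ∀ s e, Iv (K.nw (i + 1)) T s e → ∑ t ∈ Ico s e, a t ≤ Θ) {s e : ℕ}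
    (h : Iv (K.nb i) T s e) : ∑ t ∈ Ico s e, a t ≤ 2 * Θ := by
  have hsB : s ∈ K.nw (i + 1) := K.nb_subset_nw i h.1
  have hsT : s < T := lt_of_lt_of_le h.2.1 h.2.2.1
  have heB : e ∈ K.nw (i + 1) ∨ e = T := by
    rcases h.2.2.2.1 with h1 | h1
    · exact Or.inl (K.nb_subset_nw i h1)
    · exact Or.inr h1
  have hiv := iv_en hsB hsT
  set e1 := en (K.nw (i + 1)) T s with he1
  have hΘ0 : 0 ≤ Θ := le_trans (sum_nonneg fun t _ => ha t) (hlife s e1 hiv)
  have h1e : e1 ≤ e := by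
    by_contra hcon
    push Not at hcon
    rcases heB with h1 | h1
    · exact hiv.2.2.2.2 e h.2.1 hcon h1
    · have := hiv.2.2.1; omega
  rcases end_life K h hiv.2.1 h1e hiv.2.2.2.1 with h2 | h2
  · by_cases h3 : e1 = e
    · rw [← h3]
      have := hlife s e1 hiv
      linarith
    · have h4 : e1 < e := lt_of_le_of_ne h1e h3
      have h5 : e1 ∈ K.nw (i + 1) := by
        rcases hiv.2.2.2.1 with h5 | h5
        · exact h5
        · have := h.2.2.1; omega
      have hiv2 : Iv (K.nw (i + 1)) T e1 e := ⟨h5, h4, h.2.2.1, heB, fun r h6 h7 => by omega⟩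
      rw [← sum_Ico_consecutive a hiv.2.1.le h1e]
      have := hlife s e1 hiv
      have := hlife e1 e hiv2
      linarith
  · rw [← h2]
    have := hlife s e1 hiv
    linarith

/-- an incomplete block of level `i + 1` is the last block of its life. -/
lemma inc_two {i s : ℕ} (hs : s ∈ SB (K.nb (i + 1)) T)
    (hinc : en (K.nb (i + 1)) T s ∈ K.nw (i + 1) ∨ en (K.nb (i + 1)) T s = T) :
    s = st (K.nb (i + 1)) (en (K.nb i) T (st (K.nb i) s) - 1 - 1) ∨
      s = st (K.nb (i + 1)) (en (K.nb i) T (st (K.nb i) s) - 1) := by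
  have hiv := iv_of_SB hs
  obtain ⟨hsT, hsm⟩ := mem_SB.1 hs
  set e := en (K.nb (i + 1)) T s with he
  obtain ⟨h1, h2, h3⟩ := iv_st (K.zero_mem_nb i) hsT
  set p := st (K.nb i) s with hp
  set ep := en (K.nb i) T p with hep
  have hle : e ≤ ep := by
    by_contra hcon
    push Not at hcon
    rcases h1.2.2.2.1 with h4 | h4
    · exact hiv.2.2.2.2 ep h3 hcon (K.nw_subset_nb _ (K.nb_subset_nw i h4))
    · have := hiv.2.2.1; omega
  have hse := hiv.2.1
  have hst : st (K.nb (i + 1)) (e - 1) = s :=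
    (hiv.st_eq (K.zero_mem_nb _) (by omega) (by omega)).1
  rcases end_life K h1 (by omega) hle hinc with h4 | h4
  · left
    rw [← h4]; exact hst.symm
  · right
    rw [← h4]; exact hst.symm

end K1

section Mv

variable {K : K1 v T N δ f d} (M : Elem K)

lemma n_mono {a b : ℕ} (h : a ≤ b) : M.n a ≤ M.n b :=
  (strictMono_nat_of_lt_succ M.n_lt).monotone h

/-- sum of a function over the rotation moves of step `t`. -/
noncomputable def rots (F : ℕ → ℝ) (t : ℕ) : ℝ := ∑ m ∈ Ico (M.n t + 1) (M.n (t + 1) - 1), F m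

/-- the moves inside the block `[s, e)`: stars, rotations, inner reopenings. -/
noncomputable def inner (F : ℕ → ℝ) (s e : ℕ) : ℝ :=
  ∑ t ∈ Ico s e, F (M.n t) + (∑ t ∈ Ico s e, rots M F t + ∑ t ∈ Ico s (e - 1), F (M.n (t + 1) - 1))

lemma sum_moves (F : ℕ → ℝ) {s e : ℕ} (h : s ≤ e) :
    ∑ m ∈ Ico (M.n s) (M.n e), F m
      = ∑ t ∈ Ico s e, (F (M.n t) + rots M F t + F (M.n (t + 1) - 1)) := by
  induction e, h using Nat.le_induction with
  | base => simp
  | succ e h ih =>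
    rw [sum_Ico_succ_top h, ← ih, ← sum_Ico_consecutive F (n_mono M h) (M.n_lt e).le]
    congr 1
    have h2 := M.n_succ e
    have e1 : M.n (e + 1) = M.n (e + 1) - 1 + 1 := by omega
    rw [sum_eq_sum_Ico_succ_bot (by omega : M.n e < M.n (e + 1))]
    have e2 : Ico (M.n e + 1) (M.n (e + 1)) = Ico (M.n e + 1) (M.n (e + 1) - 1 + 1) := by rw [← e1]
    rw [e2, sum_Ico_succ_top (by omega)]
    unfold rots
    ring

/-- the moves `[n s, n e - 1)`. -/
lemma sum_inner (F : ℕ → ℝ) {s e : ℕ} (h : s < e) :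
    ∑ m ∈ Ico (M.n s) (M.n e - 1), F m = inner M F s e := by
  have h1 := sum_moves M F h.le
  have h2 := M.n_succ (e - 1)
  have h3 : e - 1 + 1 = e := by omega
  rw [h3] at h2
  have h4 : M.n s ≤ M.n (e - 1) := n_mono M (by omega)
  have e1 : M.n e = M.n e - 1 + 1 := by omega
  have e2 : Ico (M.n s) (M.n e) = Ico (M.n s) (M.n e - 1 + 1) := by rw [← e1]
  rw [e2, sum_Ico_succ_top (by omega)] at h1
  unfold inner
  have h5 : ∑ t ∈ Ico s e, F (M.n (t + 1) - 1)
      = ∑ t ∈ Ico s (e - 1), F (M.n (t + 1) - 1) + F (M.n e - 1) := by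
    have e3 : Ico s e = Ico s (e - 1 + 1) := by rw [h3]
    rw [e3, sum_Ico_succ_top (by omega), h3]
  rw [sum_add_distrib, sum_add_distrib, h5] at h1
  linarith

end Mv

end Vale.Agent.P262.H359
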