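import Vale.Agent.P262.H359.AccA

/-!
# P262, milestone 1, block SUM, second form: rotations charge the units at both ends, the end
prices and the value costs of the rotations enter as totals
-/

set_option linter.all false

namespace Vale.Agent.P262.H359.M2

open Vale.Agent.P262.H118 Finset

variable {E : Type*} [NormedAddCommGroup E] [InnerProductSpace ℝ E] [FiniteDimensional ℝ E]
  {v : ℕ → E} {T : ℕ} {N δ : ℝ} {f : ℕ → E} {d : ℕ} {K : K1 v T N δ f d}

open Classical in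
/-- units seen by the reopening between `t` and `t + 1`. -/
noncomputable def reo (M : Elem K) (u : ℕ → ℕ → ℝ) (t : ℕ) : ℝ :=
  ∑ r ∈ range d, if r + 1 < d ∧ t + 1 ∉ K.nw r ∧ t + 1 ∈ K.nw (r + 1) then
    u r (M.n (t + 1) - 1) + u r (M.n (t + 1)) else 0

/-- price of a rotation: angle times the units at both ends. -/
noncomputable def ww (M : Elem K) (u : ℕ → ℕ → ℝ) (m : ℕ) : ℝ :=
  M.ph m * (u (M.jj m) m + u (M.jj m) (m + 1))

/-- total price of the rotations and reopenings -/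
noncomputable def RR (M : Elem K) (u : ℕ → ℕ → ℝ) : ℝ :=
  ∑ t ∈ range T, rots M (ww M u) t + ∑ t ∈ range T, if t + 1 < T then reo M u t else 0

/-- the inequalities which enter the final summation. `u i m` unit of level `i` at state `m`;
`ga i m` integrated labelwise price of move `m` at level `i`; `g t`, `l t` counted gain and loss of
step `t`; `op i a` opening price of a life; `pz i` total price of the ends of the blocks of level
`i`; `rc` total value cost of the rotations. -/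
structure AccHyp (M : Elem K) (u ga : ℕ → ℕ → ℝ) (g l : ℕ → ℝ) (op : ℕ → ℕ → ℝ) (pz : ℕ → ℝ)
    (rc c C0 C1 C3 C4 kk kap1 A0 Ds De : ℝ) : Prop where
  u0 : ∀ i m, 0 ≤ u i m
  ga0 : ∀ i m, 0 ≤ ga i m
  g0 : ∀ t, 0 ≤ g t
  l0 : ∀ t, 0 ≤ l t
  complete : ∀ i < d, ∀ s e, Iv (K.nb i) T s e → ¬ Sl v N f (K.S i) i s e →
    ∀ m, M.n s ≤ m → m < M.n e → c * u i m ≤ ∑ m' ∈ Ico (M.n s) (M.n e - 1), ga i m'
  block : ∀ i < d, ∀ s e, Iv (K.nb i) T s e → ∀ m, M.n s ≤ m → m < M.n e →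
    u i m ≤ 2 * u i (M.n s) + C0 * ∑ m' ∈ Ico (M.n s) (M.n e - 1), ga i m'
  parent : ∀ i, i + 1 < d → ∀ m, m < M.n T → u (i + 1) m ≤ kk * u i m
  root : ∀ m, m < M.n T → u 0 m ≤ A0
  star : ∀ i < d, ∀ t < T, ga i (M.n t) ≤ C1 * (g t + l t)
  rot : ∀ i < d, ∀ t < T, ∀ m, M.n t < m → m + 1 < M.n (t + 1) →
    ga i m ≤ kk * ww M u m
  reopen : ∀ i < d, ∀ t, t + 1 < T → t + 1 ∉ K.nb i → ga i (M.n (t + 1) - 1) ≤ kk * reo M u t
  total : De + ∑ t ∈ range T, g t ≤ Ds + ∑ t ∈ range T, l t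
    + ∑ i ∈ range d, ∑ a ∈ SB (K.nw i) T, op i a
    + ∑ i ∈ range d, pz i + rc
  op_root : op 0 0 ≤ A0
  op_succ : ∀ i, i + 1 < d → ∀ a ∈ SB (K.nw (i + 1)) T, op (i + 1) a ≤ kk * u i (M.n a)
  rc_le : rc ≤ C4 * (kk * RR M u)
  pz_le : ∀ i < d, pz i ≤ kap1 * (∑ t ∈ range T, g t + ∑ t ∈ range T, l t) + C3 * (kk * RR M u)
  loss : ∀ t < T, l t ≤ g t / 8

namespace AccHyp

variable {M : Elem K} {u ga : ℕ → ℕ → ℝ} {g l : ℕ → ℝ} {op : ℕ → ℕ → ℝ}
  {pz : ℕ → ℝ} {rc c C0 C1 C3 C4 kk kap1 A0 Ds De : ℝ}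
  (H : AccHyp M u ga g l op pz rc c C0 C1 C3 C4 kk kap1 A0 Ds De)

open Classical in
/-- bound of the unit over a block. -/
noncomputable def yy (M : Elem K) (u ga : ℕ → ℕ → ℝ) (c C0 : ℝ) (i s : ℕ) : ℝ :=
  (1 / c + C0) * inner M (ga i) s (en (K.nb i) T s) +
    if Sl v N f (K.S i) i s (en (K.nb i) T s) then 2 * u i (M.n s) else 0

lemma rots_nonneg (M : Elem K) {F : ℕ → ℝ} (hF : ∀ m, 0 ≤ F m) (t : ℕ) : 0 ≤ rots M F t :=
  sum_nonneg fun m _ => hF m

lemma inner_nonneg' (M : Elem K) {F : ℕ → ℝ} (hF : ∀ m, 0 ≤ F m) (s e : ℕ) : 0 ≤ inner M F s e :=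
  add_nonneg (sum_nonneg fun t _ => hF _)
    (add_nonneg (sum_nonneg fun t _ => rots_nonneg M hF t) (sum_nonneg fun t _ => hF _))

include H in
lemma yy_nonneg (hc : 0 < c) (hC0 : 0 ≤ C0) (i s : ℕ) : 0 ≤ yy M u ga c C0 i s := by
  unfold yy
  have h1 : 0 ≤ inner M (ga i) s (en (K.nb i) T s) := inner_nonneg' M (H.ga0 i) _ _
  have h2 : 0 ≤ 1 / c + C0 := by positivity
  have h3 := H.u0 i (M.n s)
  split_ifs
  · have := mul_nonneg h2 h1; linarith
  · have := mul_nonneg h2 h1; linarith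

include H in
/-- (a) the unit is bounded over a block. -/
lemma u_le_yy (hc : 0 < c) (hC0 : 0 ≤ C0) {i s m : ℕ} (hi : i < d) (hs : s ∈ SB (K.nb i) T)
    (h1 : M.n s ≤ m) (h2 : m < M.n (en (K.nb i) T s)) : u i m ≤ yy M u ga c C0 i s := by
  have hiv := iv_of_SB hs
  have hΓ : 0 ≤ inner M (ga i) s (en (K.nb i) T s) := inner_nonneg' M (H.ga0 i) _ _
  unfold yy
  by_cases hS : Sl v N f (K.S i) i s (en (K.nb i) T s)
  · rw [if_pos hS]
    have := H.block i hi s _ hiv m h1 h2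
    rw [sum_inner M (ga i) hiv.2.1] at this
    have h3 : 0 ≤ 1 / c * inner M (ga i) s (en (K.nb i) T s) := by positivity
    linarith
  · rw [if_neg hS, add_zero]
    have := H.complete i hi s _ hiv hS m h1 h2
    rw [sum_inner M (ga i) hiv.2.1] at this
    have h3 : u i m ≤ 1 / c * inner M (ga i) s (en (K.nb i) T s) := by
      rw [one_div, ← div_eq_inv_mul, le_div_iff₀ hc]
      linarith
    have h4 : 0 ≤ C0 * inner M (ga i) s (en (K.nb i) T s) := mul_nonneg hC0 hΓ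
    linarith

include H in
/-- the unit at a state of step `t`. -/
lemma u_le_yy' (hc : 0 < c) (hC0 : 0 ≤ C0) {i t m : ℕ} (hi : i < d) (ht : t < T)
    (h1 : M.n t ≤ m) (h2 : m < M.n (t + 1)) : u i m ≤ yy M u ga c C0 i (st (K.nb i) t) := by
  obtain ⟨a1, a2, a3⟩ := iv_st (K.zero_mem_nb i) ht
  refine H.u_le_yy hc hC0 hi (st_mem_SB (K.zero_mem_nb i) ht) ((n_mono M a2).trans h1) ?_
  exact lt_of_lt_of_le h2 (n_mono M a3)

open Classical in
include H in
/-- (d) incomplete blocks. -/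
lemma inc_sum (hc : 0 < c) (hC0 : 0 ≤ C0) (hkk : 0 ≤ kk) {i : ℕ} (hi : i + 1 < d) :
    ∑ s ∈ SB (K.nb (i + 1)) T,
      (if Sl v N f (K.S (i + 1)) (i + 1) s (en (K.nb (i + 1)) T s) then 2 * u (i + 1) (M.n s)
        else 0) ≤ 4 * kk * ∑ s ∈ SB (K.nb i) T, yy M u ga c C0 i s := by
  rw [← sum_filter]
  have h1 : ∀ s ∈ (SB (K.nb (i + 1)) T).filter
      (fun s => Sl v N f (K.S (i + 1)) (i + 1) s (en (K.nb (i + 1)) T s)),
      2 * u (i + 1) (M.n s) ≤ 2 * kk * yy M u ga c C0 i (st (K.nb i) s) := by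
    intro s hs
    rw [mem_filter] at hs
    have hsT := (mem_SB.1 hs.1).1
    have h2 := H.parent i hi (M.n s) ((strictMono_nat_of_lt_succ M.n_lt) hsT)
    have h3 := H.u_le_yy' hc hC0 (by omega : i < d) hsT le_rfl (M.n_lt s)
    have h4 := mul_le_mul_of_nonneg_left h3 hkk
    linarith
  refine (sum_le_sum h1).trans ?_
  rw [← mul_sum]
  have h5 := sum_two (B := K.nb i) (K.zero_mem_nb i) (T := T)
    (X := (SB (K.nb (i + 1)) T).filter
      (fun s => Sl v N f (K.S (i + 1)) (i + 1) s (en (K.nb (i + 1)) T s)))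
    (fun s hs => mem_range.2 (mem_SB.1 (mem_filter.1 hs).1).1)
    (fun p => st (K.nb (i + 1)) (en (K.nb i) T p - 1 - 1))
    (fun p => st (K.nb (i + 1)) (en (K.nb i) T p - 1)) (fun s hs => by
      rw [mem_filter] at hs
      refine inc_two K hs.1 ?_
      rcases K.block (iv_of_SB hs.1) with h6 | h6
      · exact absurd hs.2 h6.1
      · exact h6.1)
    (F := yy M u ga c C0 i) (H.yy_nonneg hc hC0 i)
  have h6 := mul_le_mul_of_nonneg_left h5 (by positivity : 0 ≤ 2 * kk)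
  linarith

open Classical in
include H in
lemma inc_root (hT : 0 < T) :
    ∑ s ∈ SB (K.nb 0) T,
      (if Sl v N f (K.S 0) 0 s (en (K.nb 0) T s) then 2 * u 0 (M.n s) else 0) ≤ 2 * A0 := by
  rw [← sum_filter]
  have h1 : (SB (K.nb 0) T).filter (fun s => Sl v N f (K.S 0) 0 s (en (K.nb 0) T s)) ⊆
      {st (K.nb 0) (T - 1)} := by
    intro s hs
    rw [mem_filter] at hs
    rw [mem_singleton]
    have hiv := iv_of_SB hs.1
    rcases K.block hiv with h6 | h6
    · exact absurd hs.2 h6.1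
    · have h7 : en (K.nb 0) T s = T := by
        rcases h6.1 with h7 | h7
        · rw [K.nw_zero] at h7
          have h8 : en (K.nb 0) T s = 0 := h7
          have := hiv.2.1
          omega
        · exact h7
      have h8 := hiv.2.1
      exact ((hiv.st_eq (K.zero_mem_nb 0) (t := T - 1) (by omega) (by omega)).1).symm
  refine (sum_le_sum_of_subset_of_nonneg h1 fun s _ _ => by
    have := H.u0 0 (M.n s); linarith).trans ?_
  rw [sum_singleton]
  have h2 : st (K.nb 0) (T - 1) < T := (st_le _).trans_lt (by omega)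
  have := H.root _ ((strictMono_nat_of_lt_succ M.n_lt) h2)
  linarith

include H in
lemma reo_nonneg (t : ℕ) : 0 ≤ reo M u t := by
  unfold reo
  refine sum_nonneg fun r _ => ?_
  split_ifs
  · exact add_nonneg (H.u0 _ _) (H.u0 _ _)
  · exact le_rfl

/-- restricting to inner reopenings -/
lemma sum_reopen_le {i : ℕ} {F G : ℕ → ℝ} (hG : ∀ t, 0 ≤ G t)
    (h : ∀ t, t + 1 < T → t + 1 ∉ K.nb i → F t ≤ G t) :
    ∑ s ∈ SB (K.nb i) T, ∑ t ∈ Ico s (en (K.nb i) T s - 1), F t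
      ≤ ∑ t ∈ range T, if t + 1 < T then G t else 0 := by
  rw [← sum_blocks (K.zero_mem_nb i) T]
  refine sum_le_sum fun s hs => ?_
  have hiv := iv_of_SB hs
  have hsub : Ico s (en (K.nb i) T s - 1) ⊆ Ico s (en (K.nb i) T s) :=
    Ico_subset_Ico_right (by omega)
  refine le_trans (sum_le_sum fun t ht => ?_) (sum_le_sum_of_subset_of_nonneg
    (f := fun t => if t + 1 < T then G t else 0) hsub fun t _ _ => ?_)
  · rw [mem_Ico] at ht
    have h1 : t + 1 < en (K.nb i) T s := by omega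
    have h2 : t + 1 < T := lt_of_lt_of_le h1 hiv.2.2.1
    rw [if_pos h2]
    exact h t h2 (hiv.2.2.2.2 (t + 1) (by omega) h1)
  · split_ifs
    · exact hG t
    · exact le_rfl

include H in
/-- (f) the sum of the prices over all blocks of one level. -/
lemma sum_inner_le (hkk : 0 ≤ kk) {i : ℕ} (hi : i < d) :
    ∑ s ∈ SB (K.nb i) T, inner M (ga i) s (en (K.nb i) T s)
      ≤ C1 * (∑ t ∈ range T, g t + ∑ t ∈ range T, l t) + kk * RR M u := by
  unfold inner RR
  rw [sum_add_distrib, sum_add_distrib, sum_blocks (K.zero_mem_nb i), sum_blocks (K.zero_mem_nb i)]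
  refine add_le_add ?_ ?_
  · rw [← sum_add_distrib, mul_sum]
    exact sum_le_sum fun t ht => H.star i hi t (mem_range.1 ht)
  · rw [mul_add]
    refine add_le_add ?_ ?_
    · rw [mul_sum]
      refine sum_le_sum fun t ht => ?_
      unfold rots
      rw [mul_sum]
      refine sum_le_sum fun m hm => ?_
      rw [mem_Ico] at hm
      exact H.rot i hi t (mem_range.1 ht) m (by omega) (by omega)
    · have h1 := sum_reopen_le (K := K) (i := i) (F := fun t => ga i (M.n (t + 1) - 1))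
        (G := fun t => kk * reo M u t) (fun t => mul_nonneg hkk (H.reo_nonneg t))
        (fun t h1 h2 => H.reopen i hi t h1 h2)
      refine h1.trans (le_of_eq ?_)
      rw [mul_sum]
      refine sum_congr rfl fun t _ => ?_
      split_ifs
      · rfl
      · rw [mul_zero]

include H in
/-- rotations -/
lemma rot_sum_le (hc : 0 < c) (hC0 : 0 ≤ C0) {Θ : ℝ} (hΘ : 3 * Real.pi * N / δ ≤ Θ) (hΘ0 : 0 ≤ Θ) :
    ∑ t ∈ range T, rots M (ww M u) t
      ≤ ∑ i ∈ range d, 4 * Θ * ∑ s ∈ SB (K.nb i) T, yy M u ga c C0 i s := by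
  classical
  have h1 : ∀ t ∈ range T, rots M (ww M u) t
      = ∑ i ∈ range d, rots M (fun m => if M.jj m = i then
          M.ph m * (u i m + u i (m + 1)) else 0) t := by
    intro t ht
    unfold rots
    rw [sum_comm]
    refine sum_congr rfl fun m hm => ?_
    rw [mem_Ico] at hm
    have h2 := (M.rot t m (by omega) (by omega)).2.2.1
    rw [sum_eq_single (M.jj m)]
    · rw [if_pos rfl]; rfl
    · intro b _ hb
      rw [if_neg (Ne.symm hb)]
    · intro hb
      exact absurd (mem_range.2 (by omega)) hb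
  rw [sum_congr rfl h1, sum_comm]
  refine sum_le_sum fun i hi => ?_
  rw [mem_range] at hi
  have hy := H.yy_nonneg hc hC0 i
  by_cases hi1 : i + 1 < d
  · have h2 : ∀ t ∈ range T, rots M (fun m => if M.jj m = i then
          M.ph m * (u i m + u i (m + 1)) else 0) t
        ≤ 2 * yy M u ga c C0 i (st (K.nb i) t) *
          ∑ m ∈ Ico (M.n t + 1) (M.n (t + 1) - 1), (if M.jj m = i then M.ph m else 0) := by
      intro t ht
      unfold rots
      rw [mul_sum]
      refine sum_le_sum fun m hm => ?_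
      rw [mem_Ico] at hm
      split_ifs
      · rw [mul_comm]
        refine mul_le_mul_of_nonneg_right ?_ (M.ph_nonneg m)
        have a1 := H.u_le_yy' hc hC0 hi (mem_range.1 ht) (m := m) (by omega) (by omega)
        have a2 := H.u_le_yy' hc hC0 hi (mem_range.1 ht) (m := m + 1) (by omega) (by omega)
        linarith
      · rw [mul_zero]
    refine (sum_le_sum h2).trans ?_
    rw [sum_blocks_mul (K.zero_mem_nb i) T (fun s => 2 * yy M u ga c C0 i s), mul_sum]
    refine sum_le_sum fun s hs => ?_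
    have h3 := angle_block K (i := i) (Θ := 3 * Real.pi * N / δ)
      (a := fun t => ∑ m ∈ Ico (M.n t + 1) (M.n (t + 1) - 1), (if M.jj m = i then M.ph m else 0))
      (fun t => sum_nonneg fun m _ => by
        split_ifs
        · exact M.ph_nonneg m
        · exact le_rfl)
      (fun s e h => M.angle_life hi1 h) (iv_of_SB hs)
    have h4 : ∑ t ∈ Ico s (en (K.nb i) T s),
        ∑ m ∈ Ico (M.n t + 1) (M.n (t + 1) - 1), (if M.jj m = i then M.ph m else 0) ≤ 2 * Θ :=
      h3.trans (by linarith)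
    have h5 := mul_le_mul_of_nonneg_left h4 (hy s)
    linarith
  · have h2 : ∑ t ∈ range T, rots M (fun m => if M.jj m = i then
        M.ph m * (u i m + u i (m + 1)) else 0) t = 0 := by
      refine sum_eq_zero fun t _ => ?_
      unfold rots
      refine sum_eq_zero fun m hm => ?_
      rw [mem_Ico] at hm
      have h3 := (M.rot t m (by omega) (by omega)).2.2.1
      rw [if_neg (by omega)]
    rw [h2]
    exact mul_nonneg (by positivity) (sum_nonneg fun s _ => hy s)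

include H in
/-- reopenings -/
lemma reo_sum_le (hc : 0 < c) (hC0 : 0 ≤ C0) :
    (∑ t ∈ range T, if t + 1 < T then reo M u t else 0)
      ≤ ∑ i ∈ range d, 4 * ∑ s ∈ SB (K.nb i) T, yy M u ga c C0 i s := by
  classical
  have h1 : ∀ t ∈ range T, (if t + 1 < T then reo M u t else 0)
      = ∑ i ∈ range d, if t + 1 < T ∧ i + 1 < d ∧ t + 1 ∉ K.nw i ∧ t + 1 ∈ K.nw (i + 1) then
        u i (M.n (t + 1) - 1) + u i (M.n (t + 1)) else 0 := by
    intro t _
    unfold reo
    by_cases ht : t + 1 < T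
    · rw [if_pos ht]
      refine sum_congr rfl fun i _ => ?_
      by_cases h : i + 1 < d ∧ t + 1 ∉ K.nw i ∧ t + 1 ∈ K.nw (i + 1)
      · rw [if_pos h, if_pos ⟨ht, h⟩]
      · rw [if_neg h, if_neg (fun h' => h h'.2)]
    · rw [if_neg ht]
      symm
      refine sum_eq_zero fun i _ => ?_
      rw [if_neg (fun h' => ht h'.1)]
  rw [sum_congr rfl h1, sum_comm]
  refine sum_le_sum fun i hi => ?_
  rw [mem_range] at hi
  have hy := H.yy_nonneg hc hC0 i
  rw [← sum_filter]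
  set X := (range T).filter (fun t => t + 1 < T ∧ i + 1 < d ∧ t + 1 ∉ K.nw i ∧ t + 1 ∈ K.nw (i + 1))
    with hX
  rw [sum_add_distrib]
  -- first sum
  have h2 : ∑ t ∈ X, u i (M.n (t + 1) - 1) ≤ ∑ t ∈ X, yy M u ga c C0 i (st (K.nb i) t) := by
    refine sum_le_sum fun t ht => ?_
    rw [hX, mem_filter, mem_range] at ht
    have := M.n_succ t
    exact H.u_le_yy' hc hC0 hi ht.1 (by omega) (by omega)
  have h3 := sum_two (B := K.nb i) (K.zero_mem_nb i) (T := T) (X := X)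
    (filter_subset _ _) (fun p => en (K.nb i) T p - 1) (fun p => en (K.nb i) T p - 1 - 1)
    (fun t ht => by
      rw [hX, mem_filter, mem_range] at ht
      obtain ⟨a1, a2, a3⟩ := iv_st (K.zero_mem_nb i) ht.1
      rcases (show t + 1 ≤ en (K.nb i) T (st (K.nb i) t) from a3).eq_or_lt with h | h
      · left; omega
      · rcases K.lives a1 (by omega) h ht.2.2.2.2 with h4 | h4
        · omega
        · right; omega)
    (F := yy M u ga c C0 i) hy
  -- second sum
  have h4 : ∑ t ∈ X, u i (M.n (t + 1)) ≤ ∑ t ∈ X.image (· + 1), yy M u ga c C0 i (st (K.nb i) t) := by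
    rw [sum_image (fun a _ b _ h => by simpa using h)]
    refine sum_le_sum fun t ht => ?_
    rw [hX, mem_filter, mem_range] at ht
    exact H.u_le_yy' hc hC0 hi ht.2.1 le_rfl (M.n_lt _)
  have h5 := sum_two (B := K.nb i) (K.zero_mem_nb i) (T := T) (X := X.image (· + 1))
    (fun a ha => by
      rw [mem_image] at ha
      obtain ⟨t, ht, rfl⟩ := ha
      rw [hX, mem_filter] at ht
      exact mem_range.2 ht.2.1)
    (fun p => p) (fun p => en (K.nb i) T p - 1)
    (fun a ha => by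
      rw [mem_image] at ha
      obtain ⟨t, ht, rfl⟩ := ha
      rw [hX, mem_filter] at ht
      exact life_two K (mem_SB.2 ⟨ht.2.1, ht.2.2.2.2⟩))
    (F := yy M u ga c C0 i) hy
  linarith

/-- total bound of the units -/
noncomputable def YY (M : Elem K) (u ga : ℕ → ℕ → ℝ) (c C0 : ℝ) (i : ℕ) : ℝ :=
  ∑ s ∈ SB (K.nb i) T, yy M u ga c C0 i s

include H in
lemma YY_nonneg (hc : 0 < c) (hC0 : 0 ≤ C0) (i : ℕ) : 0 ≤ YY M u ga c C0 i :=
  sum_nonneg fun s _ => H.yy_nonneg hc hC0 i s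

include H in
/-- (g) -/
lemma RR_le (hc : 0 < c) (hC0 : 0 ≤ C0) {Θ : ℝ} (hΘ : 3 * Real.pi * N / δ ≤ Θ) (hΘ0 : 0 ≤ Θ) :
    RR M u ≤ (4 * Θ + 4) * ∑ i ∈ range d, YY M u ga c C0 i := by
  have h1 := H.rot_sum_le hc hC0 hΘ hΘ0
  have h2 := H.reo_sum_le hc hC0
  rw [← mul_sum] at h1 h2
  unfold RR YY
  linarith

include H in
lemma RR_nonneg : 0 ≤ RR M u := by
  unfold RR
  refine add_nonneg (sum_nonneg fun t _ => rots_nonneg M (fun m => mul_nonneg (M.ph_nonneg m)
    (add_nonneg (H.u0 _ _) (H.u0 _ _))) t) (sum_nonneg fun t _ => ?_)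
  split_ifs
  · exact H.reo_nonneg t
  · exact le_rfl

include H in
/-- (e) the root level -/
lemma YY_zero_le (hT : 0 < T) (hd : 0 < d) (hc : 0 < c) (hC0 : 0 ≤ C0) (hkk : 0 ≤ kk) :
    YY M u ga c C0 0 ≤ (1 / c + C0) * (C1 * (∑ t ∈ range T, g t + ∑ t ∈ range T, l t) + kk * RR M u)
      + 2 * A0 := by
  classical
  unfold YY yy
  rw [sum_add_distrib, ← mul_sum]
  exact add_le_add (mul_le_mul_of_nonneg_left (H.sum_inner_le hkk hd) (by positivity))
    (H.inc_root hT)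

include H in
/-- (e) the other levels -/
lemma YY_succ_le (hc : 0 < c) (hC0 : 0 ≤ C0) (hkk : 0 ≤ kk) {i : ℕ} (hi : i + 1 < d) :
    YY M u ga c C0 (i + 1) ≤ (1 / c + C0) * (C1 * (∑ t ∈ range T, g t + ∑ t ∈ range T, l t)
      + kk * RR M u) + 4 * kk * YY M u ga c C0 i := by
  classical
  have h := H.inc_sum hc hC0 hkk hi
  unfold YY
  rw [show (∑ s ∈ SB (K.nb (i + 1)) T, yy M u ga c C0 (i + 1) s)
    = ∑ s ∈ SB (K.nb (i + 1)) T, ((1 / c + C0) * inner M (ga (i + 1)) s (en (K.nb (i + 1)) T s) +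
      if Sl v N f (K.S (i + 1)) (i + 1) s (en (K.nb (i + 1)) T s) then 2 * u (i + 1) (M.n s) else 0)
    from rfl]
  rw [sum_add_distrib, ← mul_sum]
  exact add_le_add (mul_le_mul_of_nonneg_left (H.sum_inner_le hkk hi) (by positivity)) h

include H in
/-- (h) sum over the levels -/
lemma YY_sum_le (hT : 0 < T) (hd : 0 < d) (hc : 0 < c) (hC0 : 0 ≤ C0) (hkk : 0 ≤ kk) :
    ∑ i ∈ range d, YY M u ga c C0 i ≤ d * ((1 / c + C0) * (C1 * (∑ t ∈ range T, g t +
      ∑ t ∈ range T, l t) + kk * RR M u)) + 4 * kk * ∑ i ∈ range d, YY M u ga c C0 i + 2 * A0 := by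
  obtain ⟨n, rfl⟩ : ∃ n, d = n + 1 := ⟨d - 1, by omega⟩
  set X := (1 / c + C0) * (C1 * (∑ t ∈ range T, g t + ∑ t ∈ range T, l t) + kk * RR M u) with hX
  have h1 := H.YY_zero_le hT hd hc hC0 hkk
  have h2 : ∑ i ∈ range n, YY M u ga c C0 (i + 1) ≤ ∑ i ∈ range n, (X + 4 * kk * YY M u ga c C0 i) :=
    sum_le_sum fun i hi => H.YY_succ_le hc hC0 hkk (by have := mem_range.1 hi; omega)
  rw [sum_add_distrib, sum_const, card_range, nsmul_eq_mul, ← mul_sum] at h2
  have h3 : ∑ i ∈ range n, YY M u ga c C0 i ≤ ∑ i ∈ range (n + 1), YY M u ga c C0 i := by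
    rw [sum_range_succ]
    have := H.YY_nonneg hc hC0 n
    linarith
  have h4 := mul_le_mul_of_nonneg_left h3 (by positivity : 0 ≤ 4 * kk)
  rw [sum_range_succ' (fun i => YY M u ga c C0 i) n] at h4 ⊢
  push_cast
  linarith

include H in
/-- the price terms of the total inequality. -/
lemma prices (hT : 0 < T) (hd : 0 < d) (hc : 0 < c) (hC0 : 0 ≤ C0) (hkk : 0 ≤ kk) :
    ∑ i ∈ range d, ∑ a ∈ SB (K.nw i) T, op i a + ∑ i ∈ range d, pz i + rc
      ≤ A0 + 2 * kk * ∑ i ∈ range d, YY M u ga c C0 i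
        + d * (kap1 * (∑ t ∈ range T, g t + ∑ t ∈ range T, l t))
        + (d * C3 + C4) * (kk * RR M u) := by
  classical
  -- openings
  have hop : ∑ i ∈ range d, ∑ a ∈ SB (K.nw i) T, op i a
      ≤ A0 + 2 * kk * ∑ i ∈ range d, YY M u ga c C0 i := by
    obtain ⟨n, rfl⟩ : ∃ n, d = n + 1 := ⟨d - 1, by omega⟩
    rw [sum_range_succ']
    have h0 : ∑ a ∈ SB (K.nw 0) T, op 0 a ≤ A0 := by
      have : SB (K.nw 0) T = {0} := by
        ext s
        rw [mem_SB, K.nw_zero, mem_singleton]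
        constructor
        · exact fun h => h.2
        · rintro rfl; exact ⟨hT, rfl⟩
      rw [this, sum_singleton]
      exact H.op_root
    have h1 : ∀ i ∈ range n, ∑ a ∈ SB (K.nw (i + 1)) T, op (i + 1) a
        ≤ 2 * kk * YY M u ga c C0 i := by
      intro i hi
      have hi' : i + 1 < n + 1 := by have := mem_range.1 hi; omega
      have h2 : ∑ a ∈ SB (K.nw (i + 1)) T, op (i + 1) a
          ≤ ∑ a ∈ SB (K.nw (i + 1)) T, kk * yy M u ga c C0 i (st (K.nb i) a) := by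
        refine sum_le_sum fun a ha => (H.op_succ i hi' a ha).trans ?_
        exact mul_le_mul_of_nonneg_left
          (H.u_le_yy' hc hC0 (by omega) (mem_SB.1 ha).1 le_rfl (M.n_lt a)) hkk
      rw [← mul_sum] at h2
      have h3 := sum_two (B := K.nb i) (K.zero_mem_nb i) (T := T) (X := SB (K.nw (i + 1)) T)
        (fun a ha => mem_range.2 (mem_SB.1 ha).1) (fun p => p) (fun p => en (K.nb i) T p - 1)
        (fun a ha => life_two K ha) (F := yy M u ga c C0 i) (H.yy_nonneg hc hC0 i)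
      have h4 := mul_le_mul_of_nonneg_left h3 hkk
      unfold YY
      linarith
    have h2 := sum_le_sum h1
    rw [← mul_sum] at h2
    have h3 : ∑ i ∈ range n, YY M u ga c C0 i ≤ ∑ i ∈ range (n + 1), YY M u ga c C0 i := by
      rw [sum_range_succ]
      have := H.YY_nonneg hc hC0 n
      linarith
    have h4 := mul_le_mul_of_nonneg_left h3 (by positivity : 0 ≤ 2 * kk)
    linarith
  have h5 := sum_le_sum fun i (hi : i ∈ range d) => H.pz_le i (mem_range.1 hi)
  rw [sum_const, card_range, nsmul_eq_mul] at h5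
  have h6 := H.rc_le
  have h7 : (d : ℝ) * (kap1 * (∑ t ∈ range T, g t + ∑ t ∈ range T, l t) + C3 * (kk * RR M u))
      = d * (kap1 * (∑ t ∈ range T, g t + ∑ t ∈ range T, l t)) + d * C3 * (kk * RR M u) := by
    ring
  rw [h7] at h5
  have h8 : (d * C3 + C4) * (kk * RR M u) = d * C3 * (kk * RR M u) + C4 * (kk * RR M u) := by
    ring
  linarith

include H in
/-- **The final summation of milestone 1.** -/
theorem final (hT : 0 < T) (hd : 0 < d) (hc : 0 < c) (hC0 : 0 ≤ C0) (hC1 : 0 ≤ C1) (hkk : 0 ≤ kk)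
    (hC3 : 0 ≤ C3) (hC4 : 0 ≤ C4) (hA0 : 0 ≤ A0) {Θ : ℝ}
    (hΘ : 3 * Real.pi * N / δ ≤ Θ) (hΘ0 : 0 ≤ Θ)
    (s1 : 4 * kk + d * (1 / c + C0) * kk * (4 * Θ + 4) ≤ 1 / 2)
    (s2 : d * kap1 ≤ 1 / 16)
    (s3 : (2 * kk + (d * C3 + C4) * kk * (4 * Θ + 4)) * (2 * (d * (1 / c + C0) * C1)) ≤ 1 / 16)
    (s4 : (2 * kk + (d * C3 + C4) * kk * (4 * Θ + 4)) * 4 ≤ 1) :
    De + 1 / 2 * ∑ t ∈ range T, g t ≤ Ds + 2 * A0 := by
  set G := ∑ t ∈ range T, g t with hG
  set Lo := ∑ t ∈ range T, l t with hLo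
  set Y := ∑ i ∈ range d, YY M u ga c C0 i with hY
  have hG0 : 0 ≤ G := sum_nonneg fun t _ => H.g0 t
  have hL0 : 0 ≤ Lo := sum_nonneg fun t _ => H.l0 t
  have hLG : Lo ≤ G / 8 := by
    rw [hLo, hG, sum_div]
    exact sum_le_sum fun t ht => H.loss t (mem_range.1 ht)
  have hY0 : 0 ≤ Y := sum_nonneg fun i _ => H.YY_nonneg hc hC0 i
  have hR0 := H.RR_nonneg
  have hR := H.RR_le hc hC0 hΘ hΘ0
  rw [← hY] at hR
  have hYs := H.YY_sum_le hT hd hc hC0 hkk
  rw [← hY, ← hG, ← hLo] at hYs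
  have hpr := H.prices hT hd hc hC0 hkk
  rw [← hY, ← hG, ← hLo] at hpr
  have htot := H.total
  rw [← hG, ← hLo] at htot
  have hd0 : (0 : ℝ) ≤ d := Nat.cast_nonneg d
  have hc' : 0 ≤ 1 / c + C0 := by positivity
  -- `Y ≤ 2 Λ C1 (G + L) + 4 A0`
  have h1 : d * ((1 / c + C0) * (kk * RR M u)) ≤ d * (1 / c + C0) * kk * (4 * Θ + 4) * Y := by
    have : 0 ≤ d * (1 / c + C0) * kk := by positivity
    have := mul_le_mul_of_nonneg_left hR this
    linarith
  have h2 : Y ≤ 2 * (d * (1 / c + C0) * C1) * (G + Lo) + 4 * A0 := by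
    have h3 : (4 * kk + d * (1 / c + C0) * kk * (4 * Θ + 4)) * Y ≤ 1 / 2 * Y :=
      mul_le_mul_of_nonneg_right s1 hY0
    have e1 : (d : ℝ) * ((1 / c + C0) * (C1 * (G + Lo) + kk * RR M u))
        = d * (1 / c + C0) * C1 * (G + Lo) + d * ((1 / c + C0) * (kk * RR M u)) := by ring
    rw [e1] at hYs
    have e2 : (4 * kk + d * (1 / c + C0) * kk * (4 * Θ + 4)) * Y
        = 4 * kk * Y + d * (1 / c + C0) * kk * (4 * Θ + 4) * Y := by ring
    rw [e2] at h3
    linarith
  set q := 2 * kk + (d * C3 + C4) * kk * (4 * Θ + 4) with hq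
  have hq0 : 0 ≤ q := by rw [hq]; positivity
  have h4 : (d * C3 + C4) * (kk * RR M u) ≤ (d * C3 + C4) * kk * (4 * Θ + 4) * Y := by
    have : 0 ≤ (d * C3 + C4) * kk := by positivity
    have := mul_le_mul_of_nonneg_left hR this
    linarith
  have h5 : q * Y ≤ 1 / 16 * (G + Lo) + A0 := by
    have h6 := mul_le_mul_of_nonneg_left h2 hq0
    have h7 := mul_le_mul_of_nonneg_right s3 (add_nonneg hG0 hL0)
    have h8 := mul_le_mul_of_nonneg_right s4 hA0
    have e3 : q * (2 * (d * (1 / c + C0) * C1) * (G + Lo) + 4 * A0)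
        = q * (2 * (d * (1 / c + C0) * C1)) * (G + Lo) + q * 4 * A0 := by ring
    rw [e3] at h6
    linarith
  have h9 : d * (kap1 * (G + Lo)) ≤ 1 / 16 * (G + Lo) := by
    have := mul_le_mul_of_nonneg_right s2 (add_nonneg hG0 hL0)
    linarith
  have h10 : q * Y = 2 * kk * Y + (d * C3 + C4) * kk * (4 * Θ + 4) * Y := by rw [hq]; ring
  linarith

end AccHyp

end Vale.Agent.P262.H359.M2
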