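import Vale.Agent.P262.H359.AccSysD
import Vale.Agent.P262.H274.Price

/-!
# P262, milestone 1: the accounting. All blocks imply the conclusion ACC of M1/Blocks.
-/

set_option linter.all false

open MeasureTheory ProbabilityTheory Set
open scoped ENNReal RealInnerProductSpace

namespace Vale.Agent.P262.M1.Sys

variable {E : Type*} [NormedAddCommGroup E] [InnerProductSpace ℝ E] [FiniteDimensional ℝ E]
  [MeasurableSpace E] [BorelSpace E] {S : Sys E}

/-- (PRICE) from (G2') and (G3). -/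
theorem price_of {κ c3 cs c cq kk : ℝ} (hκ : 0 ≤ κ) (hc3 : 0 ≤ c3) (hcs : 0 ≤ cs) (hc : 0 ≤ c)
    (hcq : 0 ≤ cq) (hkk : S.d * max c cq * (c3 + κ) ≤ kk) (hG2 : S.G2' κ) (hG3 : S.G3 c3)
    (hH : ∀ k ≤ S.mT, S.Healthy k) : S.Price cs c cq kk := by
  intro l m hl hm hre
  have hlf : l ≤ S.lf := by have := S.acc_lf_add; omega
  have hd0 : (0 : ℝ) ≤ S.d := Nat.cast_nonneg _
  have hmax : 0 ≤ max c cq := le_max_of_le_left hc
  have hkk0 : 0 ≤ kk := le_trans (by positivity) hkk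
  have h := price S hκ hc3 hc hcq (cs := cs) hG2 hG3 hlf hm hre (hH m hm.le) (hH (m + 1) hm)
  refine h.trans ?_
  rcases S.cases_move m with h1 | h1 | h1
  · rw [if_pos h1, S.Pb_star hcs h1]
  · have h2 : S.el.jj m < S.lf := by
      have := (S.rot_data h1).2.1
      have := S.acc_lf_add
      omega
    have htm := S.tm_lt_of_lt hm
    have hin := S.rot_inside h1 (S.el.jj m) htm
    have hOM : S.OM (S.el.jj m) (m + 1) = S.OM (S.el.jj m) m :=
      S.OM_eq ⟨(S.sB_le _ m).trans (Nat.le_succ m), hin.1⟩ h2 htm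
    have hUn : S.Un (S.el.jj m) m (m + 1) = S.Un (S.el.jj m) (m + 1) (m + 1) := by
      unfold Un
      rw [hOM]
    rw [if_neg h1.not_star, if_neg h1.not_re, S.Pb_rot hkk0 h1, hUn]
    refine mul_le_mul' (ENNReal.ofReal_le_ofReal ?_) le_rfl
    exact mul_le_mul_of_nonneg_right hkk (S.el.ph_nonneg m)
  · rw [if_neg h1.not_star, if_pos h1]
    split_ifs with h2
    · refine le_trans (mul_le_mul' (ENNReal.ofReal_le_ofReal ?_) le_rfl) (S.Pb_re hkk0 h1 h2)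
      refine le_trans ?_ hkk
      have a1 : c ≤ max c cq := le_max_left _ _
      have a2 : S.d * c * κ ≤ S.d * max c cq * κ := by gcongr
      have a3 : S.d * max c cq * κ ≤ S.d * max c cq * (c3 + κ) := by
        refine mul_le_mul_of_nonneg_left (by linarith) (by positivity)
      linarith
    · exact zero_le

/-- **(SUM) of milestone 1**: all blocks imply `ACC`.  Here
`kk = d * (1 + cB) * (c3 + κ)`, `C3 = 1 + cP`. -/
theorem acc {κ c3 cL cs cB ε cP Θ : ℝ} (hM : 0 ≤ S.M) (hκ : 0 ≤ κ) (hc3 : 0 ≤ c3)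
    (hcL : 0 < cL) (hcs : 0 ≤ cs) (hcB : 0 ≤ cB) (hε : 0 ≤ ε) (hcP : 0 ≤ cP)
    (hG1 : S.G1) (hG2 : S.G2' κ) (hG3 : S.G3 c3) (hL : S.LBL cL cs cB) (hI : S.LBI cs cB)
    (hT : S.TEL) (hZ : S.PZL ε cP)
    (hH : ∀ k ≤ S.mT, S.Healthy k) (h0 : S.De 0 0 0 ≤ S.a 0 0)
    (hΘ : 3 * Real.pi * S.N / S.δ ≤ Θ) (hΘ0 : 0 ≤ Θ)
    (s1 : 4 * (S.d * (1 + cB) * (c3 + κ)) +
      S.d * (1 / cL + cB) * (S.d * (1 + cB) * (c3 + κ)) * (4 * Θ + 4) ≤ 1 / 2)
    (s2 : S.d * ε ≤ 1 / 16)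
    (s3 : (2 * (S.d * (1 + cB) * (c3 + κ)) +
      (S.d * (1 + cP) + 4 * S.M) * (S.d * (1 + cB) * (c3 + κ)) * (4 * Θ + 4)) *
      (2 * (S.d * (1 / cL + cB) * cs)) ≤ 1 / 16)
    (s4 : (2 * (S.d * (1 + cB) * (c3 + κ)) +
      (S.d * (1 + cP) + 4 * S.M) * (S.d * (1 + cB) * (c3 + κ)) * (4 * Θ + 4)) * 4 ≤ 1) :
    S.ACC := by
  set kk := S.d * (1 + cB) * (c3 + κ) with hkk
  have hd1 : (1 : ℝ) ≤ S.d := by
    have := S.hd2
    exact_mod_cast (by omega : 1 ≤ S.d)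
  have hkk0 : 0 ≤ kk := by positivity
  have h1 : c3 + κ ≤ kk := by
    rw [hkk]
    have : 1 * (c3 + κ) ≤ S.d * (1 + cB) * (c3 + κ) := by
      refine mul_le_mul_of_nonneg_right ?_ (by linarith)
      nlinarith
    linarith
  have h2 : S.d * c3 ≤ kk := by
    rw [hkk]
    have : S.d * c3 ≤ S.d * (c3 + κ) := mul_le_mul_of_nonneg_left (by linarith) (by linarith)
    have h3 : S.d * (c3 + κ) * 1 ≤ S.d * (c3 + κ) * (1 + cB) :=
      mul_le_mul_of_nonneg_left (by linarith) (by positivity)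
    linarith
  refine acc_of_price (κ := κ) (c3 := c3) (cL := cL) (cs := cs) (cB := cB) (ε := ε) (cP := cP)
    (kk := kk) (C3 := 1 + cP) (Θ := Θ) hM hκ hc3 hcL hcs hcB hε hkk0 (by linarith)
    (by linarith) h2 hG1 hG2 hG3 hL hI hT hZ ?_ ?_ hH h0 hΘ hΘ0 s1 s2 s3 s4
  · refine price_of hκ hc3 hcs hcB zero_le_one ?_ hG2 hG3 hH
    rw [hkk]
    refine mul_le_mul_of_nonneg_right ?_ (by linarith)
    refine mul_le_mul_of_nonneg_left ?_ (by linarith)
    exact max_le (by linarith) (by linarith)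
  · refine price_of hκ hc3 hε hcP hcP ?_ hG2 hG3 hH
    rw [max_self, hkk]
    have h4 : S.d * cP * (c3 + κ) ≤ (1 + cP) * (S.d * 1 * (c3 + κ)) := by
      have : 0 ≤ S.d * (c3 + κ) := by positivity
      nlinarith
    refine h4.trans (mul_le_mul_of_nonneg_left ?_ (by linarith))
    refine mul_le_mul_of_nonneg_right ?_ (by linarith)
    refine mul_le_mul_of_nonneg_left (by linarith) (by linarith)

end Vale.Agent.P262.M1.Sys
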