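import Vale.Agent.P262.H359.AccM2
import Vale.Agent.P262.H118.SysBlk
import Vale.Agent.P262.H395.Tel3

/-!
# P262, milestone 1, wiring of the accounting, part A: real units, bounds of the moves
-/

set_option linter.all false

open MeasureTheory ProbabilityTheory Set
open scoped ENNReal RealInnerProductSpace
open Vale.Agent.P262.H118 (L Iv st en ONB K1 rotE ON tau L_mono)
open Vale.Agent.P262.H395 (fib mix Inv)
open Vale.Agent.P262.H359 (SB rots inner mem_SB)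
open Vale.Agent.P262.H359.M2 (reo ww RR)

namespace Vale.Agent.P262.M1.Sys

variable {E : Type*} [NormedAddCommGroup E] [InnerProductSpace ℝ E] [FiniteDimensional ℝ E]
  [MeasurableSpace E] [BorelSpace E] (S : Sys E)

/-! ### finiteness -/

lemma acc_lf_lt : S.lf < S.d := by
  unfold lf
  have := S.hd2
  omega

lemma acc_lf_add : S.lf + 1 = S.d := by
  unfold lf
  have := S.hd2
  omega

lemma acc_Un_le (l m' m : ℕ) : S.Un l m' m ≤ ENNReal.ofReal S.cp.b0 := by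
  have h : ∀ x, iw (S.OM l m') x * ENNReal.ofReal (S.cp.A l x) * iw (S.Kq m) x ≤
      ENNReal.ofReal S.cp.b0 := by
    intro x
    by_cases hx : x ∈ S.OM l m'
    · calc iw (S.OM l m') x * ENNReal.ofReal (S.cp.A l x) * iw (S.Kq m) x
          ≤ 1 * ENNReal.ofReal S.cp.b0 * 1 := by
            gcongr
            · exact iw_le_one _ x
            · exact S.cp.A_le l x (hx l le_rfl).1
            · exact iw_le_one _ x
        _ = _ := by simp
    · unfold iw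
      rw [indicator_of_notMem hx, zero_mul, zero_mul]
      exact zero_le
  calc S.Un l m' m ≤ ∫⁻ x, ENNReal.ofReal S.cp.b0 ∂stdGaussian E := lintegral_mono h
    _ = _ := by simp

lemma acc_Un_ne (l m' m : ℕ) : S.Un l m' m ≠ ⊤ :=
  ne_top_of_le_ne_top ENNReal.ofReal_ne_top (S.acc_Un_le l m' m)

lemma acc_gain_le (m : ℕ) : S.gain m ≤ 1 := by
  calc S.gain m ≤ ∫⁻ x, 1 ∂stdGaussian E := lintegral_mono fun x => by
        calc _ ≤ (1 : ℝ≥0∞) * 1 := mul_le_mul' (iw_le_one _ x) (iw_le_one _ x)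
          _ = 1 := one_mul 1
    _ = 1 := by simp

lemma acc_loss_le (m : ℕ) : S.loss m ≤ 1 := by
  calc S.loss m ≤ ∫⁻ x, 1 ∂stdGaussian E := lintegral_mono fun x => by
        calc _ ≤ (1 : ℝ≥0∞) * 1 := mul_le_mul' (iw_le_one _ x) (iw_le_one _ x)
          _ = 1 := one_mul 1
    _ = 1 := by simp

lemma acc_gain_ne (m : ℕ) : S.gain m ≠ ⊤ := ne_top_of_le_ne_top ENNReal.one_ne_top (S.acc_gain_le m)

lemma acc_loss_ne (m : ℕ) : S.loss m ≠ ⊤ := ne_top_of_le_ne_top ENNReal.one_ne_top (S.acc_loss_le m)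

/-! ### real quantities -/

/-- unit of level `i < lf` at state `m`. -/
noncomputable def uR (i m : ℕ) : ℝ := if i < S.lf then (S.Un i m m).toReal else 0

noncomputable def gR (t : ℕ) : ℝ := (S.gain (S.el.n t)).toReal

noncomputable def lR (t : ℕ) : ℝ := (S.loss (S.el.n t)).toReal

open Classical in
/-- bound of the price of a move. -/
noncomputable def Pb (cs kk : ℝ) (m : ℕ) : ℝ :=
  if S.IsStar m then cs * (S.gR (S.tm m) + S.lR (S.tm m))
  else if S.IsRe m then kk * reo S.el S.uR (S.tm m)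
  else kk * ww S.el S.uR m

lemma uR_nonneg (i m : ℕ) : 0 ≤ S.uR i m := by
  unfold uR
  split_ifs
  · exact ENNReal.toReal_nonneg
  · exact le_rfl

lemma gR_nonneg (t : ℕ) : 0 ≤ S.gR t := ENNReal.toReal_nonneg

lemma lR_nonneg (t : ℕ) : 0 ≤ S.lR t := ENNReal.toReal_nonneg

lemma ofReal_uR {i : ℕ} (hi : i < S.lf) (m : ℕ) : ENNReal.ofReal (S.uR i m) = S.Un i m m := by
  unfold uR
  rw [if_pos hi, ENNReal.ofReal_toReal (S.acc_Un_ne i m m)]

lemma ofReal_gR {m : ℕ} (h : S.IsStar m) : ENNReal.ofReal (S.gR (S.tm m)) = S.gain m := by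
  unfold gR
  rw [ENNReal.ofReal_toReal (S.acc_gain_ne _), ← show m = S.el.n (S.tm m) from h]

lemma ofReal_lR {m : ℕ} (h : S.IsStar m) : ENNReal.ofReal (S.lR (S.tm m)) = S.loss m := by
  unfold lR
  rw [ENNReal.ofReal_toReal (S.acc_loss_ne _), ← show m = S.el.n (S.tm m) from h]

lemma reo_nonneg (t : ℕ) : 0 ≤ reo S.el S.uR t := by
  unfold reo
  refine Finset.sum_nonneg fun r _ => ?_
  split_ifs
  · exact add_nonneg (S.uR_nonneg _ _) (S.uR_nonneg _ _)
  · exact le_rfl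

lemma ww_nonneg (m : ℕ) : 0 ≤ ww S.el S.uR m :=
  mul_nonneg (S.el.ph_nonneg m) (add_nonneg (S.uR_nonneg _ _) (S.uR_nonneg _ _))

lemma Pb_nonneg {cs kk : ℝ} (hcs : 0 ≤ cs) (hkk : 0 ≤ kk) (m : ℕ) : 0 ≤ S.Pb cs kk m := by
  unfold Pb
  have h1 := S.gR_nonneg (S.tm m)
  have h2 := S.lR_nonneg (S.tm m)
  have h3 := S.reo_nonneg (S.tm m)
  have h4 := S.ww_nonneg m
  split_ifs <;> positivity

/-- `sv m` is the last surviving level. -/
lemma acc_sv_spec (m : ℕ) : S.sv m ≤ S.lf ∧ S.tm m + 1 ∉ S.K.nw (S.sv m) := by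
  classical
  unfold sv
  refine ⟨Nat.findGreatest_le _, ?_⟩
  refine Nat.findGreatest_spec (P := fun i => S.tm m + 1 ∉ S.K.nw i) (Nat.zero_le _) ?_
  rw [S.K.nw_zero]
  simp

lemma mem_nw_of_sv {m i : ℕ} (h1 : S.sv m < i) (h2 : i ≤ S.lf) : S.tm m + 1 ∈ S.K.nw i := by
  classical
  by_contra hcon
  have h3 := Nat.le_findGreatest (P := fun i => S.tm m + 1 ∉ S.K.nw i) h2 hcon
  unfold sv at h1
  have h4 : i ≤ S.sv m := h3
  unfold sv at h4
  omega

lemma le_sv_of_not {m i : ℕ} (h2 : i ≤ S.lf) (h : S.tm m + 1 ∉ S.K.nw i) : i ≤ S.sv m := by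
  by_contra hcon
  push Not at hcon
  exact h (S.mem_nw_of_sv hcon h2)

/-- the unit of the reopening. -/
lemma reo_ge {m : ℕ} (h : S.IsRe m) (hsv : S.sv m < S.lf) :
    S.uR (S.sv m) m + S.uR (S.sv m) (m + 1) ≤ reo S.el S.uR (S.tm m) := by
  have h1 := S.acc_sv_spec m
  have h2 := S.mem_nw_of_sv (m := m) (Nat.lt_succ_self _) (by omega : S.sv m + 1 ≤ S.lf)
  have h3 := S.acc_lf_add
  have h4 : S.el.n (S.tm m + 1) = m + 1 := h.symm
  unfold reo
  refine le_trans (le_of_eq ?_) (Finset.single_le_sum (fun r _ => ?_)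
    (Finset.mem_range.2 (by omega : S.sv m < S.d)))
  · rw [if_pos ⟨by omega, h1.2, h2⟩, h4]
    rfl
  · split_ifs
    · exact add_nonneg (S.uR_nonneg _ _) (S.uR_nonneg _ _)
    · exact le_rfl

/-! ### from the bounds of the moves to `Pb` -/

/-- **(PRICE)** integrated prices of the moves inside a block. -/
def Price (cs c cq kk : ℝ) : Prop := ∀ l m, l < S.d → m < S.mT →
  (S.IsRe m → l < S.lf ∧ S.tm m + 1 ∉ S.K.nb l) →
  ∫⁻ x, iw (S.OM l m) x * (S.Gp cs c l m x + ENNReal.ofReal cq * S.Qp l m x) ∂stdGaussian E ≤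
    ENNReal.ofReal (S.Pb cs kk m)

lemma Pb_star {cs kk : ℝ} (hcs : 0 ≤ cs) {m : ℕ} (h : S.IsStar m) :
    ENNReal.ofReal (S.Pb cs kk m) = ENNReal.ofReal cs * (S.gain m + S.loss m) := by
  unfold Pb
  rw [if_pos h, ENNReal.ofReal_mul hcs, ENNReal.ofReal_add (S.gR_nonneg _) (S.lR_nonneg _),
    S.ofReal_gR h, S.ofReal_lR h]

lemma Pb_rot {cs kk : ℝ} (hkk : 0 ≤ kk) {m : ℕ} (h : S.IsRot m) :
    ENNReal.ofReal (S.Pb cs kk m) = ENNReal.ofReal (kk * S.el.ph m) *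
      (S.Un (S.el.jj m) m m + S.Un (S.el.jj m) (m + 1) (m + 1)) := by
  have h1 : S.el.jj m < S.lf := by
    have := (S.rot_data h).2.1
    have := S.acc_lf_add
    omega
  unfold Pb ww
  rw [if_neg h.not_star, if_neg h.not_re, ← mul_assoc,
    ENNReal.ofReal_mul (mul_nonneg hkk (S.el.ph_nonneg m)),
    ENNReal.ofReal_add (S.uR_nonneg _ _) (S.uR_nonneg _ _), S.ofReal_uR h1, S.ofReal_uR h1]

lemma Pb_re {cs kk : ℝ} (hkk : 0 ≤ kk) {m : ℕ} (h : S.IsRe m) (hsv : S.sv m < S.lf) :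
    ENNReal.ofReal kk * (S.Un (S.sv m) m m + S.Un (S.sv m) (m + 1) (m + 1)) ≤
      ENNReal.ofReal (S.Pb cs kk m) := by
  unfold Pb
  rw [if_neg h.not_star, if_pos h, ENNReal.ofReal_mul hkk, ← S.ofReal_uR hsv, ← S.ofReal_uR hsv,
    ← ENNReal.ofReal_add (S.uR_nonneg _ _) (S.uR_nonneg _ _)]
  gcongr
  exact S.reo_ge h hsv

/-! ### moves inside a block -/

lemma inside_re {l m m' : ℕ} (hl : l < S.d) (hm : S.tm m < S.T) (h1 : S.sB l m ≤ m')
    (h2 : m' < S.eB l m) : m' < S.mT ∧ (S.IsRe m' → l < S.lf ∧ S.tm m' + 1 ∉ S.K.nb l) := by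
  have h3 : m' < S.mT := h2.trans_le (S.eB_le_mT hm l)
  refine ⟨h3, fun h => ?_⟩
  have h4 := S.tm_re_lt h h3
  have h5 := S.eq_of_lt h1 h2 hm
  by_contra hcon
  have h6 : S.tm m' + 1 ∈ S.K.nb l ∨ l = S.lf := by
    by_contra h7
    push Not at h7
    apply hcon
    refine ⟨?_, h7.1⟩
    have := S.acc_lf_add
    omega
  have h7 := (S.re_end h h4 h6).1
  omega

end Vale.Agent.P262.M1.Sys
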