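import Vale.Agent.P262.H359.AccSysA

/-!
# P262, milestone 1, wiring of the accounting, part B: the labelwise block lemmas integrated
-/

set_option linter.all false

open MeasureTheory ProbabilityTheory Set
open scoped ENNReal RealInnerProductSpace
open Vale.Agent.P262.H118 (L Iv st en ONB K1 rotE ON tau L_mono)
open Vale.Agent.P262.H395 (fib mix Inv)
open Vale.Agent.P262.H359 (SB rots inner mem_SB)
open Vale.Agent.P262.H359.M2 (reo ww RR)

namespace Vale.Agent.P262.M1.Sys

variable {E : Type*} [NormedAddCommGroup E] [InnerProductSpace ℝ E] [FiniteDimensional ℝ E]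
  [MeasurableSpace E] [BorelSpace E] (S : Sys E)

/-! ### measurability -/

lemma acc_measurable_a (i : ℕ) : Measurable (S.a i) := H395.Tel.a_meas S i

lemma acc_measurable_Xr (i m : ℕ) : Measurable (S.Xr i m) :=
  (S.acc_measurable_a i).mul ((S.measurable_Dl i m).div (S.measurable_Dc i m))

lemma acc_measurable_Qp (l m : ℕ) : Measurable (S.Qp l m) := by
  unfold Qp
  by_cases h : S.IsRot m ∧ S.el.jj m < l
  · simp only [if_pos h]
    exact S.acc_measurable_Xr l m
  · simp only [if_neg h]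
    exact measurable_const

lemma acc_measurable_Gp (cs c : ℝ) (l m : ℕ) : Measurable (S.Gp cs c l m) := by
  unfold Gp
  by_cases h1 : S.IsStar m
  · simp only [if_pos h1]
    refine Measurable.const_mul (H395.measurable_fib (measurable_iw ?_)) _
    exact (S.measurableSet_inn _ _ _).inter
      ((S.measurableSet_X _ _).symmDiff (S.measurableSet_X _ _))
  simp only [if_neg h1]
  by_cases h2 : S.IsRe m
  · simp only [if_pos h2]
    refine Measurable.const_mul (Finset.measurable_sum _ fun i _ => ?_) _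
    refine (H395.measurable_fib ?_).add (H395.measurable_fib ?_)
    · exact ((measurable_iw (S.measurableSet_inn _ _ _)).mul (S.acc_measurable_a i)).mul
        (measurable_iw (S.measurableSet_X _ _))
    · exact ((measurable_iw (S.measurableSet_inn _ _ _)).mul (S.acc_measurable_a i)).mul
        (measurable_iw (S.measurableSet_X _ _))
  simp only [if_neg h2]
  by_cases h3 : S.IsRot m ∧ l ≤ S.el.jj m
  · simp only [if_pos h3]
    refine Measurable.const_mul (Finset.measurable_sum _ fun i _ => ?_) _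
    refine H395.measurable_fib ?_
    refine (measurable_iw (S.measurableSet_inn _ _ _)).mul ((S.acc_measurable_Xr i m).add ?_)
    exact ((S.acc_measurable_a i).const_mul _).mul
      ((measurable_iw (S.measurableSet_X _ _)).add (measurable_iw (S.measurableSet_X _ _)))
  · simp only [if_neg h3]
    exact measurable_const

lemma inv_OM (l m : ℕ) : Inv (L S.f l) (iw (S.OM l m)) :=
  inv_iw fun x _ hw => S.OM_cyl l m x hw

lemma inv_A (l : ℕ) : Inv (L S.f l) fun x => ENNReal.ofReal (S.cp.A l x) := by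
  intro x w hw
  show ENNReal.ofReal (S.cp.A l (x + w)) = ENNReal.ofReal (S.cp.A l x)
  rw [S.cp.A_cyl l x w hw]

/-! ### integrated form of the labelwise inequalities -/

/-- the unit as an integral of the labelwise quantity. -/
lemma int_unit (l m' k : ℕ) :
    ∫⁻ x, iw (S.OM l m') x * (ENNReal.ofReal (S.cp.A l x) * S.q l k x) ∂stdGaussian E
      = S.Un l m' k := by
  have h : Measurable fun x => iw (S.OM l m') x * ENNReal.ofReal (S.cp.A l x) :=
    (measurable_iw (S.measurableSet_OM l m')).mul (S.cp.A_meas l).ennreal_ofReal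
  have h2 := H395.lintegral_mul_fib (W := L S.f l)
    (g := fun x => iw (S.OM l m') x * ENNReal.ofReal (S.cp.A l x)) (f := (S.Kq k).indicator 1)
    ((S.inv_OM l m').mul (S.inv_A l)) h (measurable_one.indicator (S.measurableSet_Kq k))
  unfold Un
  rw [show (∫⁻ x, iw (S.OM l m') x * ENNReal.ofReal (S.cp.A l x) * iw (S.Kq k) x ∂stdGaussian E)
    = ∫⁻ x, iw (S.OM l m') x * ENNReal.ofReal (S.cp.A l x) * (S.Kq k).indicator 1 x
      ∂stdGaussian E from rfl, ← h2]
  refine lintegral_congr fun x => ?_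
  rw [mul_assoc]
  rfl

/-- integrated prices of a block, levels above the leaf. -/
lemma int_prices {cs c cq kk : ℝ} (hcs : 0 ≤ cs) (hkk : 0 ≤ kk) (hP : S.Price cs c cq kk) {l m : ℕ}
    (hl : l < S.lf) (hm : S.tm m < S.T) :
    ∫⁻ x, iw (S.OM l m) x * ∑ m' ∈ Finset.Ico (S.sB l m) (S.eB l m),
        (S.Gp cs c l m' x + ENNReal.ofReal cq * S.Qp l m' x) ∂stdGaussian E ≤
      ENNReal.ofReal (∑ m' ∈ Finset.Ico (S.sB l m) (S.eB l m), S.Pb cs kk m') := by
  simp_rw [Finset.mul_sum]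
  have hmeas : ∀ m' ∈ Finset.Ico (S.sB l m) (S.eB l m), Measurable fun x =>
      iw (S.OM l m) x * (S.Gp cs c l m' x + ENNReal.ofReal cq * S.Qp l m' x) := fun m' _ =>
    (measurable_iw (S.measurableSet_OM l m)).mul
      ((S.acc_measurable_Gp cs c l m').add ((S.acc_measurable_Qp l m').const_mul _))
  rw [lintegral_finset_sum _ hmeas,
    ENNReal.ofReal_sum_of_nonneg fun m' _ => S.Pb_nonneg hcs hkk m']
  refine Finset.sum_le_sum fun m' hm' => ?_
  rw [Finset.mem_Ico] at hm'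
  have h1 := S.inside_re (l := l) (by have := S.acc_lf_lt; omega) hm hm'.1 hm'.2
  have h2 := hP l m' (by have := S.acc_lf_lt; omega) h1.1 h1.2
  rwa [S.OM_eq_of_lt hl.le hm'.1 hm'.2 hm] at h2

variable {S}

/-- a time block in elementary time. -/
lemma blk {i s e : ℕ} (hi : i < S.lf) (hiv : Iv (S.K.nb i) S.T s e) :
    S.tm (S.el.n s) < S.T ∧ S.el.n s < S.mT ∧ S.sB i (S.el.n s) = S.el.n s ∧
      S.eB i (S.el.n s) = S.el.n e - 1 ∧ S.sT i (S.el.n s) = s ∧ S.eT i (S.el.n s) = e := by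
  have h1 : s < S.T := lt_of_lt_of_le hiv.2.1 hiv.2.2.1
  have h2 : S.tm (S.el.n s) = s := S.tm_n s
  have h3 := hiv.st_eq (S.K.zero_mem_nb i) (t := s) le_rfl hiv.2.1
  have h4 : S.sT i (S.el.n s) = s := by
    unfold sT
    rw [h2]
    exact h3.1
  have h5 : S.eT i (S.el.n s) = e := by
    unfold eT
    rw [h4]
    exact h3.2
  have h6 : S.el.n s < S.mT := by
    have h7 := S.n_mono (Nat.succ_le_of_lt h1)
    have h8 := S.el.n_succ s
    rw [Nat.succ_eq_add_one] at h7
    unfold mT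
    omega
  refine ⟨by rw [h2]; exact h1, h6, ?_, ?_, h4, h5⟩
  · rw [S.sB_of_ne (by omega), h4]
  · rw [S.eB_of_ne (by omega), h5]

lemma same_blk {i s e m : ℕ} (hi : i < S.lf) (hiv : Iv (S.K.nb i) S.T s e)
    (h1 : S.el.n s ≤ m) (h2 : m < S.el.n e) : S.Same i (S.el.n s) m := by
  obtain ⟨-, -, h3, h4, -, -⟩ := blk hi hiv
  unfold Same
  rw [h3, h4]
  omega

/-- field `complete`. -/
lemma acc_complete {cL cs c kk : ℝ} (hcL : 0 ≤ cL) (hcs : 0 ≤ cs) (hkk : 0 ≤ kk)
    (hP : S.Price cs c 1 kk) (hL : S.LBL cL cs c) (hH : ∀ k ≤ S.mT, S.Healthy k) {i s e : ℕ}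
    (hiv : Iv (S.K.nb i) S.T s e) (hS : ¬ H118.Sl S.v S.N S.f (S.K.S i) i s e) {m : ℕ}
    (h1 : S.el.n s ≤ m) (h2 : m < S.el.n e) :
    cL * S.uR i m ≤ ∑ m' ∈ Finset.Ico (S.el.n s) (S.el.n e - 1), S.Pb cs kk m' := by
  have hsum : 0 ≤ ∑ m' ∈ Finset.Ico (S.el.n s) (S.el.n e - 1), S.Pb cs kk m' :=
    Finset.sum_nonneg fun m' _ => S.Pb_nonneg hcs hkk m'
  by_cases hi : i < S.lf
  swap
  · unfold uR
    rw [if_neg hi, mul_zero]
    exact hsum
  obtain ⟨b1, b2, b3, b4, b5, b6⟩ := blk hi hiv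
  have hsame := same_blk hi hiv h1 h2
  have hcpl : S.Cpl i (S.el.n s) := by
    unfold Cpl
    rw [b5, b6]
    exact hS
  have key : ∫⁻ x, iw (S.OM i (S.el.n s)) x * (ENNReal.ofReal cL *
      (ENNReal.ofReal (S.cp.A i x) * S.q i m x)) ∂stdGaussian E ≤
      ∫⁻ x, iw (S.OM i (S.el.n s)) x * ∑ m' ∈ Finset.Ico (S.sB i (S.el.n s)) (S.eB i (S.el.n s)),
        (S.Gp cs c i m' x + ENNReal.ofReal 1 * S.Qp i m' x) ∂stdGaussian E := by
    refine lintegral_mono fun x => ?_
    by_cases hx : x ∈ S.OM i (S.el.n s)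
    · refine mul_le_mul' le_rfl ?_
      have h3 := hL i (S.el.n s) x hi b2 hH (hx i le_rfl) hcpl m hsame
      rw [ENNReal.ofReal_mul hcL, mul_assoc] at h3
      simp only [ENNReal.ofReal_one, one_mul]
      exact h3
    · unfold iw
      rw [indicator_of_notMem hx, zero_mul]
      exact zero_le
  have h4 := key.trans (S.int_prices hcs hkk hP hi b1)
  have h5 : ∫⁻ x, iw (S.OM i (S.el.n s)) x * (ENNReal.ofReal cL *
      (ENNReal.ofReal (S.cp.A i x) * S.q i m x)) ∂stdGaussian E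
      = ENNReal.ofReal cL * S.Un i (S.el.n s) m := by
    rw [← S.int_unit i (S.el.n s) m, ← lintegral_const_mul]
    · refine lintegral_congr fun x => ?_
      ring
    · exact (measurable_iw (S.measurableSet_OM i _)).mul
        ((S.cp.A_meas i).ennreal_ofReal.mul (S.measurable_q i m))
  rw [h5, b3, b4] at h4
  have h6 : S.Un i (S.el.n s) m = S.Un i m m := by
    unfold Un
    rw [S.OM_eq hsame hi b1]
  rw [h6, ← S.ofReal_uR hi, ← ENNReal.ofReal_mul hcL] at h4
  exact (ENNReal.ofReal_le_ofReal_iff hsum).1 h4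

/-- field `block`. -/
lemma acc_block {cs c kk : ℝ} (hcs : 0 ≤ cs) (hc : 0 ≤ c) (hkk : 0 ≤ kk)
    (hP : S.Price cs c 1 kk) (hL : S.LBI cs c) (hH : ∀ k ≤ S.mT, S.Healthy k) {i s e : ℕ}
    (hiv : Iv (S.K.nb i) S.T s e) {m : ℕ} (h1 : S.el.n s ≤ m) (h2 : m < S.el.n e) :
    S.uR i m ≤ 2 * S.uR i (S.el.n s) +
      c * ∑ m' ∈ Finset.Ico (S.el.n s) (S.el.n e - 1), S.Pb cs kk m' := by
  have hsum : 0 ≤ ∑ m' ∈ Finset.Ico (S.el.n s) (S.el.n e - 1), S.Pb cs kk m' :=
    Finset.sum_nonneg fun m' _ => S.Pb_nonneg hcs hkk m'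
  by_cases hi : i < S.lf
  swap
  · have := S.uR_nonneg i (S.el.n s)
    have := mul_nonneg hc hsum
    have : S.uR i m = 0 := by unfold uR; rw [if_neg hi]
    linarith
  obtain ⟨b1, b2, b3, b4, b5, b6⟩ := blk hi hiv
  have hsame := same_blk hi hiv h1 h2
  have hm1 : Measurable fun x => iw (S.OM i (S.el.n s)) x *
      (ENNReal.ofReal (S.cp.A i x) * S.q i (S.el.n s) x) :=
    (measurable_iw (S.measurableSet_OM i _)).mul
        ((S.cp.A_meas i).ennreal_ofReal.mul (S.measurable_q i _))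
  have hm2 : Measurable fun x => iw (S.OM i (S.el.n s)) x *
      ∑ m' ∈ Finset.Ico (S.sB i (S.el.n s)) (S.eB i (S.el.n s)),
        (S.Gp cs c i m' x + ENNReal.ofReal 1 * S.Qp i m' x) :=
    (measurable_iw (S.measurableSet_OM i _)).mul (Finset.measurable_sum _ fun m' _ =>
      (S.acc_measurable_Gp cs c i m').add ((S.acc_measurable_Qp i m').const_mul _))
  have key : ∫⁻ x, iw (S.OM i (S.el.n s)) x *
      (ENNReal.ofReal (S.cp.A i x) * S.q i m x) ∂stdGaussian E ≤
      ∫⁻ x, 2 * (iw (S.OM i (S.el.n s)) x *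
        (ENNReal.ofReal (S.cp.A i x) * S.q i (S.el.n s) x)) +
      ENNReal.ofReal c * (iw (S.OM i (S.el.n s)) x *
        ∑ m' ∈ Finset.Ico (S.sB i (S.el.n s)) (S.eB i (S.el.n s)),
        (S.Gp cs c i m' x + ENNReal.ofReal 1 * S.Qp i m' x)) ∂stdGaussian E := by
    refine lintegral_mono fun x => ?_
    by_cases hx : x ∈ S.OM i (S.el.n s)
    · have h3 := hL i (S.el.n s) x hi b2 hH (hx i le_rfl) m hsame
      simp only [ENNReal.ofReal_one, one_mul]
      rw [b3] at h3 ⊢
      have h4 := mul_le_mul' (le_refl (iw (S.OM i (S.el.n s)) x)) h3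
      refine h4.trans (le_of_eq ?_)
      ring
    · unfold iw
      rw [indicator_of_notMem hx, zero_mul]
      exact zero_le
  rw [lintegral_add_left (hm1.const_mul _), lintegral_const_mul _ hm1, lintegral_const_mul _ hm2,
    S.int_unit, S.int_unit] at key
  have h4 := key.trans (add_le_add le_rfl (mul_le_mul' le_rfl (S.int_prices hcs hkk hP hi b1)))
  rw [b3, b4] at h4
  have h6 : S.Un i (S.el.n s) m = S.Un i m m := by
    unfold Un
    rw [S.OM_eq hsame hi b1]
  rw [h6, ← S.ofReal_uR hi, ← S.ofReal_uR hi, ← ENNReal.ofReal_mul hc,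
    show (2 : ℝ≥0∞) = ENNReal.ofReal 2 by norm_num, ← ENNReal.ofReal_mul (by norm_num),
    ← ENNReal.ofReal_add (mul_nonneg (by norm_num) (S.uR_nonneg _ _)) (mul_nonneg hc hsum)] at h4
  exact (ENNReal.ofReal_le_ofReal_iff (add_nonneg (mul_nonneg (by norm_num) (S.uR_nonneg _ _))
    (mul_nonneg hc hsum))).1 h4

/-! ### parents and the root -/

lemma tm_lt_of_lt_n {m : ℕ} (hm : m < S.el.n S.T) : S.tm m < S.T ∧ m ≤ S.mT := by
  have h1 : m ≤ S.mT := by unfold mT; omega
  exact ⟨S.tm_lt_of_le h1, h1⟩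

/-- field `parent`. -/
lemma acc_parent {κ : ℝ} (hκ : 0 ≤ κ) (hG : S.G2' κ) (hH : ∀ k ≤ S.mT, S.Healthy k) {i m : ℕ}
    (hi : i + 1 < S.d) (hm : m < S.el.n S.T) : S.uR (i + 1) m ≤ κ * S.uR i m := by
  obtain ⟨h1, h2⟩ := tm_lt_of_lt_n hm
  by_cases hi1 : i + 1 < S.lf
  swap
  · have := mul_nonneg hκ (S.uR_nonneg i m)
    have : S.uR (i + 1) m = 0 := by unfold uR; rw [if_neg hi1]
    linarith
  have h3 := hG i (i + 1) m m (Nat.lt_succ_self i) hi h2 h2 (S.same_self h1 i) (hH m h2)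
  have h4 : S.Un (i + 1) m m ≤ ∫⁻ x, iw (S.OM i m) x * S.a (i + 1) x * iw (S.X S.lf m) x
      ∂stdGaussian E := by
    unfold Un
    refine lintegral_mono fun x => ?_
    by_cases hx : x ∈ S.OM (i + 1) m
    · have hx1 : x ∈ S.OM i m := S.OM_anti (Nat.le_succ i) m hx
      have hx2 : x ∉ S.cp.Z (i + 1) := (hx (i + 1) le_rfl).1
      have hx3 : S.a (i + 1) x = ENNReal.ofReal (S.cp.A (i + 1) x) := by
        unfold a; rw [if_neg hx2]
      rw [hx3]
      have hx4 : iw (S.Kq m) x ≤ iw (S.X S.lf m) x := by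
        unfold iw Kq
        exact indicator_le_indicator_of_subset diff_subset (fun _ => zero_le) x
      have hx5 : iw (S.OM (i + 1) m) x ≤ iw (S.OM i m) x := by
        unfold iw
        rw [indicator_of_mem hx, indicator_of_mem hx1]
      exact mul_le_mul' (mul_le_mul' hx5 le_rfl) hx4
    · unfold iw
      rw [indicator_of_notMem hx, zero_mul, zero_mul]
      exact zero_le
  have h5 := h4.trans h3
  rw [← S.ofReal_uR hi1, ← S.ofReal_uR (by omega : i < S.lf), ← ENNReal.ofReal_mul hκ] at h5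
  exact (ENNReal.ofReal_le_ofReal_iff (mul_nonneg hκ (S.uR_nonneg i m))).1 h5

lemma A_zero (x : E) : S.cp.A 0 x = S.cp.A 0 0 := by
  have h : x ∈ (L S.f 0)ᗮ := by
    have : L S.f 0 = ⊥ := rfl
    rw [this, Submodule.bot_orthogonal_eq_top]
    exact Submodule.mem_top
  have := S.cp.A_cyl 0 0 x h
  rwa [zero_add] at this

/-- field `root`. -/
lemma acc_root (m : ℕ) : S.uR 0 m ≤ S.cp.A 0 0 := by
  have hA : 0 ≤ S.cp.A 0 0 := (S.cp.A_pos 0 0).le
  unfold uR
  split_ifs
  swap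
  · exact hA
  · refine ENNReal.toReal_le_of_le_ofReal hA ?_
    calc S.Un 0 m m ≤ ∫⁻ x, ENNReal.ofReal (S.cp.A 0 0) ∂stdGaussian E := by
          refine lintegral_mono fun x => ?_
          rw [A_zero x]
          calc iw (S.OM 0 m) x * ENNReal.ofReal (S.cp.A 0 0) * iw (S.Kq m) x
              ≤ 1 * ENNReal.ofReal (S.cp.A 0 0) * 1 :=
                mul_le_mul' (mul_le_mul' (iw_le_one _ x) le_rfl) (iw_le_one _ x)
            _ = _ := by simp
      _ = _ := by simp

end Vale.Agent.P262.M1.Sys
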