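import Vale.Agent.P262.H359.AccSysB

/-!
# P262, milestone 1, wiring of the accounting, part C: openings, rotations, ends of blocks, total
-/

set_option linter.all false

open MeasureTheory ProbabilityTheory Set
open scoped ENNReal RealInnerProductSpace
open Vale.Agent.P262.H118 (L Iv st en ONB K1 rotE ON tau L_mono)
open Vale.Agent.P262.H395 (fib mix Inv)
open Vale.Agent.P262.H359 (SB rots inner mem_SB sum_inner)
open Vale.Agent.P262.H359.M2 (reo ww RR)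

namespace Vale.Agent.P262.M1.Sys

variable {E : Type*} [NormedAddCommGroup E] [InnerProductSpace ℝ E] [FiniteDimensional ℝ E]
  [MeasurableSpace E] [BorelSpace E] (S : Sys E)

/-! ### sums over all moves -/

lemma sum_range_mT (F : ℕ → ℝ) :
    ∑ m ∈ Finset.range S.mT, F m = ∑ t ∈ Finset.range S.T, F (S.el.n t) +
      (∑ t ∈ Finset.range S.T, rots S.el F t +
        ∑ t ∈ Finset.range (S.T - 1), F (S.el.n (t + 1) - 1)) := by
  have h := sum_inner S.el F S.hT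
  rw [S.el.n_zero] at h
  unfold Vale.Agent.P262.H359.inner at h
  rw [← Finset.range_eq_Ico, ← Finset.range_eq_Ico, ← Finset.range_eq_Ico] at h
  exact h

lemma isStar_n (t : ℕ) : S.IsStar (S.el.n t) := by
  unfold IsStar
  rw [S.tm_n]

lemma isRot_of {t m : ℕ} (h1 : S.el.n t < m) (h2 : m + 1 < S.el.n (t + 1)) :
    S.IsRot m ∧ S.tm m = t := by
  have h3 : S.tm m = t := S.tm_eq h1.le (by omega)
  refine ⟨?_, h3⟩
  unfold IsRot
  rw [h3]
  exact ⟨h1, h2⟩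

lemma isRe_of (t : ℕ) : S.IsRe (S.el.n (t + 1) - 1) ∧ S.tm (S.el.n (t + 1) - 1) = t := by
  have h := S.el.n_succ t
  have h3 : S.tm (S.el.n (t + 1) - 1) = t := S.tm_eq (by omega) (by omega)
  refine ⟨?_, h3⟩
  unfold IsRe
  rw [h3]
  omega

lemma Pb_n {cs kk : ℝ} (t : ℕ) : S.Pb cs kk (S.el.n t) = cs * (S.gR t + S.lR t) := by
  unfold Pb
  rw [if_pos (S.isStar_n t), S.tm_n]

lemma Pb_rot' {cs kk : ℝ} {t m : ℕ} (h1 : S.el.n t < m) (h2 : m + 1 < S.el.n (t + 1)) :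
    S.Pb cs kk m = kk * ww S.el S.uR m := by
  have h := (S.isRot_of h1 h2).1
  unfold Pb
  rw [if_neg h.not_star, if_neg h.not_re]

lemma Pb_re' {cs kk : ℝ} (t : ℕ) :
    S.Pb cs kk (S.el.n (t + 1) - 1) = kk * reo S.el S.uR t := by
  obtain ⟨h, h1⟩ := S.isRe_of t
  unfold Pb
  rw [if_neg h.not_star, if_pos h, h1]

lemma sum_if_lt (F : ℕ → ℝ) {T : ℕ} (hT : 0 < T) :
    (∑ t ∈ Finset.range T, if t + 1 < T then F t else 0) = ∑ t ∈ Finset.range (T - 1), F t := by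
  obtain ⟨n, rfl⟩ : ∃ n, T = n + 1 := ⟨T - 1, by omega⟩
  rw [Finset.sum_range_succ, if_neg (by omega), add_zero]
  refine Finset.sum_congr rfl fun t ht => ?_
  rw [Finset.mem_range] at ht
  rw [if_pos (by omega)]

lemma sum_Pb {cs kk : ℝ} :
    ∑ m ∈ Finset.range S.mT, S.Pb cs kk m = cs * (∑ t ∈ Finset.range S.T, S.gR t +
      ∑ t ∈ Finset.range S.T, S.lR t) + kk * RR S.el S.uR := by
  rw [S.sum_range_mT]
  unfold RR
  rw [sum_if_lt _ S.hT, mul_add kk]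
  congr 1
  · rw [← Finset.sum_add_distrib, Finset.mul_sum]
    exact Finset.sum_congr rfl fun t _ => S.Pb_n t
  · congr 1
    · rw [Finset.mul_sum]
      refine Finset.sum_congr rfl fun t _ => ?_
      unfold rots
      rw [Finset.mul_sum]
      refine Finset.sum_congr rfl fun m hm => ?_
      rw [Finset.mem_Ico] at hm
      exact S.Pb_rot' (t := t) (by omega) (by omega)
    · rw [Finset.mul_sum]
      exact Finset.sum_congr rfl fun t _ => S.Pb_re' t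

/-! ### ends of blocks -/

noncomputable def pzR (l : ℕ) : ℝ := ∑ m ∈ S.bl l, (S.PZ l m).toReal

variable {S}

lemma sum_PZ_le {ε cP kk : ℝ} (hε : 0 ≤ ε) (hkk : 0 ≤ kk) (hP : S.Price ε cP cP kk)
    (hZ : S.PZL ε cP) (hH : ∀ k ≤ S.mT, S.Healthy k) {l : ℕ} (hl : l < S.d) :
    ∑ m ∈ S.bl l, S.PZ l m ≤ ENNReal.ofReal (ε * (∑ t ∈ Finset.range S.T, S.gR t +
      ∑ t ∈ Finset.range S.T, S.lR t) + kk * RR S.el S.uR) := by
  classical
  rw [← S.sum_Pb, ENNReal.ofReal_sum_of_nonneg fun m' _ => S.Pb_nonneg hε hkk m']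
  refine le_trans (Finset.sum_le_sum fun m hm => ?_)
    (S.sum_bl_le l fun m' => ENNReal.ofReal (S.Pb ε kk m'))
  have hm2 : m < S.mT := by
    unfold bl at hm
    rw [Finset.mem_filter, Finset.mem_range] at hm
    exact hm.1
  have htm := S.tm_lt_of_lt hm2
  refine (hZ l m hl hm2 hH).trans (Finset.sum_le_sum fun m' hm' => ?_)
  rw [Finset.mem_Ico] at hm'
  have h1 := S.inside_re hl htm hm'.1 hm'.2
  have h2 := hP l m' hl h1.1 h1.2
  rwa [S.OM_eq_of_lt (by have := S.acc_lf_add; omega) hm'.1 hm'.2 htm] at h2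

lemma acc_pz {ε cP kk : ℝ} (hε : 0 ≤ ε) (hkk : 0 ≤ kk) (hP : S.Price ε cP cP kk)
    (hZ : S.PZL ε cP) (hH : ∀ k ≤ S.mT, S.Healthy k) {l : ℕ} (hl : l < S.d) :
    (∀ m ∈ S.bl l, S.PZ l m ≠ ⊤) ∧ S.pzR l ≤ ε * (∑ t ∈ Finset.range S.T, S.gR t +
      ∑ t ∈ Finset.range S.T, S.lR t) + kk * RR S.el S.uR := by
  have h := sum_PZ_le hε hkk hP hZ hH hl
  have hfin : ∀ m ∈ S.bl l, S.PZ l m ≠ ⊤ := by
    have h1 := ne_top_of_le_ne_top ENNReal.ofReal_ne_top h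
    intro m hm
    exact ENNReal.sum_ne_top.1 h1 m hm
  refine ⟨hfin, ?_⟩
  unfold pzR
  rw [← ENNReal.toReal_sum hfin]
  refine ENNReal.toReal_le_of_le_ofReal ?_ h
  rw [← S.sum_Pb]
  exact Finset.sum_nonneg fun m' _ => S.Pb_nonneg hε hkk m'

/-! ### openings -/

variable (S)

/-- opening price of the life of level `i` starting at time `a`. -/
noncomputable def opE (i a : ℕ) : ℝ≥0∞ :=
  ∫⁻ x, iw (S.OM (i - 1) (S.el.n a)) x * S.a i x * iw (S.X S.lf (S.el.n a)) x ∂stdGaussian E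

noncomputable def opR (i a : ℕ) : ℝ := if 0 < i then (S.opE i a).toReal else 0

lemma opR_nonneg (i a : ℕ) : 0 ≤ S.opR i a := by
  unfold opR
  split_ifs
  · exact ENNReal.toReal_nonneg
  · exact le_rfl

variable {S}

lemma opE_le {κ : ℝ} (hG : S.G2' κ) (hH : ∀ k ≤ S.mT, S.Healthy k) {i a : ℕ} (hi : i + 1 < S.d)
    (ha : a < S.T) :
    S.opE (i + 1) a ≤ ENNReal.ofReal κ * S.Un i (S.el.n a) (S.el.n a) := by
  have h1 : S.el.n a ≤ S.mT := by
    have h2 := S.n_mono (Nat.succ_le_of_lt ha)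
    have h3 := S.el.n_succ a
    rw [Nat.succ_eq_add_one] at h2
    unfold mT
    omega
  have h2 : S.tm (S.el.n a) < S.T := by rw [S.tm_n]; exact ha
  exact hG i (i + 1) _ _ (Nat.lt_succ_self i) hi h1 h1 (S.same_self h2 i) (hH _ h1)

lemma opE_ne {κ : ℝ} (hG : S.G2' κ) (hH : ∀ k ≤ S.mT, S.Healthy k) {i a : ℕ} (hi0 : 0 < i)
    (hi : i < S.d) (ha : a < S.T) : S.opE i a ≠ ⊤ := by
  obtain ⟨j, rfl⟩ : ∃ j, i = j + 1 := ⟨i - 1, by omega⟩
  exact ne_top_of_le_ne_top (ENNReal.mul_ne_top ENNReal.ofReal_ne_top (S.acc_Un_ne _ _ _))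
    (opE_le hG hH hi ha)

lemma acc_op {κ : ℝ} (hκ : 0 ≤ κ) (hG : S.G2' κ) (hH : ∀ k ≤ S.mT, S.Healthy k) {i a : ℕ}
    (hi : i + 1 < S.d) (ha : a < S.T) : S.opR (i + 1) a ≤ κ * S.uR i (S.el.n a) := by
  have h1 : i < S.lf := by have := S.acc_lf_add; omega
  have h2 := opE_le hG hH hi ha
  rw [← S.ofReal_uR h1, ← ENNReal.ofReal_mul hκ] at h2
  unfold opR
  rw [if_pos (Nat.succ_pos i)]
  exact ENNReal.toReal_le_of_le_ofReal (mul_nonneg hκ (S.uR_nonneg _ _)) h2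

/-! ### value costs -/

lemma Vp_star {m : ℕ} (h : S.IsStar m) : S.Vp m = 0 := by
  unfold Vp
  rw [if_neg fun h' => absurd h h'.not_star, if_neg fun h' => absurd h h'.not_star]

lemma Vp_re (t : ℕ) : S.Vp (S.el.n (t + 1) - 1) =
    ∑ i ∈ Finset.Ioc (S.sv (S.el.n (t + 1) - 1)) S.lf, S.opE i (t + 1) := by
  obtain ⟨h, h1⟩ := S.isRe_of t
  have h2 : S.el.n (t + 1) - 1 + 1 = S.el.n (t + 1) := by
    have := S.el.n_succ t
    omega
  unfold Vp opE
  rw [if_pos h, h2]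

lemma Vp_rot_le {c3 : ℝ} (hM : 0 ≤ S.M) (hc3 : 0 ≤ c3) (hG : S.G3 c3)
    (hH : ∀ k ≤ S.mT, S.Healthy k) {m : ℕ} (hm : m < S.mT) (h : S.IsRot m) :
    S.Vp m ≤ ENNReal.ofReal (4 * S.M * (S.d * c3) * ww S.el S.uR m) := by
  have h1 : S.el.jj m < S.lf := by
    have := (S.rot_data h).2.1
    have := S.acc_lf_add
    omega
  have htm := S.tm_lt_of_lt hm
  have hin := S.rot_inside h (S.el.jj m) htm
  have hOM : S.OM (S.el.jj m) (m + 1) = S.OM (S.el.jj m) m :=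
    S.OM_eq ⟨(S.sB_le _ m).trans (Nat.le_succ m), hin.1⟩ h1 htm
  have hUn : S.Un (S.el.jj m) m (m + 1) = S.Un (S.el.jj m) (m + 1) (m + 1) := by
    unfold Un
    rw [hOM]
  have hterm : ∀ i ∈ Finset.Ioc (S.el.jj m) S.lf,
      ∫⁻ x, iw (S.OM (S.el.jj m) m) x * S.Xr i m x ∂stdGaussian E ≤
        ENNReal.ofReal (c3 * ww S.el S.uR m) := by
    intro i hi
    rw [Finset.mem_Ioc] at hi
    have h2 := hG m i hm h hi.1 (by have := S.acc_lf_add; omega) (hH m hm.le) (hH (m + 1) hm)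
    refine h2.trans (le_of_eq ?_)
    rw [hUn, ← S.ofReal_uR h1, ← S.ofReal_uR h1,
      ← ENNReal.ofReal_add (S.uR_nonneg _ _) (S.uR_nonneg _ _),
      ← ENNReal.ofReal_mul (mul_nonneg hc3 (S.el.ph_nonneg m))]
    congr 1
    unfold ww
    ring
  unfold Vp
  rw [if_neg h.not_re, if_pos h]
  have hcard : (Finset.Ioc (S.el.jj m) S.lf).card ≤ S.d := by
    rw [Nat.card_Ioc]
    have := S.acc_lf_add
    omega
  have hw := S.ww_nonneg m
  calc ENNReal.ofReal (4 * S.M) * ∑ i ∈ Finset.Ioc (S.el.jj m) S.lf,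
        ∫⁻ x, iw (S.OM (S.el.jj m) m) x * S.Xr i m x ∂stdGaussian E
      ≤ ENNReal.ofReal (4 * S.M) * ∑ i ∈ Finset.Ioc (S.el.jj m) S.lf,
        ENNReal.ofReal (c3 * ww S.el S.uR m) := by
        gcongr with i hi
        exact hterm i hi
    _ ≤ ENNReal.ofReal (4 * S.M) * (ENNReal.ofReal S.d * ENNReal.ofReal (c3 * ww S.el S.uR m)) := by
        gcongr
        rw [Finset.sum_const, nsmul_eq_mul, ENNReal.ofReal_natCast]
        gcongr
    _ = _ := by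
        rw [← ENNReal.ofReal_mul (by positivity), ← ENNReal.ofReal_mul (by positivity)]
        congr 1
        ring

variable (S)

noncomputable def rcR : ℝ := ∑ t ∈ Finset.range S.T, rots S.el (fun m => (S.Vp m).toReal) t

variable {S}

lemma acc_rc {c3 : ℝ} (hM : 0 ≤ S.M) (hc3 : 0 ≤ c3) (hG : S.G3 c3)
    (hH : ∀ k ≤ S.mT, S.Healthy k) : S.rcR ≤ 4 * S.M * (S.d * c3 * RR S.el S.uR) := by
  have h1 : S.rcR ≤ 4 * S.M * (S.d * c3) * ∑ t ∈ Finset.range S.T, rots S.el (ww S.el S.uR) t := by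
    unfold rcR rots
    rw [Finset.mul_sum]
    refine Finset.sum_le_sum fun t ht => ?_
    rw [Finset.mul_sum]
    refine Finset.sum_le_sum fun m hm => ?_
    rw [Finset.mem_Ico] at hm
    rw [Finset.mem_range] at ht
    have h2 := (S.isRot_of (t := t) (m := m) (by omega) (by omega)).1
    have h3 : m < S.mT := by
      have h4 := S.n_mono (Nat.succ_le_of_lt ht)
      rw [Nat.succ_eq_add_one] at h4
      unfold mT
      omega
    refine ENNReal.toReal_le_of_le_ofReal ?_ (Vp_rot_le hM hc3 hG hH h3 h2)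
    have := S.ww_nonneg m
    positivity
  have h2 : ∑ t ∈ Finset.range S.T, rots S.el (ww S.el S.uR) t ≤ RR S.el S.uR := by
    unfold RR
    have : 0 ≤ ∑ t ∈ Finset.range S.T, if t + 1 < S.T then reo S.el S.uR t else 0 :=
      Finset.sum_nonneg fun t _ => by
        split_ifs
        · exact S.reo_nonneg t
        · exact le_rfl
    linarith
  have h3 : 0 ≤ 4 * S.M * (S.d * c3) := by positivity
  have h4 := mul_le_mul_of_nonneg_left h2 h3
  linarith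

/-! ### the total inequality -/

/-- combinatorics of the openings. -/
lemma openings (S : Sys E) :
    ∑ i ∈ Finset.Ioc 0 S.lf, S.opR i 0 + ∑ t ∈ Finset.range (S.T - 1),
      ∑ i ∈ Finset.Ioc (S.sv (S.el.n (t + 1) - 1)) S.lf, S.opR i (t + 1) ≤
    ∑ i ∈ Finset.range S.d, ∑ a ∈ SB (S.K.nw i) S.T, S.opR i a := by
  classical
  have hR : ∑ i ∈ Finset.range S.d, ∑ a ∈ SB (S.K.nw i) S.T, S.opR i a
      = ∑ a ∈ Finset.range S.T, ∑ i ∈ Finset.range S.d, if a ∈ S.K.nw i then S.opR i a else 0 := by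
    rw [Finset.sum_comm]
    refine Finset.sum_congr rfl fun i _ => ?_
    unfold SB
    rw [Finset.sum_filter]
  have hsub : ∀ k, Finset.Ioc k S.lf ⊆ Finset.range S.d := by
    intro k i hi
    rw [Finset.mem_Ioc] at hi
    rw [Finset.mem_range]
    have := S.acc_lf_add
    omega
  have hnn : ∀ a i, 0 ≤ (if a ∈ S.K.nw i then S.opR i a else 0) := by
    intro a i
    split_ifs
    · exact S.opR_nonneg i a
    · exact le_rfl
  have hr : Finset.range S.T = Finset.range (S.T - 1 + 1) := by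
    congr 1
    have := S.hT
    omega
  rw [hR, hr, Finset.sum_range_succ', add_comm]
  refine add_le_add (Finset.sum_le_sum fun t ht => ?_) ?_
  · refine le_trans (Finset.sum_le_sum fun i hi => ?_)
      (Finset.sum_le_sum_of_subset_of_nonneg (hsub _) fun i _ _ => hnn (t + 1) i)
    rw [Finset.mem_Ioc] at hi
    have h1 := S.mem_nw_of_sv hi.1 hi.2
    rw [(S.isRe_of t).2] at h1
    rw [if_pos h1]
  · refine le_trans (Finset.sum_le_sum fun i hi => ?_)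
      (Finset.sum_le_sum_of_subset_of_nonneg (hsub 0) fun i _ _ => hnn 0 i)
    rw [if_pos (S.K.zero_mem_nw i)]

lemma De_ne (i m : ℕ) (x : E) : S.De i m x ≠ ⊤ :=
  ne_top_of_le_ne_top ENNReal.one_ne_top (H395.Tel.De_le S i m x)

/-- field `total`. -/
lemma acc_total {κ c3 ε cP kk : ℝ} (hM : 0 ≤ S.M) (hc3 : 0 ≤ c3) (hG2 : S.G2' κ) (hG3 : S.G3 c3)
    (hε : 0 ≤ ε) (hkk : 0 ≤ kk) (hP : S.Price ε cP cP kk) (hZ : S.PZL ε cP) (hT : S.TEL)
    (hH : ∀ k ≤ S.mT, S.Healthy k) (h0 : S.De 0 0 0 ≤ S.a 0 0) :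
    (S.De 0 S.mT 0).toReal + ∑ t ∈ Finset.range S.T, S.gR t ≤ S.cp.A 0 0 +
      ∑ t ∈ Finset.range S.T, S.lR t +
      ∑ i ∈ Finset.range S.d, ∑ a ∈ SB (S.K.nw i) S.T, S.opR i a +
      ∑ i ∈ Finset.range S.d, S.pzR i + S.rcR := by
  classical
  have ha0 : S.a 0 0 = ENNReal.ofReal (S.cp.A 0 0) := by
    unfold a
    rw [if_neg]
    rw [S.cp.Z_zero]
    exact fun h => h
  have hinj : ∀ F : ℕ → ℝ≥0∞, ∑ m ∈ (Finset.range S.T).image S.el.n, F m
      = ∑ t ∈ Finset.range S.T, F (S.el.n t) := fun F =>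
    Finset.sum_image fun a _ b _ h => S.n_strictMono.injective h
  -- values of the moves
  have hVre : ∀ t ∈ Finset.range (S.T - 1), (S.Vp (S.el.n (t + 1) - 1)).toReal =
      ∑ i ∈ Finset.Ioc (S.sv (S.el.n (t + 1) - 1)) S.lf, S.opR i (t + 1) := by
    intro t ht
    rw [Finset.mem_range] at ht
    rw [Vp_re t, ENNReal.toReal_sum]
    · refine Finset.sum_congr rfl fun i hi => ?_
      rw [Finset.mem_Ioc] at hi
      unfold opR
      rw [if_pos (by omega)]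
    · intro i hi
      rw [Finset.mem_Ioc] at hi
      exact opE_ne hG2 hH (by omega) (by have := S.acc_lf_add; omega) (by omega)
  have hVfin : ∀ m ∈ Finset.range S.mT, S.Vp m ≠ ⊤ := by
    intro m hm
    rw [Finset.mem_range] at hm
    rcases S.cases_move m with h | h | h
    · rw [Vp_star h]
      exact ENNReal.zero_ne_top
    · exact ne_top_of_le_ne_top ENNReal.ofReal_ne_top (Vp_rot_le hM hc3 hG3 hH hm h)
    · have h1 := S.tm_re_lt h hm
      have h2 : m = S.el.n (S.tm m + 1) - 1 := by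
        have : m + 1 = S.el.n (S.tm m + 1) := h
        omega
      rw [h2, Vp_re]
      refine ENNReal.sum_ne_top.2 fun i hi => ?_
      rw [Finset.mem_Ioc] at hi
      exact opE_ne hG2 hH (by omega) (by have := S.acc_lf_add; omega) h1
  have hop0 : ∀ i ∈ Finset.Ioc 0 S.lf, S.opE i 0 ≠ ⊤ := by
    intro i hi
    rw [Finset.mem_Ioc] at hi
    exact opE_ne hG2 hH (by omega) (by have := S.acc_lf_add; omega) S.hT
  have hPZ : ∀ l ∈ Finset.range S.d, ∀ m ∈ S.bl l, S.PZ l m ≠ ⊤ := fun l hl =>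
    (acc_pz hε hkk hP hZ hH (Finset.mem_range.1 hl)).1
  -- the telescoping inequality
  have h1 := hT
  unfold TEL at h1
  rw [max_eq_left h0, ha0, hinj, hinj] at h1
  have e1 : ∑ i ∈ Finset.Ioc 0 S.lf, ∫⁻ x, iw (S.OM (i - 1) 0) x * S.a i x * iw (S.X S.lf 0) x
      ∂stdGaussian E = ∑ i ∈ Finset.Ioc 0 S.lf, S.opE i 0 := by
    unfold opE
    rw [S.el.n_zero]
  rw [e1] at h1
  have f1 : ∑ t ∈ Finset.range S.T, S.loss (S.el.n t) ≠ ⊤ :=
    ENNReal.sum_ne_top.2 fun t _ => S.acc_loss_ne _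
  have f2 : ∑ i ∈ Finset.Ioc 0 S.lf, S.opE i 0 ≠ ⊤ := ENNReal.sum_ne_top.2 hop0
  have f3 : ∑ m ∈ Finset.range S.mT, S.Vp m ≠ ⊤ := ENNReal.sum_ne_top.2 hVfin
  have f4 : ∑ l ∈ Finset.range S.d, ∑ m ∈ S.bl l, S.PZ l m ≠ ⊤ :=
    ENNReal.sum_ne_top.2 fun l hl => ENNReal.sum_ne_top.2 (hPZ l hl)
  have f5 : ∑ t ∈ Finset.range S.T, S.gain (S.el.n t) ≠ ⊤ :=
    ENNReal.sum_ne_top.2 fun t _ => S.acc_gain_ne _
  have fR : ENNReal.ofReal (S.cp.A 0 0) + ∑ t ∈ Finset.range S.T, S.loss (S.el.n t) +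
      ∑ i ∈ Finset.Ioc 0 S.lf, S.opE i 0 + ∑ m ∈ Finset.range S.mT, S.Vp m +
      ∑ l ∈ Finset.range S.d, ∑ m ∈ S.bl l, S.PZ l m ≠ ⊤ := by
    simp only [ne_eq, ENNReal.add_eq_top, not_or]
    exact ⟨⟨⟨⟨ENNReal.ofReal_ne_top, f1⟩, f2⟩, f3⟩, f4⟩
  have h2 := ENNReal.toReal_mono fR h1
  have g1 : ENNReal.ofReal (S.cp.A 0 0) + ∑ t ∈ Finset.range S.T, S.loss (S.el.n t) ≠ ⊤ :=
    ENNReal.add_ne_top.2 ⟨ENNReal.ofReal_ne_top, f1⟩
  have g2 := ENNReal.add_ne_top.2 ⟨g1, f2⟩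
  have g3 := ENNReal.add_ne_top.2 ⟨g2, f3⟩
  rw [ENNReal.toReal_add (De_ne 0 S.mT 0) f5, ENNReal.toReal_add g3 f4,
    ENNReal.toReal_add g2 f3, ENNReal.toReal_add g1 f2,
    ENNReal.toReal_add ENNReal.ofReal_ne_top f1, ENNReal.toReal_ofReal (S.cp.A_pos 0 0).le,
    ENNReal.toReal_sum fun t _ => S.acc_gain_ne _, ENNReal.toReal_sum fun t _ => S.acc_loss_ne _,
    ENNReal.toReal_sum hop0, ENNReal.toReal_sum hVfin,
    ENNReal.toReal_sum fun l hl => ENNReal.sum_ne_top.2 (hPZ l hl)] at h2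
  have h3 : ∑ l ∈ Finset.range S.d, (∑ m ∈ S.bl l, S.PZ l m).toReal
      = ∑ l ∈ Finset.range S.d, S.pzR l := by
    refine Finset.sum_congr rfl fun l hl => ?_
    unfold pzR
    rw [ENNReal.toReal_sum (hPZ l hl)]
  have h4 : ∑ i ∈ Finset.Ioc 0 S.lf, (S.opE i 0).toReal = ∑ i ∈ Finset.Ioc 0 S.lf, S.opR i 0 := by
    refine Finset.sum_congr rfl fun i hi => ?_
    rw [Finset.mem_Ioc] at hi
    unfold opR
    rw [if_pos hi.1]
  have h5 : ∑ m ∈ Finset.range S.mT, (S.Vp m).toReal = S.rcR + ∑ t ∈ Finset.range (S.T - 1),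
      ∑ i ∈ Finset.Ioc (S.sv (S.el.n (t + 1) - 1)) S.lf, S.opR i (t + 1) := by
    rw [S.sum_range_mT fun m => (S.Vp m).toReal, ← Finset.sum_congr rfl hVre]
    have h6 : ∑ t ∈ Finset.range S.T, (S.Vp (S.el.n t)).toReal = 0 :=
      Finset.sum_eq_zero fun t _ => by rw [Vp_star (S.isStar_n t)]; rfl
    rw [h6, zero_add]
    rfl
  rw [h3, h4, h5] at h2
  have h7 := openings S
  have e2 : ∑ t ∈ Finset.range S.T, (S.gain (S.el.n t)).toReal = ∑ t ∈ Finset.range S.T, S.gR t :=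
    rfl
  have e3 : ∑ t ∈ Finset.range S.T, (S.loss (S.el.n t)).toReal = ∑ t ∈ Finset.range S.T, S.lR t :=
    rfl
  rw [e2, e3] at h2
  linarith

end Vale.Agent.P262.M1.Sys
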