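import Vale.Agent.P262.H359.AccSysC

/-!
# P262, milestone 1, wiring of the accounting, part D: the accounting from (PRICE)
-/

set_option linter.all false

open MeasureTheory ProbabilityTheory Set
open scoped ENNReal RealInnerProductSpace
open Vale.Agent.P262.H118 (L Iv st en ONB K1 rotE ON tau L_mono)
open Vale.Agent.P262.H395 (fib mix Inv)
open Vale.Agent.P262.H359 (SB rots mem_SB sum_inner)
open Vale.Agent.P262.H359.M2 (reo ww RR AccHyp)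

namespace Vale.Agent.P262.M1.Sys

variable {E : Type*} [NormedAddCommGroup E] [InnerProductSpace ℝ E] [FiniteDimensional ℝ E]
  [MeasurableSpace E] [BorelSpace E] {S : Sys E}

/-- the hypotheses of the final summation. -/
theorem accHyp {κ c3 cL cs cB ε cP kk C3 : ℝ} (hM : 0 ≤ S.M) (hκ : 0 ≤ κ) (hc3 : 0 ≤ c3)
    (hcL : 0 ≤ cL) (hcs : 0 ≤ cs) (hcB : 0 ≤ cB) (hε : 0 ≤ ε) (hkk : 0 ≤ kk) (hC3 : 0 ≤ C3)
    (hκk : κ ≤ kk) (hck : S.d * c3 ≤ kk)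
    (hG1 : S.G1) (hG2 : S.G2' κ) (hG3 : S.G3 c3) (hL : S.LBL cL cs cB) (hI : S.LBI cs cB)
    (hT : S.TEL) (hZ : S.PZL ε cP) (hP1 : S.Price cs cB 1 kk) (hP2 : S.Price ε cP cP (C3 * kk))
    (hH : ∀ k ≤ S.mT, S.Healthy k) (h0 : S.De 0 0 0 ≤ S.a 0 0) :
    AccHyp S.el S.uR (fun _ m => S.Pb cs kk m) S.gR S.lR S.opR S.pzR S.rcR cL cB cs C3 (4 * S.M)
      kk ε (S.cp.A 0 0) (S.cp.A 0 0) (S.De 0 S.mT 0).toReal where
  u0 := S.uR_nonneg
  ga0 := fun _ m => S.Pb_nonneg hcs hkk m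
  g0 := S.gR_nonneg
  l0 := S.lR_nonneg
  complete := fun i _ s e hiv hS m h1 h2 => acc_complete hcL hcs hkk hP1 hL hH hiv hS h1 h2
  block := fun i _ s e hiv m h1 h2 => acc_block hcs hcB hkk hP1 hI hH hiv h1 h2
  parent := fun i hi m hm => (acc_parent hκ hG2 hH hi hm).trans
    (mul_le_mul_of_nonneg_right hκk (S.uR_nonneg _ _))
  root := fun m _ => acc_root m
  star := fun i _ t _ => (S.Pb_n t).le
  rot := fun i _ t _ m h1 h2 => (S.Pb_rot' h1 h2).le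
  reopen := fun i _ t _ _ => (S.Pb_re' t).le
  total := acc_total hM hc3 hG2 hG3 hε (mul_nonneg hC3 hkk) hP2 hZ hT hH h0
  op_root := by
    unfold opR
    rw [if_neg (lt_irrefl 0)]
    exact (S.cp.A_pos 0 0).le
  op_succ := fun i hi a ha => (acc_op hκ hG2 hH hi (mem_SB.1 ha).1).trans
    (mul_le_mul_of_nonneg_right hκk (S.uR_nonneg _ _))
  rc_le := by
    refine (acc_rc hM hc3 hG3 hH).trans ?_
    have h1 : 0 ≤ RR S.el S.uR := by
      unfold RR rots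
      refine add_nonneg (Finset.sum_nonneg fun t _ => Finset.sum_nonneg fun m _ => S.ww_nonneg m)
        (Finset.sum_nonneg fun t _ => ?_)
      split_ifs
      · exact S.reo_nonneg t
      · exact le_rfl
    have h2 := mul_le_mul_of_nonneg_right hck h1
    exact mul_le_mul_of_nonneg_left h2 (by positivity)
  pz_le := fun i hi => by
    have h := (acc_pz hε (mul_nonneg hC3 hkk) hP2 hZ hH hi).2
    rwa [mul_assoc] at h
  loss := fun t ht => by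
    have h1 : S.el.n t < S.mT := by
      have h2 := S.n_mono (Nat.succ_le_of_lt ht)
      have h3 := S.el.n_succ t
      rw [Nat.succ_eq_add_one] at h2
      unfold mT
      omega
    have h2 := hG1 (S.el.n t) h1 (S.isStar_n t) (hH _ h1.le)
    unfold lR gR
    have h3 : S.gain (S.el.n t) / 8 ≠ ⊤ := ENNReal.div_ne_top (S.acc_gain_ne _) (by norm_num)
    have h4 := ENNReal.toReal_mono h3 h2
    rw [ENNReal.toReal_div] at h4
    simpa using h4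

/-- **The accounting, from (PRICE).** -/
theorem acc_of_price {κ c3 cL cs cB ε cP kk C3 Θ : ℝ} (hM : 0 ≤ S.M) (hκ : 0 ≤ κ) (hc3 : 0 ≤ c3)
    (hcL : 0 < cL) (hcs : 0 ≤ cs) (hcB : 0 ≤ cB) (hε : 0 ≤ ε) (hkk : 0 ≤ kk) (hC3 : 0 ≤ C3)
    (hκk : κ ≤ kk) (hck : S.d * c3 ≤ kk)
    (hG1 : S.G1) (hG2 : S.G2' κ) (hG3 : S.G3 c3) (hL : S.LBL cL cs cB) (hI : S.LBI cs cB)
    (hT : S.TEL) (hZ : S.PZL ε cP) (hP1 : S.Price cs cB 1 kk) (hP2 : S.Price ε cP cP (C3 * kk))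
    (hH : ∀ k ≤ S.mT, S.Healthy k) (h0 : S.De 0 0 0 ≤ S.a 0 0)
    (hΘ : 3 * Real.pi * S.N / S.δ ≤ Θ) (hΘ0 : 0 ≤ Θ)
    (s1 : 4 * kk + S.d * (1 / cL + cB) * kk * (4 * Θ + 4) ≤ 1 / 2)
    (s2 : S.d * ε ≤ 1 / 16)
    (s3 : (2 * kk + (S.d * C3 + 4 * S.M) * kk * (4 * Θ + 4)) *
      (2 * (S.d * (1 / cL + cB) * cs)) ≤ 1 / 16)
    (s4 : (2 * kk + (S.d * C3 + 4 * S.M) * kk * (4 * Θ + 4)) * 4 ≤ 1) : S.ACC := by
  have H := accHyp hM hκ hc3 hcL.le hcs hcB hε hkk hC3 hκk hck hG1 hG2 hG3 hL hI hT hZ hP1 hP2 hH h0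
  have hd : 0 < S.d := by have := S.hd2; omega
  have h := H.final S.hT hd hcL hcB hcs hkk hC3 (by positivity) (S.cp.A_pos 0 0).le hΘ hΘ0 s1 s2 s3 s4
  have hg : 0 ≤ ∑ t ∈ Finset.range S.T, S.gR t := Finset.sum_nonneg fun t _ => S.gR_nonneg t
  have h1 : (S.De 0 S.mT 0).toReal ≤ 3 * S.cp.A 0 0 := by linarith
  have ha0 : S.a 0 0 = ENNReal.ofReal (S.cp.A 0 0) := by
    unfold a
    rw [if_neg]
    rw [S.cp.Z_zero]
    exact fun h => h
  unfold ACC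
  rw [ha0, show (3 : ℝ≥0∞) = ENNReal.ofReal 3 by norm_num, ← ENNReal.ofReal_mul (by norm_num)]
  exact (ENNReal.le_ofReal_iff_toReal_le (De_ne 0 S.mT 0)
    (mul_nonneg (by norm_num) (S.cp.A_pos 0 0).le)).2 h1

end Vale.Agent.P262.M1.Sys
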