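import Mathlib

/-! # The cluster tree lemma (577, #8412), abstract form -/

namespace Vale.Agent.P262.H359

noncomputable section

/-- states that are transported along time `step t : state at time t ↦ state at time t+1`,
with a one step content `cost t`, and a relation `Ext V V'` (`V'` is `V` with one more
direction).  `ok V`: the state `V` may be extended. -/
structure Sys (S : Type*) where
  step : ℕ → S → S
  cost : ℕ → S → ℝ
  Ext : S → S → Prop
  ok : S → Prop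
  rank : S → ℕ
  c1 : ℝ
  cost_nonneg : ∀ t V, 0 ≤ cost t V
  cost_mono : ∀ t V V', Ext V V' → cost t V ≤ cost t V'
  ext_step : ∀ t V V', Ext V V' → Ext (step t V) (step t V')
  ok_step : ∀ t V, ok V → ok (step t V)
  rank_step : ∀ t V, rank (step t V) = rank V
  rank_ext : ∀ V V', Ext V V' → rank V' < rank V
  light_one : ∀ t V, ok V → ∃ V', Ext V V' ∧ cost t V' ≤ cost t V + c1

variable {S : Type*} (𝕊 : Sys S)

namespace Sys

/-- the state after `n` steps starting at time `a` -/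
def orb (V : S) (a : ℕ) : ℕ → S
  | 0 => V
  | n + 1 => 𝕊.step (a + n) (orb V a n)

@[simp] lemma orb_zero (V : S) (a : ℕ) : 𝕊.orb V a 0 = V := rfl

lemma orb_succ (V : S) (a n : ℕ) : 𝕊.orb V a (n + 1) = 𝕊.step (a + n) (𝕊.orb V a n) := rfl

lemma orb_add (V : S) (a m n : ℕ) : 𝕊.orb V a (m + n) = 𝕊.orb (𝕊.orb V a m) (a + m) n := by
  induction n with
  | zero => rfl
  | succ n ih => rw [← add_assoc, orb_succ, ih, orb_succ, add_assoc]

/-- content of the transported state over `n` steps from time `a` -/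
def tau (V : S) (a n : ℕ) : ℝ := ∑ i ∈ Finset.range n, 𝕊.cost (a + i) (𝕊.orb V a i)

@[simp] lemma tau_zero (V : S) (a : ℕ) : 𝕊.tau V a 0 = 0 := by simp [tau]

lemma tau_one (V : S) (a : ℕ) : 𝕊.tau V a 1 = 𝕊.cost a V := by simp [tau]

lemma tau_nonneg (V : S) (a n : ℕ) : 0 ≤ 𝕊.tau V a n :=
  Finset.sum_nonneg fun _ _ => 𝕊.cost_nonneg _ _

lemma tau_add (V : S) (a m n : ℕ) :
    𝕊.tau V a (m + n) = 𝕊.tau V a m + 𝕊.tau (𝕊.orb V a m) (a + m) n := by
  unfold tau
  rw [Finset.sum_range_add]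
  congr 1
  refine Finset.sum_congr rfl fun i _ => ?_
  rw [← orb_add, add_assoc]

lemma ext_orb {V V' : S} (h : 𝕊.Ext V V') (a n : ℕ) : 𝕊.Ext (𝕊.orb V a n) (𝕊.orb V' a n) := by
  induction n with
  | zero => exact h
  | succ n ih => exact 𝕊.ext_step _ _ _ ih

lemma ok_orb {V : S} (h : 𝕊.ok V) (a n : ℕ) : 𝕊.ok (𝕊.orb V a n) := by
  induction n with
  | zero => exact h
  | succ n ih => exact 𝕊.ok_step _ _ ih

lemma rank_orb (V : S) (a n : ℕ) : 𝕊.rank (𝕊.orb V a n) = 𝕊.rank V := by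
  induction n with
  | zero => rfl
  | succ n ih => rw [orb_succ, rank_step, ih]

lemma tau_mono {V V' : S} (h : 𝕊.Ext V V') (a n : ℕ) : 𝕊.tau V a n ≤ 𝕊.tau V' a n :=
  Finset.sum_le_sum fun _ _ => 𝕊.cost_mono _ _ _ (𝕊.ext_orb h _ _)

/-- `[a,a+n)` is light for one more direction -/
def Light (V : S) (a n : ℕ) : Prop := ∃ V', 𝕊.Ext V V' ∧ 𝕊.tau V' a n ≤ 𝕊.tau V a n + 𝕊.c1

lemma light_of_le {V : S} {a m n : ℕ} (hmn : m ≤ n) (h : 𝕊.Light V a n) : 𝕊.Light V a m := by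
  obtain ⟨V', hV, h⟩ := h
  obtain ⟨k, rfl⟩ := Nat.exists_eq_add_of_le hmn
  refine ⟨V', hV, ?_⟩
  rw [tau_add, tau_add] at h
  have := 𝕊.tau_mono (𝕊.ext_orb hV a m) (a + m) k
  linarith

/-- `[a,a+n)` is a complete interval for `V` inside an interval of total length `N`: light and,
unless it ends at the end, no longer interval is light. -/
def Compl (V : S) (a n N : ℕ) : Prop := 0 < n ∧ n ≤ N ∧ 𝕊.Light V a n ∧
  (n = N ∨ ¬ 𝕊.Light V a (n + 1))

lemma exists_compl {V : S} (hV : 𝕊.ok V) (a N : ℕ) (hN : 0 < N) : ∃ n, 𝕊.Compl V a n N := by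
  classical
  have h1 : 𝕊.Light V a 1 := by
    obtain ⟨V', h, h'⟩ := 𝕊.light_one a V hV
    exact ⟨V', h, by rw [tau_one, tau_one]; exact h'⟩
  let P : ℕ → Prop := fun n => 0 < n ∧ 𝕊.Light V a n
  have hP1 : P 1 := ⟨one_pos, h1⟩
  let n := Nat.findGreatest P N
  have hn : P n := Nat.findGreatest_spec (P := P) hN hP1
  refine ⟨n, hn.1, Nat.findGreatest_le N, hn.2, ?_⟩
  rcases (Nat.findGreatest_le (P := P) N).eq_or_lt with h | h
  · exact Or.inl h
  · right
    intro hl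
    have := Nat.le_findGreatest (P := P) (m := n + 1) h ⟨Nat.succ_pos _, hl⟩
    exact absurd this (Nat.not_succ_le_self _)

variable (ε : ℝ)

/-- `[a,a+n)` is a run of complete `V`-intervals, all of content at most `ε` -/
inductive Run : S → ℕ → ℕ → Prop
  | nil (V : S) (a : ℕ) : Run V a 0
  | cons (V : S) (a m n : ℕ) (h : 𝕊.Compl V a m (m + n)) (he : 𝕊.tau V a m ≤ ε)
      (hr : Run (𝕊.orb V a m) (a + m) n) : Run V a (m + n)

/-- `w`-fold extension -/
inductive ExtN : ℕ → S → S → Prop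
  | zero (V : S) : ExtN 0 V V
  | succ (w : ℕ) (V V' W : S) (h : 𝕊.Ext V V') (h' : ExtN w V' W) : ExtN (w + 1) V W

/-- `[a,a+n)` is cut into intervals, on each of which a `w`-fold extension `W` of the transported
`V` is used, of content at most `X + c1 * w`, and either `W` is terminal or the interval is a run
of light complete `W`-intervals.  The list contains the numbers `w`. -/
inductive Cov (X : ℝ) : S → ℕ → ℕ → List ℕ → Prop
  | nil (V : S) (a : ℕ) : Cov X V a 0 []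
  | cons (V W : S) (a m n w : ℕ) (L : List ℕ) (hm : 0 < m) (hw : 0 < w)
      (hW : ExtN 𝕊 w V W)
      (ht : 𝕊.tau W a m ≤ X + 𝕊.c1 * w) (hr : ¬ 𝕊.ok W ∨ Run 𝕊 ε W a m)
      (h : Cov X (𝕊.orb V a m) (a + m) n L) : Cov X V a (m + n) (w :: L)

variable {𝕊 ε}

lemma Cov.append {X : ℝ} {V : S} {a m n : ℕ} {L L' : List ℕ} (h : Cov 𝕊 ε X V a m L)
    (h' : Cov 𝕊 ε X (𝕊.orb V a m) (a + m) n L') : Cov 𝕊 ε X V a (m + n) (L ++ L') := by
  induction h with
  | nil V a => simpa using h'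
  | cons V W a m k w L hm hw hW ht hr h ih =>
    rw [add_assoc, List.cons_append]
    refine Cov.cons V W a m (k + n) w (L ++ L') hm hw hW ht hr (ih ?_)
    rw [orb_add, ← add_assoc] at h'
    exact h'

lemma Cov.mono {X Y : ℝ} (hXY : X ≤ Y) {V : S} {a n : ℕ} {L : List ℕ}
    (h : Cov 𝕊 ε X V a n L) : Cov 𝕊 ε Y V a n L := by
  induction h with
  | nil V a => exact Cov.nil _ _
  | cons V W a m k w L hm hw hW ht hr h ih =>
    exact Cov.cons _ W _ _ _ _ _ hm hw hW (ht.trans (by linarith)) hr ih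

/-- a cover for `V'` is a cover for `V` with all the exponents raised by one -/
lemma Cov.lift {X : ℝ} {V V' : S} {a n : ℕ} {L : List ℕ} (hV : 𝕊.Ext V V')
    (h : Cov 𝕊 ε (X + 𝕊.c1) V' a n L) :
    Cov 𝕊 ε X V a n (L.map (· + 1)) := by
  induction h generalizing V with
  | nil V' a => exact Cov.nil _ _
  | cons V' W a m k w L hm hw hW ht hr h ih =>
    rw [List.map_cons]
    refine Cov.cons _ W _ _ _ _ _ hm (Nat.succ_pos _) (ExtN.succ _ _ V' _ hV hW) ?_ hr
      (ih (𝕊.ext_orb hV _ _))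
    push_cast
    linarith

/-- Kraft sum -/
def kr (q : ℝ) (L : List ℕ) : ℝ := (L.map fun w => q ^ w).sum

@[simp] lemma kr_nil (q : ℝ) : kr q [] = 0 := rfl
@[simp] lemma kr_cons (q : ℝ) (w : ℕ) (L : List ℕ) : kr q (w :: L) = q ^ w + kr q L := by
  simp [kr]
@[simp] lemma kr_append (q : ℝ) (L L' : List ℕ) : kr q (L ++ L') = kr q L + kr q L' := by
  simp [kr]
lemma kr_lift (q : ℝ) (L : List ℕ) : kr q (L.map (· + 1)) = q * kr q L := by
  induction L with
  | nil => simp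
  | cons w L ih => simp only [List.map_cons, kr_cons, ih]; ring

/-- the step of the induction: `V₁` is one direction richer than `V` -/
lemma greedy {q B : ℝ} (hq : 0 ≤ q) (hB : 0 ≤ B) (hε : 0 < ε) {V V₁ : S} (hV : 𝕊.Ext V V₁)
    (hok : 𝕊.ok V₁)
    (IH : ∀ (a n : ℕ) (W : S), 𝕊.rank W = 𝕊.rank V₁ → 𝕊.ok W → 𝕊.Light W a n →
      ∃ L, Cov 𝕊 ε (𝕊.tau W a n) W a n L ∧ kr q L ≤ B * max 1 (𝕊.tau W a n / ε))
    {X : ℝ} (a N : ℕ) (hX : 𝕊.tau V₁ a N ≤ X + 𝕊.c1) :
    ∃ m n, m + n = N ∧ Run 𝕊 ε V₁ a m ∧ ∃ L,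
      Cov 𝕊 ε X (𝕊.orb V a m) (a + m) n L ∧
      kr q L ≤ q * (1 + B) * (𝕊.tau (𝕊.orb V₁ a m) (a + m) n / ε) := by
  induction N using Nat.strong_induction_on generalizing a V V₁ with
  | _ N ih =>
  rcases Nat.eq_zero_or_pos N with rfl | hN
  · exact ⟨0, 0, rfl, Run.nil _ _, [], Cov.nil _ _, by simp⟩
  obtain ⟨k, hk0, hkN, hkl, hkm⟩ := 𝕊.exists_compl hok a N hN
  obtain ⟨r, rfl⟩ := Nat.exists_eq_add_of_le hkN
  have htk := 𝕊.tau_add V₁ a k r
  have htk0 := 𝕊.tau_nonneg V₁ a k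
  have htr0 := 𝕊.tau_nonneg (𝕊.orb V₁ a k) (a + k) r
  obtain ⟨m, n, hmn, hrun, L, hL, hkr⟩ := ih r (by omega) (V := 𝕊.orb V a k) (V₁ := 𝕊.orb V₁ a k)
    (𝕊.ext_orb hV a k) (𝕊.ok_orb hok a k) (fun a' n' W h1 h2 h3 =>
      IH a' n' W (by rw [h1, rank_orb]) h2 h3) (a + k) (by linarith)
  by_cases hg : 𝕊.tau V₁ a k ≤ ε
  · -- good block: prepend to the run
    refine ⟨k + m, n, by omega, ?_, L, ?_, ?_⟩
    · refine Run.cons _ _ k m ⟨hk0, Nat.le_add_right _ _, hkl, ?_⟩ hg hrun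
      rcases hkm with h | h
      · left; omega
      · exact Or.inr h
    · rw [orb_add, ← add_assoc]; exact hL
    · rw [orb_add, ← add_assoc]; exact hkr
  · -- bad block
    push Not at hg
    obtain ⟨L₁, hL₁, hk₁⟩ := IH a k V₁ rfl hok hkl
    have hx : 1 ≤ 𝕊.tau V₁ a k / ε := by rw [le_div_iff₀ hε]; linarith
    rw [max_eq_right hx] at hk₁
    have hc₁ : Cov 𝕊 ε X V a k (L₁.map (· + 1)) :=
      Cov.lift hV (hL₁.mono (by linarith))
    have hdiv : 𝕊.tau V₁ a (k + r) / ε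
        = 𝕊.tau V₁ a k / ε + 𝕊.tau (𝕊.orb V₁ a k) (a + k) r / ε := by
      rw [htk, add_div]
    have htmn : 𝕊.tau (𝕊.orb V₁ a k) (a + k) r
        = 𝕊.tau (𝕊.orb V₁ a k) (a + k) m
          + 𝕊.tau (𝕊.orb (𝕊.orb V₁ a k) (a + k) m) (a + k + m) n := by
      rw [← hmn, tau_add]
    have htm0 := 𝕊.tau_nonneg (𝕊.orb V₁ a k) (a + k) m
    have hrest : kr q L ≤ q * (1 + B) * (𝕊.tau (𝕊.orb V₁ a k) (a + k) r / ε) := by
      refine hkr.trans (mul_le_mul_of_nonneg_left ?_ (by positivity))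
      exact (div_le_div_iff_of_pos_right hε).2 (by linarith)
    rcases Nat.eq_zero_or_pos m with rfl | hm
    · refine ⟨0, k + r, by omega, Run.nil _ _, L₁.map (· + 1) ++ L, ?_, ?_⟩
      · simp only [orb_zero, add_zero]
        refine hc₁.append ?_
        simpa [← hmn] using hL
      · simp only [orb_zero, add_zero, kr_append, kr_lift]
        rw [hdiv]
        have e1 : q * kr q L₁ ≤ q * (B * (𝕊.tau V₁ a k / ε)) := mul_le_mul_of_nonneg_left hk₁ hq
        have e2 : 0 ≤ q * (𝕊.tau V₁ a k / ε) := by positivity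
        nlinarith
    · refine ⟨0, k + r, by omega, Run.nil _ _, L₁.map (· + 1) ++ (1 :: L), ?_, ?_⟩
      · simp only [orb_zero, add_zero]
        refine hc₁.append ?_
        rw [← hmn]
        refine Cov.cons _ (𝕊.orb V₁ a k) _ _ _ _ _ hm one_pos
          (ExtN.succ _ _ _ _ (𝕊.ext_orb hV a k) (ExtN.zero _)) ?_ (Or.inr hrun) hL
        push_cast
        rw [mul_one]
        have := 𝕊.tau_nonneg (𝕊.orb (𝕊.orb V₁ a k) (a + k) m) (a + k + m) n
        linarith
      · simp only [orb_zero, add_zero, kr_append, kr_lift, kr_cons, pow_one]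
        rw [hdiv]
        have e1 : q * kr q L₁ ≤ q * (B * (𝕊.tau V₁ a k / ε)) := mul_le_mul_of_nonneg_left hk₁ hq
        have e2 : q * 1 ≤ q * (𝕊.tau V₁ a k / ε) := mul_le_mul_of_nonneg_left hx hq
        nlinarith

/-- **Cluster tree lemma (abstract form).** If the extra content of one more direction over
`[a,a+n)` is at most `c1 ≤ ε`, then the interval can be cut into intervals on which a `w`-fold
extension `W` of the transported `V` is used (`w ≥ 1`), of content at most `τ(V) + c1 w`, such that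
`W` is terminal or the interval is a run of complete `W`-intervals of content `≤ ε`, and
`∑ q^w ≤ B max(1, τ(V)/ε)`, `B = 3q/(1-2q)`. -/
theorem cluster_tree {q : ℝ} (hq : 0 ≤ q) (hq2 : q ≤ 1 / 4) (hε : 0 < ε) (hc : 𝕊.c1 ≤ ε) :
    ∀ (r : ℕ) (a n : ℕ) (V : S), 0 < n → 𝕊.rank V = r → 𝕊.Light V a n →
      ∃ L, Cov 𝕊 ε (𝕊.tau V a n) V a n L ∧
        kr q L ≤ 3 * q / (1 - 2 * q) * max 1 (𝕊.tau V a n / ε) := by
  intro r
  induction r using Nat.strong_induction_on with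
  | _ r ih =>
  intro a n V hn hr hl
  obtain ⟨V₁, hV, hl⟩ := hl
  have hB0 : (0:ℝ) < 1 - 2 * q := by linarith
  have hB : 0 ≤ 3 * q / (1 - 2 * q) := by positivity
  have hBq : q * (3 + 2 * (3 * q / (1 - 2 * q))) = 3 * q / (1 - 2 * q) := by
    have h1 : 3 * q / (1 - 2 * q) * (1 - 2 * q) = 3 * q := div_mul_cancel₀ _ hB0.ne'
    linear_combination -h1
  set B := 3 * q / (1 - 2 * q) with hBdef
  have hmax : 1 ≤ max 1 (𝕊.tau V a n / ε) := le_max_left _ _
  have hmax2 : 𝕊.tau V a n / ε ≤ max 1 (𝕊.tau V a n / ε) := le_max_right _ _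
  set M := max 1 (𝕊.tau V a n / ε)
  by_cases hok : 𝕊.ok V₁
  swap
  · refine ⟨[1], ?_, ?_⟩
    · have := Cov.cons (𝕊 := 𝕊) (ε := ε) (X := 𝕊.tau V a n) V V₁ a n 0 1 [] hn one_pos
        (ExtN.succ _ _ _ _ hV (ExtN.zero _)) (by push_cast; linarith) (Or.inl hok)
        (Cov.nil _ _)
      simpa using this
    · simp only [kr_cons, kr_nil, pow_one, add_zero]
      have h1 : B ≤ B * M := le_mul_of_one_le_right hB hmax
      nlinarith
  obtain ⟨m, k, hmk, hrun, L, hL, hkr⟩ := greedy (𝕊 := 𝕊) (ε := ε) hq hB hε hV hok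
    (fun a' n' W h1 h2 h3 => by
      rcases Nat.eq_zero_or_pos n' with rfl | hn'
      · exact ⟨[], Cov.nil _ _, by simp; positivity⟩
      · exact ih (𝕊.rank W) (by rw [h1, ← hr]; exact 𝕊.rank_ext _ _ hV) a' n' W hn' rfl h3)
    (X := 𝕊.tau V a n) a n hl
  have hc' : 𝕊.c1 / ε ≤ 1 := by rw [div_le_one hε]; exact hc
  have hx1 : 𝕊.tau V₁ a n / ε ≤ 2 * M := by
    have : 𝕊.tau V₁ a n / ε ≤ 𝕊.tau V a n / ε + 𝕊.c1 / ε := by
      rw [← add_div]; exact (div_le_div_iff_of_pos_right hε).2 hl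
    linarith
  have hsplit : 𝕊.tau V₁ a n = 𝕊.tau V₁ a m + 𝕊.tau (𝕊.orb V₁ a m) (a + m) k := by
    rw [← hmk, tau_add]
  have hm0 := 𝕊.tau_nonneg V₁ a m
  have hk0 := 𝕊.tau_nonneg (𝕊.orb V₁ a m) (a + m) k
  have hkr' : kr q L ≤ q * (1 + B) * (2 * M) := by
    refine hkr.trans (mul_le_mul_of_nonneg_left (le_trans ?_ hx1) (by positivity))
    exact (div_le_div_iff_of_pos_right hε).2 (by linarith)
  rcases Nat.eq_zero_or_pos m with rfl | hm
  · refine ⟨L, by simpa [← hmk] using hL, ?_⟩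
    have : q * (1 + B) * (2 * M) ≤ B * M := by
      calc q * (1 + B) * (2 * M) = (q * (2 + 2 * B)) * M := by ring
        _ ≤ (q * (3 + 2 * B)) * M := by
          refine mul_le_mul_of_nonneg_right (mul_le_mul_of_nonneg_left (by linarith) hq)
            (by linarith)
        _ = B * M := by rw [hBq]
    linarith
  · refine ⟨1 :: L, ?_, ?_⟩
    · have hcc := Cov.cons (𝕊 := 𝕊) (ε := ε) (X := 𝕊.tau V a n) V V₁ a m k 1 L hm one_pos
        (ExtN.succ _ _ _ _ hV (ExtN.zero _)) (by push_cast; linarith) (Or.inr hrun) hL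
      rwa [hmk] at hcc
    · simp only [kr_cons, pow_one]
      calc q + kr q L ≤ q * M + q * (1 + B) * (2 * M) := by nlinarith
        _ = (q * (3 + 2 * B)) * M := by ring
        _ = B * M := by rw [hBq]

end Sys

end

end Vale.Agent.P262.H359
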