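import Vale.Agent.P262.H359.Tree

/-! # Cluster tree lemma for transported subspaces -/

open Module

namespace Vale.Agent.P262.H359

noncomputable section

variable {E : Type*} [NormedAddCommGroup E] [InnerProductSpace ℝ E] [FiniteDimensional ℝ E]

/-- one more direction, perpendicular to a given vector -/
lemma exists_ext_perp (V : Submodule ℝ E) (v : E) (h : finrank ℝ V + 2 ≤ finrank ℝ E) :
    ∃ V' : Submodule ℝ E, V ≤ V' ∧ finrank ℝ V' = finrank ℝ V + 1 ∧
      V'.starProjection v = V.starProjection v := by
  -- a nonzero vector perpendicular to `V` and `v`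
  have h1 : finrank ℝ (V ⊔ Submodule.span ℝ {v} : Submodule ℝ E) ≤ finrank ℝ V + 1 := by
    refine (Submodule.finrank_add_le_finrank_add_finrank _ _).trans ?_
    have := finrank_span_le_card (R := ℝ) ({v} : Set E)
    simp at this
    omega
  have h2 : (V ⊔ Submodule.span ℝ {v} : Submodule ℝ E)ᗮ ≠ ⊥ := by
    intro h0
    have := Submodule.finrank_add_finrank_orthogonal (V ⊔ Submodule.span ℝ {v} : Submodule ℝ E)
    rw [h0, finrank_bot] at this
    omega
  obtain ⟨θ, hθ, hθ0⟩ := Submodule.exists_mem_ne_zero_of_ne_bot h2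
  have hθV : θ ∈ Vᗮ := Submodule.orthogonal_le le_sup_left hθ
  have hθv : inner ℝ v θ = 0 :=
    (Submodule.mem_orthogonal _ _).1 hθ v
      (Submodule.mem_sup_right (Submodule.mem_span_singleton_self v))
  refine ⟨V ⊔ Submodule.span ℝ {θ}, le_sup_left, ?_, ?_⟩
  · have hd : V ⊓ Submodule.span ℝ {θ} = ⊥ := by
      rw [Submodule.eq_bot_iff]
      rintro x ⟨hx, hx'⟩
      obtain ⟨c, rfl⟩ := Submodule.mem_span_singleton.1 hx'
      have h3 : inner ℝ (c • θ) (c • θ) = 0 :=
        (Submodule.mem_orthogonal _ _).1 (Submodule.smul_mem _ c hθV) _ hx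
      exact inner_self_eq_zero.1 h3
    have := Submodule.finrank_sup_add_finrank_inf_eq V (Submodule.span ℝ {θ})
    rw [hd, finrank_bot, finrank_span_singleton hθ0] at this
    omega
  · apply Submodule.eq_starProjection_of_mem_of_inner_eq_zero
    · exact Submodule.mem_sup_left (Submodule.starProjection_apply_mem V v)
    · intro w hw
      obtain ⟨a, ha, b, hb, rfl⟩ := Submodule.mem_sup.1 hw
      obtain ⟨c, rfl⟩ := Submodule.mem_span_singleton.1 hb
      have e1 : inner ℝ (v - V.starProjection v) a = 0 := by
        have := Submodule.sub_starProjection_mem_orthogonal (K := V) v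
        exact (Submodule.mem_orthogonal' _ _).1 this a ha
      have e2 : inner ℝ (V.starProjection v) θ = 0 :=
        (Submodule.mem_orthogonal _ _).1 hθV _ (Submodule.starProjection_apply_mem V v)
      rw [inner_add_right, e1, inner_smul_right, inner_sub_left, hθv, e2]
      simp

/-- content of a larger space is larger -/
lemma norm_starProjection_mono {V V' : Submodule ℝ E} (h : V ≤ V') (v : E) :
    ‖V.starProjection v‖ ≤ ‖V'.starProjection v‖ := by
  have e : V.starProjection v = V.starProjection (V'.starProjection v) := by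
    have := Submodule.starProjection_comp_starProjection_of_le h
    exact (congrArg (fun T : E →L[ℝ] E => T v) this).symm
  rw [e]
  exact Submodule.norm_starProjection_apply_le _ _

/-- subspaces transported by linear automorphisms, content `c |P_V v_t|²` -/
def subSys (A : ℕ → (E ≃ₗ[ℝ] E)) (v : ℕ → E) (c c1 : ℝ) (hc : 0 ≤ c) (hc1 : 0 ≤ c1) :
    Sys (Submodule ℝ E) where
  step t V := V.map (A t : E →ₗ[ℝ] E)
  cost t V := c * ‖V.starProjection (v t)‖ ^ 2
  Ext V V' := V ≤ V' ∧ finrank ℝ V' = finrank ℝ V + 1
  ok V := finrank ℝ V + 2 ≤ finrank ℝ E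
  rank V := finrank ℝ E - finrank ℝ V
  c1 := c1
  cost_nonneg t V := by positivity
  cost_mono t V V' h := by
    have := norm_starProjection_mono h.1 (v t)
    gcongr
  ext_step t V V' h := by
    refine ⟨Submodule.map_mono h.1, ?_⟩
    rw [LinearEquiv.finrank_map_eq (A t) V, LinearEquiv.finrank_map_eq (A t) V']
    exact h.2
  ok_step t V h := by
    rw [LinearEquiv.finrank_map_eq (A t) V]; exact h
  rank_step t V := by
    show finrank ℝ E - finrank ℝ (V.map (A t : E →ₗ[ℝ] E)) = _
    rw [LinearEquiv.finrank_map_eq (A t) V]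
  rank_ext V V' h := by
    have := Submodule.finrank_le V'
    omega
  light_one t V h := by
    obtain ⟨V', h1, h2, h3⟩ := exists_ext_perp V (v t) h
    refine ⟨V', ⟨h1, h2⟩, ?_⟩
    rw [h3]
    linarith

end

end Vale.Agent.P262.H359
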